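import Vale.Agent.P231.W.Defs

/-!
# P231 (A): orientations of a manifold, as a predicate on the bases of the tangent spaces
-/

set_option maxSynthPendingDepth 3
set_option linter.unusedSectionVars false
set_option linter.unusedVariables false

open Bundle Manifold Set Filter Module
open scoped ContDiff Manifold Topology

namespace Vale.Agent.P231Z.N2

open Vale.Agent.P231 Vale.Agent.P231.Fm Vale.Agent.P231.W

/-- `op x c` says that `c` is a positive basis of the tangent space at `x` -/
structure OriM (E : Type*) [NormedAddCommGroup E] [NormedSpace ℝ E] (M : Type*) [MetricSpace M]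
    [ChartedSpace E M] [IsManifold 𝓘(ℝ, E) ∞ M] (n : ℕ) (op : M → (Fin n → E) → Prop) :
    Prop where
  ex : ∀ x, ∃ c, op x c
  li : ∀ x c, op x c → LinearIndependent ℝ c
  det : ∀ x (c : Fin n → E) (A : Matrix (Fin n) (Fin n) ℝ), op x c →
    op x (fun a => ∑ b, A a b • c b) → 0 < A.det
  loc : ∀ {E' : Type} [NormedAddCommGroup E'] [NormedSpace ℝ E'] [FiniteDimensional ℝ E']
    {f : E' → M} {c : E' → Fin n → E} {x : E'}, (dM E M).At f x →
    (∀ a, (dTM E M).At (fun s => tb (f s) (c s a)) x) → op (f x) (c x) →
    ∀ᶠ s in 𝓝 x, op (f s) (c s)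

end Vale.Agent.P231Z.N2
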