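import Vale.Agent.P231Z.N2.Defs

/-!
# P231 (A), SIG: the gap and the negative projection of the antiperiodic family
-/

set_option maxSynthPendingDepth 3
set_option linter.unusedSectionVars false
set_option linter.unusedVariables false

open Bundle Manifold Set Filter Module MeasureTheory
open scoped ContDiff Manifold Topology ENNReal

namespace Vale.Agent.P231Z.N2

noncomputable section

open Vale.Agent.P234 Vale.Agent.P231 Vale.Agent.P231.Fm Vale.Agent.P231.W Vale.Agent.P231.WR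
open Vale.Agent.P231.H775 Vale.Agent.P231.WC Vale.Agent.P231.WF Vale.Agent.P231.S2N

namespace Gp

/-! ### linear algebra -/

section Lin

variable {V : Type*} [NormedAddCommGroup V] [InnerProductSpace ℝ V] [FiniteDimensional ℝ V]

/-- the operator of a bilinear form -/
def opB (B : V → V → ℝ) : V →L[ℝ] V :=
  ∑ i, ∑ j, B (stdOrthonormalBasis ℝ V j) (stdOrthonormalBasis ℝ V i) •
    (innerSL ℝ (stdOrthonormalBasis ℝ V j)).smulRight (stdOrthonormalBasis ℝ V i)

theorem inner_opB (B : V →ₗ[ℝ] V →ₗ[ℝ] ℝ) (z w : V) :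
    inner ℝ (opB (fun x y => B x y) z) w = B z w := by
  set b := stdOrthonormalBasis ℝ V with hb
  have h1 : B z w = ∑ i, ∑ j, B (b j) (b i) * (inner ℝ (b j) z * inner ℝ (b i) w) := by
    conv_lhs => rw [← b.sum_repr' z, ← b.sum_repr' w]
    simp only [map_sum, map_smul, LinearMap.sum_apply, LinearMap.smul_apply, smul_eq_mul,
      Finset.mul_sum]
    refine Finset.sum_congr rfl fun i _ => Finset.sum_congr rfl fun j _ => ?_
    ring
  rw [h1]
  unfold opB
  simp only [sum_apply, smul_apply, sum_inner, real_inner_smul_left,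
    ContinuousLinearMap.smulRight_apply, innerSL_apply_apply, ← hb]

/-- negativity on a subspace is an open condition -/
theorem neg_open {T : Type*} [TopologicalSpace T] {Q : T → V →L[ℝ] V} {t₀ : T}
    (hQ : ContinuousAt Q t₀) (K : Submodule ℝ V)
    (h : ∀ x ∈ K, x ≠ 0 → inner ℝ (Q t₀ x) x < (0 : ℝ)) :
    ∃ ε : ℝ, 0 < ε ∧ ∀ᶠ t in 𝓝 t₀, ∀ x ∈ K, inner ℝ (Q t x) x ≤ -ε * ‖x‖ ^ 2 := by
  have hc : IsCompact ((K : Set V) ∩ Metric.sphere 0 1) :=
    (isCompact_sphere 0 1).inter_left K.closed_of_finiteDimensional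
  have hcont : Continuous fun x : V => (inner ℝ (Q t₀ x) x : ℝ) := by fun_prop
  obtain ⟨ε, hε, hmax⟩ : ∃ ε : ℝ, 0 < ε ∧ ∀ x ∈ (K : Set V) ∩ Metric.sphere 0 1,
      inner ℝ (Q t₀ x) x ≤ -(2 * ε) := by
    rcases ((K : Set V) ∩ Metric.sphere 0 1).eq_empty_or_nonempty with h0 | h0
    · exact ⟨1, one_pos, fun x hx => by rw [h0] at hx; exact absurd hx (notMem_empty x)⟩
    · obtain ⟨x₀, h1, h2⟩ := hc.exists_isMaxOn h0 hcont.continuousOn
      have h3 : x₀ ≠ 0 := by
        rintro rfl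
        have h4 := h1.2
        rw [mem_sphere_zero_iff_norm, norm_zero] at h4
        exact zero_ne_one h4
      have h4 := h x₀ h1.1 h3
      refine ⟨-inner ℝ (Q t₀ x₀) x₀ / 2, by linarith, fun x hx => ?_⟩
      have h5 : (inner ℝ (Q t₀ x) x : ℝ) ≤ inner ℝ (Q t₀ x₀) x₀ := h2 hx
      linarith
  have h2 : ∀ x ∈ K, (inner ℝ (Q t₀ x) x : ℝ) ≤ -(2 * ε) * ‖x‖ ^ 2 := by
    intro x hx
    rcases eq_or_ne x 0 with rfl | hx0
    · simp
    · have hn : 0 < ‖x‖ := norm_pos_iff.2 hx0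
      have h3 := hmax (‖x‖⁻¹ • x) ⟨K.smul_mem _ hx, by
        rw [mem_sphere_zero_iff_norm, norm_smul, norm_inv, norm_norm, inv_mul_cancel₀ hn.ne']⟩
      rw [map_smul, real_inner_smul_left, real_inner_smul_right] at h3
      have h4 := mul_le_mul_of_nonneg_left h3 (sq_nonneg ‖x‖)
      have h5 : ‖x‖ ^ 2 * (‖x‖⁻¹ * (‖x‖⁻¹ * inner ℝ (Q t₀ x) x)) = (inner ℝ (Q t₀ x) x : ℝ) := by
        field_simp
      linarith
  refine ⟨ε, hε, ?_⟩
  filter_upwards [hQ.eventually (Metric.ball_mem_nhds (Q t₀) hε)] with t ht x hx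
  have h3 : ‖Q t - Q t₀‖ ≤ ε := by
    rw [← dist_eq_norm]
    exact le_of_lt ht
  have h4 : (inner ℝ ((Q t - Q t₀) x) x : ℝ) ≤ ε * ‖x‖ ^ 2 := by
    refine (real_inner_le_norm _ _).trans ?_
    have h5 := ((Q t - Q t₀).le_opNorm x).trans
      (mul_le_mul_of_nonneg_right h3 (norm_nonneg x))
    have h6 := mul_le_mul_of_nonneg_right h5 (norm_nonneg x)
    linarith
  rw [sub_apply, inner_sub_left] at h4
  have h5 := h2 x hx
  linarith

/-- the spectral projections of conjugate operators -/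
theorem pm_conj {δ : ℝ} {Q Q' : V →L[ℝ] V} {A K A' K' : Submodule ℝ V} (hg : Gap δ Q A K)
    (hg' : Gap δ Q' A' K') (R : V →L[ℝ] V) (hR : ∀ x, Q' (R x) = R (Q x)) (x : V) :
    pm δ Q' (R x) = R (pm δ Q x) := by
  obtain ⟨b, k, hb, hk, -⟩ := hg.exists_basis
  conv_lhs => rw [← b.sum_repr' x]
  conv_rhs => rw [← b.sum_repr' x]
  simp only [map_sum, map_smul]
  refine Finset.sum_congr rfl fun i _ => ?_
  rw [hg.pm_basis (hb i) (hk i) hg.mem_Dm,
    hg'.pm_basis (x := R (b i)) (by rw [hR, hb i, map_smul]) (hk i) hg'.mem_Dm]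
  split_ifs
  · rfl
  · rw [map_zero]

end Lin

theorem finrank_le_ker {V G G' : Type*} [AddCommGroup V] [Module ℝ V] [FiniteDimensional ℝ V]
    [AddCommGroup G] [Module ℝ G] [FiniteDimensional ℝ G] [AddCommGroup G'] [Module ℝ G']
    [FiniteDimensional ℝ G'] (f : V →ₗ[ℝ] G) (g : V →ₗ[ℝ] G') (A : Submodule ℝ G)
    (B : Submodule ℝ G') (hf : ∀ x, f x ∈ A) (hg : ∀ x, g x ∈ B) :
    finrank ℝ V ≤ finrank ℝ A + finrank ℝ B +
      finrank ℝ (LinearMap.ker f ⊓ LinearMap.ker g : Submodule ℝ V) := by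
  have h1 := LinearMap.finrank_range_add_finrank_ker
    ((f.codRestrict A hf).prod (g.codRestrict B hg))
  have h2 := Submodule.finrank_le (LinearMap.range ((f.codRestrict A hf).prod (g.codRestrict B hg)))
  rw [LinearMap.ker_prod, LinearMap.ker_codRestrict, LinearMap.ker_codRestrict] at h1
  rw [Module.finrank_prod] at h2
  omega

section Block

variable {m : ℕ} {ι : Type} [Fintype ι]

/-- the vectors of one block -/
def bk (k : Fin m) : EuclideanSpace ℝ ι →ₗ[ℝ] EuclideanSpace ℝ (Fin m × ι) where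
  toFun c := WithLp.toLp 2 fun j => if j.1 = k then c j.2 else 0
  map_add' c c' := by
    ext j
    simp only [PiLp.add_apply]
    split_ifs <;> simp
  map_smul' r c := by
    ext j
    simp only [PiLp.smul_apply, RingHom.id_apply, smul_eq_mul]
    split_ifs <;> simp

theorem bk_apply (k : Fin m) (c : EuclideanSpace ℝ ι) (j : Fin m × ι) :
    bk k c j = if j.1 = k then c j.2 else 0 := rfl

theorem sum_bk {G : Type*} [AddCommGroup G] [Module ℝ G] (k : Fin m) (c : EuclideanSpace ℝ ι)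
    (f : Fin m × ι → G) : ∑ j, bk k c j • f j = ∑ i, c i • f (k, i) := by
  rw [Fintype.sum_prod_type]
  simp only [bk_apply]
  rw [Finset.sum_eq_single k]
  · refine Finset.sum_congr rfl fun i _ => ?_
    simp
  · intro b _ hb
    refine Finset.sum_eq_zero fun i _ => ?_
    simp [hb]
  · intro h
    exact absurd (Finset.mem_univ k) h

theorem norm_bk (k : Fin m) (c : EuclideanSpace ℝ ι) : ‖bk k c‖ ^ 2 = ‖c‖ ^ 2 := by
  rw [EuclideanSpace.real_norm_sq_eq, EuclideanSpace.real_norm_sq_eq]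
  have h1 := sum_bk k c (fun j => bk k c j)
  have h2 : ∀ i, bk k c (k, i) = c i := by
    intro i
    rw [bk_apply]
    simp
  simp only [smul_eq_mul, h2] at h1
  simp only [sq]
  exact h1

/-- the coefficient vectors of one block -/
def bV (k : Fin m) : V2 ι →ₗ[ℝ] V2 (Fin m × ι) where
  toFun z := WithLp.toLp 2 (bk k z.fst, bk k z.snd)
  map_add' z w := V2.ext ((bk k).map_add _ _) ((bk k).map_add _ _)
  map_smul' r z := V2.ext ((bk k).map_smul _ _) ((bk k).map_smul _ _)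

theorem bV_fst (k : Fin m) (z : V2 ι) : (bV k z).fst = bk k z.fst := rfl

theorem bV_snd (k : Fin m) (z : V2 ι) : (bV k z).snd = bk k z.snd := rfl

theorem norm_bV (k : Fin m) (z : V2 ι) : ‖bV k z‖ ^ 2 = ‖z‖ ^ 2 := by
  rw [WithLp.prod_norm_sq_eq_of_L2, WithLp.prod_norm_sq_eq_of_L2, bV_fst, bV_snd, norm_bk, norm_bk]

theorem bV_inj (k : Fin m) : Function.Injective (bV (ι := ι) k) := by
  rw [injective_iff_map_eq_zero]
  intro z hz
  have h1 := norm_bV k z
  rw [hz, norm_zero] at h1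
  exact norm_eq_zero.1 (pow_eq_zero_iff two_ne_zero |>.1 (h1.symm.trans (zero_pow two_ne_zero)))

theorem Rt_bV (D t : ℝ) (k : Fin m) (z : V2 ι) : Rt D t (bV k z) = bV k (Rt D t z) := by
  refine V2.ext ?_ ?_
  · rw [bV_fst, Rt_fst, Rt_fst, map_sub, map_smul, map_smul, bV_fst, bV_snd]
  · rw [bV_snd, Rt_snd, Rt_snd, map_add, map_smul, map_smul, bV_fst, bV_snd]

/-- the special coefficient vectors -/
def zc (N l : ℕ) : EuclideanSpace ℝ (Fin N ⊕ Fin l) →ₗ[ℝ] V2 (Fin N ⊕ Fin l) where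
  toFun c := WithLp.toLp 2 (WithLp.toLp 2 (Sum.elim (fun i => c (Sum.inl i)) fun _ => 0),
    WithLp.toLp 2 (Sum.elim (fun _ => 0) fun j => c (Sum.inr j)))
  map_add' c c' := by
    refine V2.ext ?_ ?_
    · ext j
      cases j
      · rfl
      · exact (add_zero (0 : ℝ)).symm
    · ext j
      cases j
      · exact (add_zero (0 : ℝ)).symm
      · rfl
  map_smul' r c := by
    refine V2.ext ?_ ?_
    · ext j
      cases j
      · rfl
      · exact (mul_zero r).symm
    · ext j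
      cases j
      · exact (mul_zero r).symm
      · rfl

theorem zc_inj (N l : ℕ) : Function.Injective (zc N l) := by
  intro c c' h
  ext j
  cases j with
  | inl i => exact congrArg (fun z : V2 (Fin N ⊕ Fin l) => z.fst (Sum.inl i)) h
  | inr j => exact congrArg (fun z : V2 (Fin N ⊕ Fin l) => z.snd (Sum.inr j)) h

end Block

variable {E : Type*} [NormedAddCommGroup E] [NormedSpace ℝ E]
  {M : Type*} [MetricSpace M] [ChartedSpace E M]
  [RiemannianBundle (fun x : M => TangentSpace 𝓘(ℝ, E) x)]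
  {e : ∀ x : M, TangentSpace 𝓘(ℝ, E) x → M}
  [FiniteDimensional ℝ E] [IsManifold 𝓘(ℝ, E) ∞ M]
  [IsContMDiffRiemannianBundle 𝓘(ℝ, E) ∞ E (fun x : M => TangentSpace 𝓘(ℝ, E) x)]
  [CompactSpace M] [ConnectedSpace M] [IsRiemannianManifold 𝓘(ℝ, E) M]

variable {D : ℝ} {κ : Type} [Fintype κ] [DecidableEq κ] {W C S : κ → UT E M → E}

/-! ### the pairing -/

theorem sr_add (F : Facts e) (v : UT E M) (z w : V2 κ) (t : ℝ) :
    sr F D W v (z + w) t = sr F D W v z t + sr F D W v w t := by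
  unfold sr
  rw [map_add, WithLp.add_fst, XX_add]

theorem sr_smul (F : Facts e) (v : UT E M) (c : ℝ) (z : V2 κ) (t : ℝ) :
    sr F D W v (c • z) t = c • sr F D W v z t := by
  unfold sr
  rw [map_smul, WithLp.smul_fst, XX_smul]

theorem ln_add (F : Facts e) (v : UT E M) (z w : V2 κ) (t : ℝ) :
    ln F D C S v (z + w) t = ln F D C S v z t + ln F D C S v w t := by
  unfold ln Y2
  rw [map_add, WithLp.add_fst, WithLp.add_snd, XX_add, XX_add]
  abel

theorem ln_smul (F : Facts e) (v : UT E M) (c : ℝ) (z : V2 κ) (t : ℝ) :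
    ln F D C S v (c • z) t = c • ln F D C S v z t := by
  unfold ln Y2
  rw [map_smul, WithLp.smul_fst, WithLp.smul_snd, XX_smul, XX_smul, smul_add]

theorem sr_phi (F : Facts e) (v : UT E M) (s : ℝ) (z : V2 κ) (t : ℝ) :
    sr F D W (phi F (v, s)) (Rt D s z) t = sr F D W v z (s + t) := by
  unfold sr
  rw [Rt_add, phi_add]

theorem ln_phi (F : Facts e) (v : UT E M) (s : ℝ) (z : V2 κ) (t : ℝ) :
    ln F D C S (phi F (v, s)) (Rt D s z) t = ln F D C S v z (s + t) := by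
  unfold ln
  rw [Rt_add, phi_add]

theorem sr_anti (F : Facts e) (hD : 0 < D) (hB : InjGE e D) (hdiam : ∀ p q : M, dist p q ≤ D)
    (v : UT E M) (z : V2 κ) (t : ℝ) : sr F D W v z (2 * D + t) = -sr F D W v z t := by
  rw [← sr_phi, Vale.Agent.P231.W.phi_per F hD hB hdiam, Rt_two hD, ← neg_one_smul ℝ z, sr_smul, neg_one_smul]

theorem ln_anti (F : Facts e) (hD : 0 < D) (hB : InjGE e D) (hdiam : ∀ p q : M, dist p q ≤ D)
    (v : UT E M) (z : V2 κ) (t : ℝ) : ln F D C S v z (2 * D + t) = -ln F D C S v z t := by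
  rw [← ln_phi, Vale.Agent.P231.W.phi_per F hD hB hdiam, Rt_two hD, ← neg_one_smul ℝ z, ln_smul, neg_one_smul]

theorem contDiff_Rt_fst (D : ℝ) (z : V2 κ) : ContDiff ℝ ∞ fun t => (Rt D t z).fst := by
  simp only [Rt_fst]
  exact ((Real.contDiff_cos.comp (contDiff_an D)).smul contDiff_const).sub
    ((Real.contDiff_sin.comp (contDiff_an D)).smul contDiff_const)

theorem contDiff_Rt_snd (D : ℝ) (z : V2 κ) : ContDiff ℝ ∞ fun t => (Rt D t z).snd := by
  simp only [Rt_snd]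
  exact ((Real.contDiff_sin.comp (contDiff_an D)).smul contDiff_const).add
    ((Real.contDiff_cos.comp (contDiff_an D)).smul contDiff_const)

theorem map_igd (F : Facts e) (hW : ∀ i, Fld (W i)) (hC : ∀ i, Fld (C i)) (hS : ∀ i, Fld (S i))
    (z w : V2 κ) : ((dUT E M).prod (Dif.lin ℝ)).Map (Dif.lin ℝ) (fun p : UT E M × ℝ =>
      ip (gm e p) (sr F D W p.1 z p.2) (ln F D C S p.1 w p.2)) := by
  intro E' _ _ _ u x hu
  have h2 : (dUT E M).At (fun s => phi F (u s)) x := map_phi F hu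
  have ht : Sm (fun s => (u s).2) x := hu.2
  have c1 : ∀ z : V2 κ, Sm (fun s => (Rt D (u s).2 z).fst) x := fun z =>
    Sm.comp (f := fun t => (Rt D t z).fst) (Sm.of_contDiff (contDiff_Rt_fst D z) _) ht
  have c2 : ∀ z : V2 κ, Sm (fun s => (Rt D (u s).2 z).snd) x := fun z =>
    Sm.comp (f := fun t => (Rt D t z).snd) (Sm.of_contDiff (contDiff_Rt_snd D z) _) ht
  exact sm_ip_tb (at_XX hW h2 (c1 z)) (at_add (at_XX hC h2 (c1 w)) (at_XX hS h2 (c2 w)))

theorem cont_igd (F : Facts e) (hW : ∀ i, Fld (W i)) (hC : ∀ i, Fld (C i)) (hS : ∀ i, Fld (S i))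
    (v : UT E M) (z w : V2 κ) :
    Continuous fun t => ip (gm e (v, t)) (sr F D W v z t) (ln F D C S v w t) := by
  refine continuous_iff_continuousAt.2 fun t => ?_
  have h1 : Sm (fun t : ℝ => ip (gm e (v, t)) (sr F D W v z t) (ln F D C S v w t)) t :=
    map_igd F hW hC hS z w (u := fun r : ℝ => (v, r))
      ⟨H766.At_const_UT v t, Sm.of_contDiff contDiff_id t⟩
  exact h1.continuousAt

theorem map_n2 (F : Facts e) (hW : ∀ i, Fld (W i)) (hC : ∀ i, Fld (C i)) (hS : ∀ i, Fld (S i))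
    (z w : V2 κ) : (dUT E M).Map (Dif.lin ℝ) (fun v => n2 F D W C S v z w) := by
  have h2 : (dUT E M).Map (Dif.lin ℝ) (fun v : UT E M => ∫ t in (0 : ℝ)..(2 * D),
      (fun p : UT E M × ℝ => ip (gm e p) (sr F D W p.1 z p.2) (ln F D C S p.1 w p.2)) (v, t)) :=
    H766.map_integral (map_igd F hW hC hS z w) (2 * D)
  exact fun {E'} _ _ _ {u x} hu => h2 hu

/-- the pairing is bilinear -/
def n2L (F : Facts e) (D : ℝ) (hW : ∀ i, Fld (W i)) (hC : ∀ i, Fld (C i)) (hS : ∀ i, Fld (S i))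
    (v : UT E M) : V2 κ →ₗ[ℝ] V2 κ →ₗ[ℝ] ℝ :=
  LinearMap.mk₂ ℝ (n2 F D W C S v)
    (fun z z' w => by
      unfold n2
      simp only [sr_add, ip_add_left']
      exact intervalIntegral.integral_add ((cont_igd F hW hC hS v z w).intervalIntegrable _ _)
        ((cont_igd F hW hC hS v z' w).intervalIntegrable _ _))
    (fun c z w => by
      unfold n2
      simp only [sr_smul, ip_smul_left']
      exact intervalIntegral.integral_const_mul _ _)
    (fun z w w' => by
      unfold n2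
      simp only [ln_add, ip_add_right']
      exact intervalIntegral.integral_add ((cont_igd F hW hC hS v z w).intervalIntegrable _ _)
        ((cont_igd F hW hC hS v z w').intervalIntegrable _ _))
    (fun c z w => by
      unfold n2
      simp only [ln_smul, ip_smul_right']
      exact intervalIntegral.integral_const_mul _ _)

theorem n2_phi (F : Facts e) (hD : 0 < D) (hB : InjGE e D) (hdiam : ∀ p q : M, dist p q ≤ D)
    (v : UT E M) (s : ℝ) (z w : V2 κ) :
    n2 F D W C S (phi F (v, s)) (Rt D s z) (Rt D s w) = n2 F D W C S v z w := by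
  set f : ℝ → ℝ := fun t => ip (gm e (v, t)) (sr F D W v z t) (ln F D C S v w t) with hf
  have hper : Function.Periodic f (2 * D) := by
    intro t
    have k2 : gm e (v, 2 * D + t) = gm e (v, t) := by
      rw [← gm_phi F, Vale.Agent.P231.W.phi_per F hD hB hdiam]
    simp only [hf]
    rw [add_comm t, k2, sr_anti F hD hB hdiam, ln_anti F hD hB hdiam]
    exact inner_neg_neg (𝕜 := ℝ) (E := TangentSpace 𝓘(ℝ, E) (gm e (v, t))) _ _
  have h1 : n2 F D W C S (phi F (v, s)) (Rt D s z) (Rt D s w) =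
      ∫ t in (0 : ℝ)..(2 * D), f (s + t) := by
    unfold n2
    refine intervalIntegral.integral_congr fun t _ => ?_
    simp only [hf]
    rw [sr_phi, ln_phi, gm_phi]
  rw [h1, intervalIntegral.integral_comp_add_left, add_zero]
  have h2 := hper.intervalIntegral_add_eq s 0
  rw [zero_add] at h2
  exact h2

/-- the operator of the index form -/
def Q2 (F : Facts e) (D : ℝ) (W C S : κ → UT E M → E) (v : UT E M) : V2 κ →L[ℝ] V2 κ :=
  opB fun z w => -(1 / 2 : ℝ) * (n2 F D W C S v z w + n2 F D W C S v w z)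

theorem inner_Q2 (F : Facts e) (hW : ∀ i, Fld (W i)) (hC : ∀ i, Fld (C i)) (hS : ∀ i, Fld (S i))
    (v : UT E M) (z w : V2 κ) : inner ℝ (Q2 F D W C S v z) w =
      -(1 / 2 : ℝ) * (n2 F D W C S v z w + n2 F D W C S v w z) :=
  inner_opB ((-(1 / 2) : ℝ) • (n2L F D hW hC hS v + (n2L F D hW hC hS v).flip)) z w

theorem inner_Q2_self (F : Facts e) (hW : ∀ i, Fld (W i)) (hC : ∀ i, Fld (C i))
    (hS : ∀ i, Fld (S i)) (v : UT E M) (z : V2 κ) :
    inner ℝ (Q2 F D W C S v z) z = -n2 F D W C S v z z := by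
  rw [inner_Q2 F hW hC hS]
  ring

theorem Q2_symm (F : Facts e) (hW : ∀ i, Fld (W i)) (hC : ∀ i, Fld (C i)) (hS : ∀ i, Fld (S i))
    (v : UT E M) (z w : V2 κ) :
    inner ℝ (Q2 F D W C S v z) w = (inner ℝ z (Q2 F D W C S v w) : ℝ) := by
  rw [real_inner_comm (Q2 F D W C S v w) z, inner_Q2 F hW hC hS, inner_Q2 F hW hC hS, add_comm]

theorem Q2_phi (F : Facts e) (hD : 0 < D) (hB : InjGE e D) (hdiam : ∀ p q : M, dist p q ≤ D)
    (hW : ∀ i, Fld (W i)) (hC : ∀ i, Fld (C i)) (hS : ∀ i, Fld (S i)) (v : UT E M) (s : ℝ)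
    (z : V2 κ) : Q2 F D W C S (phi F (v, s)) (Rt D s z) = Rt D s (Q2 F D W C S v z) := by
  refine ext_inner_right ℝ fun y => ?_
  have hy : y = Rt D s (Rt D (-s) y) := by rw [Rt_add, neg_add_cancel, Rt_zero]
  rw [hy, inner_Rt, inner_Q2 F hW hC hS, inner_Q2 F hW hC hS, n2_phi F hD hB hdiam,
    n2_phi F hD hB hdiam]

theorem map_Q2 (F : Facts e) (hW : ∀ i, Fld (W i)) (hC : ∀ i, Fld (C i)) (hS : ∀ i, Fld (S i)) :
    (dUT E M).Map (Dif.lin (V2 κ →L[ℝ] V2 κ)) (Q2 F D W C S) := by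
  intro E' _ _ _ u x hu
  show Sm (fun s => Q2 F D W C S (u s)) x
  unfold Q2 opB
  refine sm_finsum Finset.univ fun i => sm_finsum Finset.univ fun j => ?_
  refine sm_smul' ?_ (Sm.of_contDiff contDiff_const x)
  have k1 : ∀ z w, Sm (fun s => n2 F D W C S (u s) z w) x := fun z w => map_n2 F hW hC hS z w hu
  filter_upwards [k1 (stdOrthonormalBasis ℝ (V2 κ) j) (stdOrthonormalBasis ℝ (V2 κ) i),
    k1 (stdOrthonormalBasis ℝ (V2 κ) i) (stdOrthonormalBasis ℝ (V2 κ) j)] with s g1 g2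
  exact contDiffAt_const.mul (g1.add g2)

theorem n2_bV (F : Facts e) {m : ℕ} {W C S : Fin m × κ → UT E M → E} (k : Fin m) (v : UT E M)
    (z w : V2 κ) : n2 F D W C S v (bV k z) (bV k w) =
      n2 F D (fun i => W (k, i)) (fun i => C (k, i)) (fun i => S (k, i)) v z w := by
  have h1 : ∀ (X : Fin m × κ → UT E M → E) (c : EuclideanSpace ℝ κ) (v : UT E M),
      XX X (bk k c) v = XX (fun i => X (k, i)) c v := fun X c v => sum_bk k c fun j => X j v
  unfold n2 sr ln Y2
  simp only [Rt_bV, bV_fst, bV_snd, h1]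

theorem XX_perp {X : κ → UT E M → E} (hX : ∀ i, PF (X i)) (c : EuclideanSpace ℝ κ) (v : UT E M) :
    ip (foot v) (vec' v) (XX X c v) = 0 := by
  unfold XX
  rw [ip_sum_right]
  exact Finset.sum_eq_zero fun i _ => by rw [ip_smul_right', (hX i).perp, mul_zero]

/-- the form is nonnegative on a subspace of codimension at most `N + l` -/
theorem exists_ker (F : Facts e) (hD : 0 < D) (hB : InjGE e D) {l : ℕ}
    (hP : ∀ x y : M, dist x y = D → finrank ℝ (H775.Pl e D x y) = l + 1)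
    {N : ℕ} (hN : finrank ℝ E = N + 1) (h : AF F D W C S) (v : UT E M) :
    ∃ K : Submodule ℝ (V2 κ), finrank ℝ (V2 κ) ≤ N + l + finrank ℝ K ∧
      ∀ z ∈ K, n2 F D W C S v z z ≤ 0 := by
  let f₀ : V2 κ →ₗ[ℝ] E :=
    { toFun := fun z => ln F D C S v z 0
      map_add' := fun z w => ln_add F v z w 0
      map_smul' := fun c z => ln_smul F v c z 0 }
  let g₀ : V2 κ →ₗ[ℝ] E :=
    { toFun := fun z => prL e D (phi F (v, D)) (ln F D C S v z D)
      map_add' := fun z w => by rw [ln_add, prL_add]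
      map_smul' := fun c z => by rw [ln_smul, prL_smul, RingHom.id_apply] }
  let f : V2 κ →ₗ[ℝ] TangentSpace 𝓘(ℝ, E) (foot (phi F (v, 0))) := f₀
  let g : V2 κ →ₗ[ℝ] TangentSpace 𝓘(ℝ, E) (foot (phi F (v, D))) := g₀
  have fd : ∀ x : M, FiniteDimensional ℝ (TangentSpace 𝓘(ℝ, E) x) := fun x =>
    inferInstanceAs (FiniteDimensional ℝ E)
  have h1 := finrank_le_ker f g (ℝ ∙ tv (phi F (v, 0)))ᗮ (Lf e D (phi F (v, D)))
    (fun z => by
      rw [Submodule.mem_orthogonal_singleton_iff_inner_right]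
      change ip (foot (phi F (v, 0))) (vec' (phi F (v, 0))) (ln F D C S v z 0) = 0
      unfold ln Y2
      rw [ip_add_right', XX_perp h.pC, XX_perp h.pS, add_zero])
    (fun z => prL_mem D (phi F (v, D)) (ln F D C S v z D))
  have h2 : finrank ℝ (ℝ ∙ tv (phi F (v, 0)))ᗮ = N := by
    have h3 : tv (phi F (v, 0)) ≠ 0 := by
      intro h0
      have h4 : inner ℝ (tv (phi F (v, 0))) (tv (phi F (v, 0))) = (1 : ℝ) := ip_vec' _
      rw [h0, inner_zero_left] at h4
      exact zero_ne_one h4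
    have h4 := (ℝ ∙ tv (phi F (v, 0))).finrank_add_finrank_orthogonal
    have h5 : finrank ℝ (TangentSpace 𝓘(ℝ, E) (foot (phi F (v, 0)))) = N + 1 := hN
    rw [finrank_span_singleton h3, h5] at h4
    omega
  rw [h2, finrank_Lf F hD hB hP] at h1
  exact ⟨_, h1, fun z hz => h.dir v z hz.1 hz.2⟩

end Gp

open Gp

variable {E : Type*} [NormedAddCommGroup E] [NormedSpace ℝ E]
  {M : Type*} [MetricSpace M] [ChartedSpace E M]
  [RiemannianBundle (fun x : M => TangentSpace 𝓘(ℝ, E) x)]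
  {e : ∀ x : M, TangentSpace 𝓘(ℝ, E) x → M}
  [FiniteDimensional ℝ E] [IsManifold 𝓘(ℝ, E) ∞ M]
  [IsContMDiffRiemannianBundle 𝓘(ℝ, E) ∞ E (fun x : M => TangentSpace 𝓘(ℝ, E) x)]
  [CompactSpace M] [ConnectedSpace M] [IsRiemannianManifold 𝓘(ℝ, E) M]

variable {D : ℝ}

attribute [local instance] topUT in
/-- **the negative bundle of the antiperiodic fields** -/
theorem exists_Neg (F : Facts e) (hD : 0 < D) (hB : InjGE e D) (hdiam : ∀ p q : M, dist p q ≤ D)
    {l : ℕ} (hP : ∀ x y : M, dist x y = D → finrank ℝ (H775.Pl e D x y) = l + 1)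
    {N : ℕ} (hN : finrank ℝ E = N + 1)
    (haf : ∀ (κ : Type) [Fintype κ] [DecidableEq κ] (W : κ → UT E M → E), (∀ i, PF (W i)) →
      AF F D W (fun i => Cw F D (W i)) (fun i => Sw F D (W i)))
    (hge : ∀ v₀ : UT E M, ∃ W : Fin N ⊕ Fin l → UT E M → E, (∀ i, PF (W i)) ∧
      ∀ z : V2 (Fin N ⊕ Fin l), z ≠ 0 → (∀ j, z.fst (Sum.inr j) = 0) →
        (∀ i, z.snd (Sum.inl i) = 0) →
        0 < n2 F D W (fun i => Cw F D (W i)) (fun i => Sw F D (W i)) v₀ z z) :
    ∃ (κ : Type) (_ : Fintype κ) (_ : DecidableEq κ) (W C S : κ → UT E M → E)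
      (P : UT E M → V2 κ →L[ℝ] V2 κ) (ε : ℝ), Neg F D (N + l) W C S P ε := by
  have : CompactSpace (UT E M) := compactSpace_UT
  choose W hW hpos using hge
  have ha := fun v₀ => haf _ (W v₀) (hW v₀)
  have h1 : ∀ v₀, ∃ ε : ℝ, 0 < ε ∧ ∀ᶠ v in 𝓝 v₀, ∀ z ∈ LinearMap.range (zc N l),
      ε * ‖z‖ ^ 2 ≤ n2 F D (W v₀) (fun i => Cw F D (W v₀ i)) (fun i => Sw F D (W v₀ i)) v z z := by
    intro v₀
    have f1 := fun i => ((ha v₀).pW i).fld
    have f2 := fun i => ((ha v₀).pC i).fld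
    have f3 := fun i => ((ha v₀).pS i).fld
    have hc := continuous_of_map_dUT (plotsCont_lin _) (map_Q2 (D := D) F f1 f2 f3)
    obtain ⟨ε, hε, hev⟩ := neg_open (t₀ := v₀) hc.continuousAt (LinearMap.range (zc N l)) (by
      rintro _ ⟨c, rfl⟩ h0
      rw [inner_Q2_self F f1 f2 f3]
      exact neg_neg_of_pos (hpos v₀ _ h0 (fun _ => rfl) fun _ => rfl))
    refine ⟨ε, hε, hev.mono fun v hv z hz => ?_⟩
    have h2 := hv z hz
    rw [inner_Q2_self F f1 f2 f3] at h2
    linarith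
  choose ε hε hev using h1
  obtain ⟨t, ht⟩ := CompactSpace.elim_nhds_subcover
    (fun v₀ => {v | ∀ z ∈ LinearMap.range (zc N l), ε v₀ * ‖z‖ ^ 2 ≤
      n2 F D (W v₀) (fun i => Cw F D (W v₀ i)) (fun i => Sw F D (W v₀ i)) v z z}) hev
  have hmin : ∃ ε₀ : ℝ, 0 < ε₀ ∧ ∀ b ∈ t, ε₀ ≤ ε b := by
    rcases t.eq_empty_or_nonempty with h0 | h0
    · exact ⟨1, one_pos, fun b hb => by rw [h0] at hb; exact absurd hb (Finset.notMem_empty b)⟩
    · obtain ⟨a, -, h2⟩ := t.exists_min_image ε h0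
      exact ⟨ε a, hε a, h2⟩
  obtain ⟨ε₀, hε₀, hle⟩ := hmin
  set W' : Fin t.card × (Fin N ⊕ Fin l) → UT E M → E := fun p => W (t.equivFin.symm p.1) p.2
    with hW'
  have hA := haf _ W' fun p => hW _ _
  have f1 := fun i => (hA.pW i).fld
  have f2 := fun i => (hA.pC i).fld
  have f3 := fun i => (hA.pS i).fld
  have hgap : ∀ v, ∃ A K : Submodule ℝ (V2 (Fin t.card × (Fin N ⊕ Fin l))),
      finrank ℝ A = N + l ∧ Gap (ε₀ / 2)
      (Q2 F D W' (fun i => Cw F D (W' i)) (fun i => Sw F D (W' i)) v) A K := by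
    intro v
    have h3 : v ∈ ⋃ x ∈ t, {v | ∀ z ∈ LinearMap.range (zc N l), ε x * ‖z‖ ^ 2 ≤
        n2 F D (W x) (fun i => Cw F D (W x i)) (fun i => Sw F D (W x i)) v z z} := by
      rw [ht]
      exact mem_univ v
    simp only [mem_iUnion, exists_prop] at h3
    obtain ⟨a, ha', hb⟩ := h3
    obtain ⟨K, hK, hK'⟩ := exists_ker F hD hB hP hN hA v
    have hfr : finrank ℝ (LinearMap.range ((bV (t.equivFin ⟨a, ha'⟩)).comp (zc N l))) = N + l := by
      rw [LinearMap.finrank_range_of_inj (f := (bV (t.equivFin ⟨a, ha'⟩)).comp (zc N l))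
        (fun c c' hc => zc_inj N l (bV_inj _ hc)), finrank_euclideanSpace,
        Fintype.card_sum, Fintype.card_fin, Fintype.card_fin]
    refine ⟨_, K, hfr, half_pos hε₀, Q2_symm F f1 f2 f3 v, ?_, fun z hz => ?_, by rwa [hfr]⟩
    · rintro _ ⟨c, rfl⟩
      have h4 : ((t.equivFin.symm (t.equivFin ⟨a, ha'⟩) : t) : UT E M) = a := by
        rw [Equiv.symm_apply_apply]
      have h5 := (mul_le_mul_of_nonneg_right (hle a ha') (sq_nonneg _)).trans (hb _ ⟨c, rfl⟩)
      rw [LinearMap.comp_apply, inner_Q2_self F f1 f2 f3, n2_bV, norm_bV]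
      simp only [hW', h4]
      linarith
    · rw [inner_Q2_self F f1 f2 f3]
      exact neg_nonneg.2 (hK' z hz)
  choose A K hAr hg using hgap
  refine ⟨_, inferInstance, inferInstance, W', _, _, fun v => pm (ε₀ / 2)
    (Q2 F D W' (fun i => Cw F D (W' i)) (fun i => Sw F D (W' i)) v), ε₀, hA, hε₀, ?_,
    fun v z => (hg v).pm_pm z, fun v z w => (hg v).pm_symm z w,
    fun v => (hg v).finrank_range.trans (hAr v), fun v s z =>
      pm_conj (hg v) (hg _) (Rt D s) (Q2_phi F hD hB hdiam f1 f2 f3 v s) z, fun v z hz => ?_⟩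
  · intro E' _ _ _ u x hu
    have h1 : Sm (fun s => Q2 F D W' (fun i => Cw F D (W' i)) (fun i => Sw F D (W' i)) (u s)) x :=
      map_Q2 F f1 f2 f3 hu
    filter_upwards [h1] with s hs
    exact ContDiffAt.comp (g := pm (ε₀ / 2))
      (f := fun s => Q2 F D W' (fun i => Cw F D (W' i)) (fun i => Sw F D (W' i)) (u s)) s
      (hg (u s)).contDiffAt_pm hs
  · have h1 := (hg v).inner_neg_of_pm hz
    rw [inner_Q2_self F f1 f2 f3] at h1
    linarith

end

end Vale.Agent.P231Z.N2
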