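import Vale.Agent.P231.S2N.IndexGe

/-!
# P231 (A), level two: folding of double integrals of antiperiodic kernels
-/

set_option linter.unusedSectionVars false
set_option linter.unusedVariables false

open Set Filter MeasureTheory
open scoped Topology

namespace Vale.Agent.P231Z.N2

noncomputable section

variable {D : ℝ}

theorem fold_one {h : ℝ → ℝ} (hc : Continuous h) (ha : ∀ s, h (s + 2 * D) = -h s) (t : ℝ) :
    ∫ r in (0 : ℝ)..(2 * D), h (t - r) = ∫ x in (0 : ℝ)..D, (h (t - x) - h (t + x)) := by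
  have c1 : Continuous fun r => h (t - r) := hc.comp (continuous_const.sub continuous_id)
  have c2 : Continuous fun r => h (t + r) := hc.comp (continuous_const.add continuous_id)
  rw [← intervalIntegral.integral_add_adjacent_intervals (b := D)
    (c1.intervalIntegrable _ _) (c1.intervalIntegrable _ _),
    intervalIntegral.integral_sub (c1.intervalIntegrable _ _) (c2.intervalIntegrable _ _)]
  have h1 := intervalIntegral.integral_comp_sub_left (a := 0) (b := D)
    (fun r => h (t - r)) (2 * D)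
  have h2 : ∀ x, h (t - (2 * D - x)) = -h (t + x) := by
    intro x
    have k := ha (t - (2 * D - x))
    rw [show t - (2 * D - x) + 2 * D = t + x by ring] at k
    rw [k, neg_neg]
  simp only [h2, intervalIntegral.integral_neg] at h1
  rw [show 2 * D - D = D by ring, sub_zero] at h1
  rw [← h1]
  ring

theorem fold_two {h : ℝ → ℝ} (hc : Continuous h) (t : ℝ) :
    ∫ r in (0 : ℝ)..(2 * D), h (t - r + D) = ∫ x in (0 : ℝ)..D, (h (t - x) + h (t + x)) := by
  have c0 : Continuous fun r => h (t - r + D) :=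
    hc.comp ((continuous_const.sub continuous_id).add continuous_const)
  have c1 : Continuous fun r => h (t - r) := hc.comp (continuous_const.sub continuous_id)
  have c2 : Continuous fun r => h (t + r) := hc.comp (continuous_const.add continuous_id)
  rw [← intervalIntegral.integral_add_adjacent_intervals (b := D)
    (c0.intervalIntegrable _ _) (c0.intervalIntegrable _ _),
    intervalIntegral.integral_add (c1.intervalIntegrable _ _) (c2.intervalIntegrable _ _)]
  have h1 := intervalIntegral.integral_comp_sub_left (a := 0) (b := D)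
    (fun r => h (t - r + D)) D
  have h2 := intervalIntegral.integral_comp_add_right (a := 0) (b := D)
    (fun r => h (t - r + D)) D
  simp only [show ∀ x, t - (D - x) + D = t + x from fun x => by ring] at h1
  simp only [show ∀ x, t - (x + D) + D = t - x from fun x => by ring] at h2
  rw [sub_self, sub_zero] at h1
  rw [zero_add, ← two_mul] at h2
  rw [← h1, ← h2]
  ring

/-- continuous kernels which are antiperiodic in both variables -/
structure AK (D : ℝ) (f : ℝ → ℝ → ℝ) : Prop where
  cont : Continuous fun p : ℝ × ℝ => f p.1 p.2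
  left : ∀ t s, f (t + 2 * D) s = -f t s
  right : ∀ t s, f t (s + 2 * D) = -f t s

theorem AK.line {f : ℝ → ℝ → ℝ} (h : AK D f) (t : ℝ) : Continuous (f t) :=
  h.cont.comp (continuous_const.prodMk continuous_id)

theorem AK.cont_int {f : ℝ → ℝ → ℝ} (h : AK D f) (c a b : ℝ) :
    Continuous fun t => ∫ r in a..b, f t (t - r + c) := by
  refine intervalIntegral.continuous_parametric_intervalIntegral_of_continuous' ?_ a b
  exact h.cont.comp (continuous_fst.prodMk
    ((continuous_fst.sub continuous_snd).add continuous_const))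

theorem AK.per_int {f : ℝ → ℝ → ℝ} (h : AK D f) (c a b : ℝ) :
    Function.Periodic (fun t => ∫ r in a..b, f t (t - r + c)) (2 * D) := by
  intro t
  refine intervalIntegral.integral_congr fun r _ => ?_
  rw [h.left, show t + 2 * D - r + c = t - r + c + 2 * D by ring, h.right, neg_neg]

theorem per_shift {G : ℝ → ℝ} (hG : Function.Periodic G (2 * D)) (c : ℝ) :
    ∫ t in (0 : ℝ)..(2 * D), G (t + c) = ∫ t in (-D)..D, G t := by
  rw [intervalIntegral.integral_comp_add_right, zero_add, add_comm (2 * D) c]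
  have h := hG.intervalIntegral_add_eq c (-D)
  rw [show -D + 2 * D = D by ring] at h
  exact h

/-- the folded integrand -/
def fk (f₁ f₂ f₃ f₄ : ℝ → ℝ → ℝ) (t x : ℝ) : ℝ :=
  (f₁ t (t - x) + f₄ t (t - x) + (f₂ t (t - x) - f₃ t (t - x))) +
    (-(f₁ t (t + x) + f₄ t (t + x)) + (f₂ t (t + x) - f₃ t (t + x)))

theorem cont_fk {f₁ f₂ f₃ f₄ : ℝ → ℝ → ℝ} (h₁ : AK D f₁) (h₂ : AK D f₂) (h₃ : AK D f₃)
    (h₄ : AK D f₄) : Continuous fun p : ℝ × ℝ => fk f₁ f₂ f₃ f₄ p.1 p.2 := by
  have m : Continuous fun p : ℝ × ℝ => ((p.1, p.1 - p.2) : ℝ × ℝ) := by fun_prop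
  have p : Continuous fun p : ℝ × ℝ => ((p.1, p.1 + p.2) : ℝ × ℝ) := by fun_prop
  exact (((h₁.cont.comp m).add (h₄.cont.comp m)).add ((h₂.cont.comp m).sub (h₃.cont.comp m))).add
    (((h₁.cont.comp p).add (h₄.cont.comp p)).neg.add ((h₂.cont.comp p).sub (h₃.cont.comp p)))

/-- **folding** -/
theorem fold {f₁ f₂ f₃ f₄ : ℝ → ℝ → ℝ} (h₁ : AK D f₁) (h₂ : AK D f₂) (h₃ : AK D f₃)
    (h₄ : AK D f₄) :
    ∫ t in (0 : ℝ)..(2 * D), ∫ r in (0 : ℝ)..(2 * D), (f₁ t (t - r) + f₂ t (t - r + D) +
      f₃ (t + D) (t - r) + f₄ (t + D) (t - r + D)) =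
    ∫ t in (-D)..D, ∫ x in (0 : ℝ)..D, fk f₁ f₂ f₃ f₄ t x := by
  set G₁ : ℝ → ℝ := fun t => ∫ r in (0 : ℝ)..(2 * D), f₁ t (t - r + 0) with hG₁
  set G₂ : ℝ → ℝ := fun t => ∫ r in (0 : ℝ)..(2 * D), f₂ t (t - r + D) with hG₂
  set G₃ : ℝ → ℝ := fun t => ∫ r in (0 : ℝ)..(2 * D), f₃ t (t - r + -D) with hG₃
  set G₄ : ℝ → ℝ := fun t => ∫ r in (0 : ℝ)..(2 * D), f₄ t (t - r + 0) with hG₄
  have c₁ : Continuous G₁ := h₁.cont_int _ _ _
  have c₂ : Continuous G₂ := h₂.cont_int _ _ _
  have c₃ : Continuous G₃ := h₃.cont_int _ _ _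
  have c₄ : Continuous G₄ := h₄.cont_int _ _ _
  have sh : Continuous fun t : ℝ => t + D := continuous_id.add continuous_const
  have sh0 : Continuous fun t : ℝ => t + 0 := continuous_id.add continuous_const
  have e1 : ∀ t, ∫ r in (0 : ℝ)..(2 * D), (f₁ t (t - r) + f₂ t (t - r + D) +
      f₃ (t + D) (t - r) + f₄ (t + D) (t - r + D)) =
      G₁ (t + 0) + G₂ (t + 0) + G₃ (t + D) + G₄ (t + D) := by
    intro t
    have m : Continuous fun r : ℝ => t - r := continuous_const.sub continuous_id
    have m' : Continuous fun r : ℝ => t - r + D := m.add continuous_const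
    have k1 := ((h₁.line t).comp m).intervalIntegrable (μ := volume) 0 (2 * D)
    have k2 := ((h₂.line t).comp m').intervalIntegrable (μ := volume) 0 (2 * D)
    have k3 := ((h₃.line (t + D)).comp m).intervalIntegrable (μ := volume) 0 (2 * D)
    have k4 := ((h₄.line (t + D)).comp m').intervalIntegrable (μ := volume) 0 (2 * D)
    have k5 := intervalIntegral.integral_add ((k1.add k2).add k3) k4
    rw [intervalIntegral.integral_add (k1.add k2) k3, intervalIntegral.integral_add k1 k2] at k5
    refine k5.trans ?_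
    simp only [hG₁, hG₂, hG₃, hG₄, add_zero, Function.comp_apply, add_neg_cancel_right,
      show ∀ r, t + D - r = t - r + D from fun r => by ring]
  have e2 : ∀ t, ∫ x in (0 : ℝ)..D, fk f₁ f₂ f₃ f₄ t x = G₁ t + G₂ t + G₃ t + G₄ t := by
    intro t
    have k1 : G₁ t = ∫ x in (0 : ℝ)..D, (f₁ t (t - x) - f₁ t (t + x)) := by
      simp only [hG₁, add_zero]
      exact fold_one (h₁.line t) (h₁.right t) t
    have k4 : G₄ t = ∫ x in (0 : ℝ)..D, (f₄ t (t - x) - f₄ t (t + x)) := by
      simp only [hG₄, add_zero]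
      exact fold_one (h₄.line t) (h₄.right t) t
    have k2 : G₂ t = ∫ x in (0 : ℝ)..D, (f₂ t (t - x) + f₂ t (t + x)) := fold_two (h₂.line t) t
    have k3 : G₃ t = ∫ x in (0 : ℝ)..D, -(f₃ t (t - x) + f₃ t (t + x)) := by
      rw [intervalIntegral.integral_neg, ← fold_two (h₃.line t) t, ← intervalIntegral.integral_neg]
      refine intervalIntegral.integral_congr fun r _ => ?_
      have k := h₃.right t (t - r + -D)
      rw [show t - r + -D + 2 * D = t - r + D by ring] at k
      change f₃ t (t - r + -D) = -f₃ t (t - r + D)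
      rw [k, neg_neg]
    have m : Continuous fun r : ℝ => t - r := continuous_const.sub continuous_id
    have p : Continuous fun r : ℝ => t + r := continuous_const.add continuous_id
    have i1 : IntervalIntegrable (fun x => f₁ t (t - x) - f₁ t (t + x)) volume 0 D :=
      (((h₁.line t).comp m).sub ((h₁.line t).comp p)).intervalIntegrable _ _
    have i2 : IntervalIntegrable (fun x => f₂ t (t - x) + f₂ t (t + x)) volume 0 D :=
      (((h₂.line t).comp m).add ((h₂.line t).comp p)).intervalIntegrable _ _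
    have i3 : IntervalIntegrable (fun x => -(f₃ t (t - x) + f₃ t (t + x))) volume 0 D :=
      (((h₃.line t).comp m).add ((h₃.line t).comp p)).neg.intervalIntegrable _ _
    have i4 : IntervalIntegrable (fun x => f₄ t (t - x) - f₄ t (t + x)) volume 0 D :=
      (((h₄.line t).comp m).sub ((h₄.line t).comp p)).intervalIntegrable _ _
    rw [k1, k2, k3, k4, ← intervalIntegral.integral_add i1 i2,
      ← intervalIntegral.integral_add (i1.add i2) i3,
      ← intervalIntegral.integral_add ((i1.add i2).add i3) i4]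
    refine intervalIntegral.integral_congr fun x _ => ?_
    simp only [fk]
    ring
  simp only [e1, e2]
  have j1 := (c₁.comp sh0).intervalIntegrable (μ := volume) 0 (2 * D)
  have j2 := (c₂.comp sh0).intervalIntegrable (μ := volume) 0 (2 * D)
  have j3 := (c₃.comp sh).intervalIntegrable (μ := volume) 0 (2 * D)
  have j4 := (c₄.comp sh).intervalIntegrable (μ := volume) 0 (2 * D)
  have k5 := intervalIntegral.integral_add ((j1.add j2).add j3) j4
  rw [intervalIntegral.integral_add (j1.add j2) j3, intervalIntegral.integral_add j1 j2] at k5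
  refine k5.trans ?_
  have l1 := c₁.intervalIntegrable (μ := volume) (-D) D
  have l2 := c₂.intervalIntegrable (μ := volume) (-D) D
  have l3 := c₃.intervalIntegrable (μ := volume) (-D) D
  have l4 := c₄.intervalIntegrable (μ := volume) (-D) D
  rw [intervalIntegral.integral_add ((l1.add l2).add l3) l4,
    intervalIntegral.integral_add (l1.add l2) l3, intervalIntegral.integral_add l1 l2,
    ← per_shift (h₁.per_int 0 0 (2 * D)) 0,
    ← per_shift (h₂.per_int D 0 (2 * D)) 0, ← per_shift (h₃.per_int (-D) 0 (2 * D)) D,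
    ← per_shift (h₄.per_int 0 0 (2 * D)) D]
  rfl

/-- positivity of the folded integral -/
theorem fold_pos (hD : 0 < D) {k : ℝ → ℝ → ℝ} (hc : Continuous fun p : ℝ × ℝ => k p.1 p.2)
    (h0 : ∀ t ∈ Icc (-D) D, ∀ x ∈ Icc 0 D, 0 ≤ k t x) (h1 : ∃ x ∈ Icc 0 D, 0 < k 0 x) :
    0 < ∫ t in (-D)..D, ∫ x in (0 : ℝ)..D, k t x := by
  have c1 : Continuous fun t => ∫ x in (0 : ℝ)..D, k t x :=
    intervalIntegral.continuous_parametric_intervalIntegral_of_continuous' hc 0 D
  refine intervalIntegral.integral_pos (by linarith) c1.continuousOn (fun t ht => ?_)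
    ⟨0, ⟨by linarith, hD.le⟩, ?_⟩
  · exact intervalIntegral.integral_nonneg hD.le (h0 t ⟨ht.1.le, ht.2⟩)
  · exact intervalIntegral.integral_pos hD
      (hc.comp (continuous_const.prodMk continuous_id)).continuousOn
      (fun x hx => h0 0 ⟨by linarith, hD.le⟩ x ⟨hx.1.le, hx.2⟩) h1

/-- positive definiteness is an open condition, for any finite index type -/
theorem pd_open' {T : Type*} [TopologicalSpace T] {ι : Type} [Fintype ι] {n : ι → ι → T → ℝ}
    {t₀ : T} (hn : ∀ i j, ContinuousAt (n i j) t₀)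
    (hpos : ∀ c : ι → ℝ, c ≠ 0 → 0 < ∑ i, ∑ j, c i * c j * n i j t₀) :
    ∃ ε : ℝ, 0 < ε ∧ ∀ᶠ t in 𝓝 t₀, ∀ c : ι → ℝ,
      ε * ∑ i, c i ^ 2 ≤ ∑ i, ∑ j, c i * c j * n i j t := by
  set σ := (Fintype.equivFin ι).symm with hσ
  have h1 : ∀ (c : ι → ℝ) (t : T), ∑ i, ∑ j, c (σ i) * c (σ j) * n (σ i) (σ j) t =
      ∑ i, ∑ j, c i * c j * n i j t := by
    intro c t
    rw [← σ.sum_comp (fun i => ∑ j, c i * c j * n i j t)]
    refine Finset.sum_congr rfl fun i _ => ?_
    exact σ.sum_comp (fun j => c (σ i) * c j * n (σ i) j t)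
  obtain ⟨ε, hε, h2⟩ := Vale.Agent.P231.S2N.pd_open (n := fun i j => n (σ i) (σ j)) (t₀ := t₀)
    (fun i j => hn _ _) (fun c hc => by
      have k := h1 (fun i => c (σ.symm i)) t₀
      simp only [Equiv.symm_apply_apply] at k
      rw [k]
      refine hpos _ fun h => hc ?_
      funext i
      have k2 := congrFun h (σ i)
      simpa using k2)
  refine ⟨ε, hε, ?_⟩
  filter_upwards [h2] with t ht c
  have k := ht (fun i => c (σ i))
  rw [h1 c t, σ.sum_comp (fun i => c i ^ 2)] at k
  exact k

end

end Vale.Agent.P231Z.N2
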