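import Vale.Agent.P231Z.N2.GrF
import Vale.Agent.P231Z.N2.Fold

/-!
# P231 (A), level two: the index on the antiperiodic fields is at least `N + l`
-/

set_option maxSynthPendingDepth 3
set_option linter.unusedSectionVars false
set_option linter.unusedVariables false

open Bundle Manifold Set Filter Module MeasureTheory
open scoped ContDiff Manifold Topology ENNReal

namespace Vale.Agent.P231Z.N2

noncomputable section

open Vale.Agent.P234 Vale.Agent.P231 Vale.Agent.P231.Fm Vale.Agent.P231.W Vale.Agent.P231.WR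
open Vale.Agent.P231.H775 Vale.Agent.P231.WC Vale.Agent.P231.WF Vale.Agent.P231.S2N

variable {E : Type*} [NormedAddCommGroup E] [NormedSpace ℝ E]
  {M : Type*} [MetricSpace M] [ChartedSpace E M]
  [RiemannianBundle (fun x : M => TangentSpace 𝓘(ℝ, E) x)]
  {e : ∀ x : M, TangentSpace 𝓘(ℝ, E) x → M}
  [FiniteDimensional ℝ E] [IsManifold 𝓘(ℝ, E) ∞ M]
  [IsContMDiffRiemannianBundle 𝓘(ℝ, E) ∞ E (fun x : M => TangentSpace 𝓘(ℝ, E) x)]
  [CompactSpace M] [ConnectedSpace M] [IsRiemannianManifold 𝓘(ℝ, E) M]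

variable {D : ℝ}

/-! ### kernels -/

/-- the kernel of two sources -/
def Kk (F : Facts e) (v : UT E M) (δ η : ℝ → E) (t s : ℝ) : ℝ :=
  ip (gm e (v, t)) (δ t) (Jc e (phi F (v, s)) (η s) (t - s))

variable {F : Facts e} {v : UT E M} {α β δ η : ℝ → E}

theorem ip_neg_l (x : M) (p q : E) : ip x (-p) q = -ip x p q :=
  inner_neg_left (𝕜 := ℝ) (E := TangentSpace 𝓘(ℝ, E) x) p q

theorem ak_Kk (hD : 0 < D) (hB : InjGE e D) (hdiam : ∀ p q : M, dist p q ≤ D)
    (h : AS F D v δ) (h' : AS F D v η) : AK D (Kk F v δ η) where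
  cont := by
    rw [continuous_iff_continuousAt]
    intro z
    have h1 := at_fa h.fa (τ := fun p : ℝ × ℝ => p.1) (x := z) (Sm.of_contDiff contDiff_fst _)
    have h2 := at_ker F h'.fa (σ := fun p : ℝ × ℝ => p.2) (τ := fun p : ℝ × ℝ => p.1) (x := z)
      (Sm.of_contDiff contDiff_snd _) (Sm.of_contDiff contDiff_fst _)
    exact (sm_ip_tb h1 h2).continuousAt
  left t s := by
    unfold Kk
    rw [gm_add_per F hD hB hdiam, h.anti, ip_neg_l, show t + 2 * D - s = t - s + 2 * D by ring,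
      Jc_per F hD hB hdiam (h'.perp s)]
  right t s := by
    unfold Kk
    have k := Jc_per F hD hB hdiam (u := phi F (v, s)) (c := η s) (h'.perp s) (t - (s + 2 * D))
    rw [show t - (s + 2 * D) + 2 * D = t - s by ring] at k
    rw [phi_add_per F hD hB hdiam, h'.anti, Jc_neg, ip_neg_right', k]

theorem Kk_anti (hD : 0 < D) (hB : InjGE e D) (hdiam : ∀ p q : M, dist p q ≤ D)
    (h : AS F D v δ) (h' : AS F D v η) (t s : ℝ) : Kk F v δ η t s = -Kk F v η δ s t :=
  Jc_anti F hD hB hdiam v s t (h.perp t) (h'.perp s)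

/-- the transport of a source with values in `L` -/
def tau (F : Facts e) (hD : 0 < D) (hB : InjGE e D) (hdiam : ∀ p q : M, dist p q ≤ D)
    (v : UT E M) (β : ℝ → E) (t : ℝ) : E :=
  Tr F hD hB hdiam (phi F (v, t + D)) (β (t + D))

section Tau

variable {hD : 0 < D} {hB : InjGE e D} {hdiam : ∀ p q : M, dist p q ≤ D} {l : ℕ}

theorem phi_D_back (F : Facts e) (hD : 0 < D) (hB : InjGE e D) (hdiam : ∀ p q : M, dist p q ≤ D)
    (v : UT E M) (t : ℝ) : phi F (phi F (v, t + D), D) = phi F (v, t) := by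
  rw [phi_add, add_assoc, ← two_mul, phi_add_per F hD hB hdiam]

theorem AS.tau (hP : ∀ x y : M, dist x y = D → finrank ℝ (H775.Pl e D x y) = l + 1)
    (h : AS F D v β) : AS F D v (tau F hD hB hdiam v β) where
  fa t := by
    have hs : Sm (fun t : ℝ => t + D) t := Sm.of_contDiff (contDiff_id.add contDiff_const) _
    have h1 : (dUT E M).At (fun t : ℝ => phi F (v, t + D)) t :=
      map_phi F (u := fun t : ℝ => (v, t + D)) ⟨H583.at_const v _, hs⟩
    have h2 := at_Tr F hD hB hdiam hP h1 (a := fun t => β (t + D)) (at_fa h.fa hs)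
    have h3 : (fun t : ℝ => tb (gm e (phi F (v, t + D), D))
        (Tr F hD hB hdiam (phi F (v, t + D)) (β (t + D)))) =
        fun t : ℝ => tb (gm e (v, t)) (N2.tau F hD hB hdiam v β t) := by
      funext t
      exact tb_congr (congrArg foot (phi_D_back F hD hB hdiam v t)) rfl
    rw [h3] at h2
    exact h2
  perp t := by
    have h1 := (mem_Lf.1 (Tr_mem F hD hB hdiam (phi F (v, t + D)) (β (t + D)))).2
    rw [phi_D_back F hD hB hdiam] at h1
    exact h1
  anti t := by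
    unfold N2.tau
    rw [add_right_comm, phi_add_per F hD hB hdiam, h.anti, ← neg_one_smul ℝ (β (t + D)), Tr_smul,
      neg_one_smul]

theorem Kk_tau_left (hP : ∀ x y : M, dist x y = D → finrank ℝ (H775.Pl e D x y) = l + 1)
    (hm : ∀ t, (β t : TangentSpace 𝓘(ℝ, E) (foot (phi F (v, t)))) ∈ Lf e D (phi F (v, t)))
    (h' : AS F D v η) (t s : ℝ) :
    Kk F v (tau F hD hB hdiam v β) η t s = Kk F v β η (t + D) s := by
  have h1 := wronskian_Jc F hD hB hdiam hP v (t + D) (hm (t + D)) s (η s)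
  rw [show t + D + D = t + 2 * D by ring, gm_add_per F hD hB hdiam,
    show t + 2 * D - s = t - s + 2 * D by ring, Jc_per F hD hB hdiam (h'.perp s)] at h1
  exact h1

theorem Kk_tau_right (hP : ∀ x y : M, dist x y = D → finrank ℝ (H775.Pl e D x y) = l + 1)
    (h : AS F D v β)
    (hm : ∀ t, (β t : TangentSpace 𝓘(ℝ, E) (foot (phi F (v, t)))) ∈ Lf e D (phi F (v, t)))
    (h' : AS F D v η) (t s : ℝ) :
    Kk F v η (tau F hD hB hdiam v β) t s = Kk F v η β t (s + D) := by
  rw [Kk_anti hD hB hdiam h' (h.tau hP), Kk_tau_left hP hm h', Kk_anti hD hB hdiam h' h]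

/-- the pairing of a source with its Green field, folded -/
theorem pair_fold (hP : ∀ x y : M, dist x y = D → finrank ℝ (H775.Pl e D x y) = l + 1)
    (ha : AS F D v α) (hb : AS F D v β)
    (hm : ∀ t, (β t : TangentSpace 𝓘(ℝ, E) (foot (phi F (v, t)))) ∈ Lf e D (phi F (v, t)))
    (hδ : ∀ t, δ t = α t + tau F hD hB hdiam v β t) :
    ∫ t in (0 : ℝ)..(2 * D), ip (gm e (v, t)) (δ t) (Gr F D v δ t) =
      1 / 2 * ∫ t in (-D)..D, ∫ x in (0 : ℝ)..D,
        fk (Kk F v α α) (Kk F v α β) (Kk F v β α) (Kk F v β β) t x := by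
  have ht := hb.tau (hD := hD) (hB := hB) (hdiam := hdiam) hP
  have hd : AS F D v δ := by
    rw [show δ = fun t => α t + tau F hD hB hdiam v β t from funext hδ]
    exact ha.add ht
  rw [← fold (ak_Kk hD hB hdiam ha ha) (ak_Kk hD hB hdiam ha hb) (ak_Kk hD hB hdiam hb ha)
    (ak_Kk hD hB hdiam hb hb), ← intervalIntegral.integral_const_mul]
  refine intervalIntegral.integral_congr fun t _ => ?_
  rw [ip_Gr F D hd.fa]
  congr 1
  refine intervalIntegral.integral_congr fun r _ => ?_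
  have k1 := Kk_tau_right (hD := hD) (hB := hB) (hdiam := hdiam) hP hb hm ha t (t - r)
  have k2 := Kk_tau_left (hD := hD) (hB := hB) (hdiam := hdiam) hP hm ha t (t - r)
  have k3 := Kk_tau_right (hD := hD) (hB := hB) (hdiam := hdiam) hP hb hm hb (t + D) (t - r)
  have k4 := Kk_tau_left (hD := hD) (hB := hB) (hdiam := hdiam) hP hm ht t (t - r)
  change ip (gm e (v, t)) (δ t) (Jc e (phi F (v, t - r)) (δ (t - r)) r) =
    Kk F v α α t (t - r) + Kk F v α β t (t - r + D) + Kk F v β α (t + D) (t - r) +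
      Kk F v β β (t + D) (t - r + D)
  rw [← k1, ← k2, ← k3, ← k4]
  unfold Kk
  rw [hδ, hδ, Jc_add, ip_add_left', ip_add_right', ip_add_right', sub_sub_cancel]
  ring

end Tau

/-! ### sources of the form `c t • U (φ_t v)` -/

theorem as_sc (F : Facts e) (hD : 0 < D) (hB : InjGE e D) (hdiam : ∀ p q : M, dist p q ≤ D)
    {U : UT E M → E} (hU : PF U) (v : UT E M) :
    AS F D v (fun t => Real.cos (an D t) • U (phi F (v, t))) where
  fa t := by
    have h1 : (dTM E M).At (fun t : ℝ => tb (gm e (v, t)) (U (phi F (v, t)))) t := hU.fld.fa F v t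
    exact at_smul (f := fun t => gm e (v, t))
      (Sm.of_contDiff (Real.contDiff_cos.comp (contDiff_an D)) t) h1
  perp t := by
    rw [ip_smul_right']
    exact mul_eq_zero_of_right _ (hU.perp (phi F (v, t)))
  anti t := by
    rw [an_add, an_two hD, Real.cos_add_pi, phi_add_per F hD hB hdiam, neg_smul]

theorem Kk_sc (F : Facts e) (v : UT E M) (c : ℝ → ℝ) (g : M → ℝ) (U U' : UT E M → E) (t s : ℝ) :
    Kk F v (fun t => c t • (g (foot (phi F (v, t))) • U (phi F (v, t))))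
      (fun t => c t • (g (foot (phi F (v, t))) • U' (phi F (v, t)))) t s =
      (t - s) * ((c t * g (gm e (v, t))) * (c s * g (gm e (v, s)))) *
        qB F U U' (phi F (v, s)) (t - s) := by
  unfold Kk qB JWd
  rw [Jc_smul, Jc_smul, Jc_eq F, ip_smul_left', ip_smul_left', ip_smul_right', ip_smul_right',
    ip_smul_right', gm_phi_sub F, phi_add, add_sub_cancel]
  change c t * (g (gm e (v, t)) * (c s * (g (gm e (v, s)) * ((t - s) * _)))) = _
  ring

theorem qB_lin2 (F : Facts e) {ι ι' : Type*} [Fintype ι] [Fintype ι'] (c : ι → ℝ) (c' : ι' → ℝ)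
    (W : ι → UT E M → E) (W' : ι' → UT E M → E) (u : UT E M) (r : ℝ) :
    qB F (fun v => ∑ i, c i • W i v) (fun v => ∑ j, c' j • W' j v) u r =
      ∑ i, ∑ j, c i * c' j * qB F (W i) (W' j) u r := by
  unfold qB JWd
  rw [ip_sum_left]
  refine Finset.sum_congr rfl fun i _ => ?_
  rw [dE_sum', ip_sum_right]
  refine Finset.sum_congr rfl fun j _ => ?_
  rw [dE_smul, ip_smul_left', ip_smul_right']
  ring

theorem PF.smul {U : UT E M → E} {c : UT E M → ℝ} (hc : (dUT E M).Map (Dif.lin ℝ) c)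
    (h : PF U) : PF (fun v => c v • U v) :=
  ⟨h.fld.smul hc, fun v => by rw [ip_smul_right', h.perp, mul_zero]⟩

theorem PF.comb {ι : Type*} [Fintype ι] (c : ι → ℝ) {U : ι → UT E M → E} (h : ∀ i, PF (U i)) :
    PF (fun v => ∑ i, c i • U i v) :=
  ⟨Fld.sum Finset.univ (X := fun i v => c i • U i v) fun i => (h i).fld.const_smul (c i),
    fun v => by
      rw [ip_sum_right]
      exact Finset.sum_eq_zero fun i _ => by rw [ip_smul_right', (h i).perp, mul_zero]⟩

/-- every perpendicular vector extends to a global perpendicular field -/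
theorem exists_PF (v : UT E M) {a : E} (ha : ip (foot v) (vec' v) a = 0) :
    ∃ W : UT E M → E, PF W ∧ W v = a := by
  obtain ⟨ρ, -, hρ⟩ := (SmoothBumpFunction.nhds_basis_tsupport (I := 𝓘(ℝ, E)) (foot v)).mem_iff.1
    ((isOpen_extChartAt_source (I := 𝓘(ℝ, E)) (foot v)).mem_nhds (mem_extChartAt_source _))
  have hX := fld_bump (E := E) ρ.contMDiff hρ (crd (foot v) (foot v) a : E)
  set X : UT E M → E := fun w => ρ (foot w) • (vec (foot v) (foot w)
    (crd (foot v) (foot v) a : E) : E) with hXd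
  have h1 : X v = a := by
    simp only [hXd]
    rw [ρ.eq_one, one_smul]
    exact vec_crd (foot v) (mem_extChartAt_source _) a
  have hv : Fld (fun w : UT E M => (vec' w : E)) := ⟨fun {E'} _ _ _ {u x} hu => hu⟩
  have hc : (dUT E M).Map (Dif.lin ℝ) (fun w => -ip (foot w) (vec' w) (X w)) := by
    intro E' _ _ _ u x hu
    have k : Sm (fun s => ip (foot (u s)) (vec' (u s)) (X (u s))) x := (hv.ip hX) hu
    filter_upwards [k] with s hs using hs.neg
  refine ⟨fun w => X w + (-ip (foot w) (vec' w) (X w)) • vec' w, ⟨hX.add (hv.smul hc), fun w => ?_⟩,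
    ?_⟩
  · rw [ip_add_right', ip_smul_right', ip_vec']
    ring
  · beta_reduce
    rw [h1, ha, neg_zero, zero_smul, add_zero]

/-- the transport back of a field -/
theorem pf_Tr (F : Facts e) (hD : 0 < D) (hB : InjGE e D) (hdiam : ∀ p q : M, dist p q ≤ D)
    {l : ℕ} (hP : ∀ x y : M, dist x y = D → finrank ℝ (H775.Pl e D x y) = l + 1)
    {X : UT E M → E} (hX : Fld X) :
    PF (fun u => Tr F hD hB hdiam (phi F (u, D)) (X (phi F (u, D)))) where
  fld := by
    refine ⟨fun {E'} _ _ _ {u x} hu => ?_⟩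
    have hu' : (dUT E M).At (fun s => phi F (u s, D)) x := map_phiD F D hu
    have h3 := at_Tr F hD hB hdiam hP hu' (hX.map hu')
    have k : ((fun u : UT E M => tb (foot u)
        (Tr F hD hB hdiam (phi F (u, D)) (X (phi F (u, D))))) ∘ u) =
        fun s => tb (gm e (phi F (u s, D), D))
          (Tr F hD hB hdiam (phi F (u s, D)) (X (phi F (u s, D)))) := by
      funext s
      refine tb_congr ?_ rfl
      exact (congrArg foot (phi_D_D F hD hB hdiam (u s))).symm
    rw [k]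
    exact h3
  perp u := by
    have h1 := (mem_Lf.1 (Tr_mem F hD hB hdiam (phi F (u, D)) (X (phi F (u, D))))).2
    rw [phi_D_D F hD hB hdiam] at h1
    exact h1

/-- the signs -/
def sg (σ : ℝ) {ι ι' : Type} : ι ⊕ ι' → ι ⊕ ι' → ℝ
  | Sum.inl _, Sum.inl _ => 1
  | Sum.inl _, Sum.inr _ => σ
  | Sum.inr _, Sum.inl _ => -σ
  | Sum.inr _, Sum.inr _ => 1

/-- the folded form -/
def qF (F : Facts e) (σ : ℝ) (A B : UT E M → E) (u : UT E M) (r : ℝ) : ℝ :=
  qB F A A u r + qB F B B u r + σ * (qB F A B u r - qB F B A u r)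

theorem qF_lin (F : Facts e) (σ : ℝ) {ι ι' : Type} [Fintype ι] [Fintype ι']
    (A : ι → UT E M → E) (B : ι' → UT E M → E) (c : ι ⊕ ι' → ℝ) (u : UT E M) (r : ℝ) :
    ∑ i, ∑ j, c i * c j * (sg σ i j * qB F (Sum.elim A B i) (Sum.elim A B j) u r) =
      qF F σ (fun v => ∑ i, c (Sum.inl i) • A i v) (fun v => ∑ j, c (Sum.inr j) • B j v) u r := by
  unfold qF
  simp only [qB_lin2, Fintype.sum_sum_type, Finset.sum_add_distrib, sg, Sum.elim_inl, Sum.elim_inr,
    one_mul, mul_sub, Finset.mul_sum]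
  have h1 : ∀ (i : ι') (j : ι), c (Sum.inr i) * c (Sum.inl j) * (-σ * qB F (B i) (A j) u r) =
      -(σ * (c (Sum.inr i) * c (Sum.inl j) * qB F (B i) (A j) u r)) := fun i j => by ring
  have h2 : ∀ (i : ι) (j : ι'), c (Sum.inl i) * c (Sum.inr j) * (σ * qB F (A i) (B j) u r) =
      σ * (c (Sum.inl i) * c (Sum.inr j) * qB F (A i) (B j) u r) := fun i j => by ring
  simp only [h1, h2, Finset.sum_neg_distrib]
  ring

theorem ip_on {ι : Type} [Fintype ι] [DecidableEq ι] (x : M) {a : ι → E}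
    (h : ∀ i j, ip x (a i) (a j) = if i = j then 1 else 0) (c : ι → ℝ) :
    ip x (∑ i, c i • a i) (∑ i, c i • a i) = ∑ i, c i ^ 2 := by
  rw [ip_sum_left]
  refine Finset.sum_congr rfl fun i _ => ?_
  rw [ip_smul_left', ip_sum_right]
  simp only [ip_smul_right', h, mul_ite, mul_one, mul_zero, Finset.sum_ite_eq, Finset.mem_univ,
    if_true]
  ring

theorem cos_an_nonneg (hD : 0 < D) {t : ℝ} (ht : |t| ≤ D) : 0 ≤ Real.cos (an D t) := by
  have h1 := abs_le.1 ht
  have hp := Real.pi_pos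
  refine Real.cos_nonneg_of_neg_pi_div_two_le_of_le ?_ ?_
  · unfold an
    rw [le_div_iff₀ (by linarith)]
    nlinarith [h1.1]
  · unfold an
    rw [div_le_iff₀ (by linarith)]
    nlinarith [h1.2]

theorem ev_qF (F : Facts e) (σ : ℝ) {ι ι' : Type} [Fintype ι] [Fintype ι']
    {A : ι → UT E M → E} {B : ι' → UT E M → E} (hA : ∀ i, Fld (A i)) (hB : ∀ i, Fld (B i))
    (v₀ : UT E M) (h0 : ∀ c : ι ⊕ ι' → ℝ,
      qF F σ (fun v => ∑ i, c (Sum.inl i) • A i v) (fun v => ∑ j, c (Sum.inr j) • B j v) v₀ 0 =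
      ∑ i, c i ^ 2) :
    ∀ᶠ z : ℝ × ℝ in 𝓝 (0, 0), ∀ c : ι ⊕ ι' → ℝ, c ≠ 0 →
      0 < qF F σ (fun v => ∑ i, c (Sum.inl i) • A i v) (fun v => ∑ j, c (Sum.inr j) • B j v)
        (phi F (v₀, z.1)) z.2 := by
  have hU : ∀ i, Fld (Sum.elim A B i) := by
    rintro (i | j)
    · exact hA i
    · exact hB j
  have hsq0 : ∀ c : ι ⊕ ι' → ℝ, c ≠ 0 → 0 < ∑ i, c i ^ 2 := by
    intro c hc
    obtain ⟨i, hi⟩ := Function.ne_iff.1 hc
    have h1 : c i ^ 2 ≤ ∑ i, c i ^ 2 :=
      Finset.single_le_sum (f := fun i => c i ^ 2) (fun j _ => sq_nonneg _) (Finset.mem_univ i)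
    exact lt_of_lt_of_le (by have : c i ≠ 0 := hi; positivity) h1
  obtain ⟨n, hn⟩ : ∃ n : ι ⊕ ι' → ι ⊕ ι' → ℝ × ℝ → ℝ, ∀ i j z, n i j z =
      sg σ i j * qB F (Sum.elim A B i) (Sum.elim A B j) (phi F (v₀, z.1)) z.2 :=
    ⟨_, fun _ _ _ => rfl⟩
  have hq : ∀ (c : ι ⊕ ι' → ℝ) (z : ℝ × ℝ), ∑ i, ∑ j, c i * c j * n i j z =
      qF F σ (fun v => ∑ i, c (Sum.inl i) • A i v) (fun v => ∑ j, c (Sum.inr j) • B j v)
        (phi F (v₀, z.1)) z.2 := by
    intro c z
    simp only [hn]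
    exact qF_lin F σ A B c _ _
  have hc : ∀ i j, ContinuousAt (n i j) (0, 0) := by
    intro i j
    have k : ContinuousAt (fun z : ℝ × ℝ =>
        qB F (Sum.elim A B i) (Sum.elim A B j) (phi F (v₀, z.1)) z.2) (0, 0) :=
      (sm_qB F (hU i) (hU j) v₀ (z := ((0, 0) : ℝ × ℝ)) (Sm.of_contDiff contDiff_fst _)
        (Sm.of_contDiff contDiff_snd _)).continuousAt
    rw [show n i j = fun z => sg σ i j *
      qB F (Sum.elim A B i) (Sum.elim A B j) (phi F (v₀, z.1)) z.2 from funext (hn i j)]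
    exact continuousAt_const.mul k
  obtain ⟨ε, hε, h1⟩ := pd_open' hc (fun c hc => by
    rw [hq, phi_zero, h0]
    exact hsq0 c hc)
  filter_upwards [h1] with z hz c hc
  rw [← hq]
  exact lt_of_lt_of_le (mul_pos hε (hsq0 c hc)) (hz c)

/-- **index at least `N + l`** -/
theorem exists_ge (F : Facts e) (hD : 0 < D) (hB : InjGE e D) (hdiam : ∀ p q : M, dist p q ≤ D)
    {l : ℕ} (hP : ∀ x y : M, dist x y = D → finrank ℝ (H775.Pl e D x y) = l + 1)
    {N : ℕ} (hN : finrank ℝ E = N + 1) (v₀ : UT E M) :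
    ∃ W : Fin N ⊕ Fin l → UT E M → E, (∀ i, PF (W i)) ∧
      ∀ z : V2 (Fin N ⊕ Fin l), z ≠ 0 → (∀ j, z.fst (Sum.inr j) = 0) →
        (∀ i, z.snd (Sum.inl i) = 0) →
        0 < n2 F D W (fun i => Cw F D (W i)) (fun i => Sw F D (W i)) v₀ z z := by
  -- the frames
  have hcl : ∀ (x : M) (v : E), nm x v = 2 * D → e x v = x :=
    fun x v hv => closed_of_inj_diam F hD hB hdiam x v hv
  obtain ⟨b, -, -, hon, hperp, -⟩ := exists_jdata F hD hB hcl hN (foot v₀) (vec' v₀) (nm_vec' v₀)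
  have hon0 := hon 0
  have hperp0 := hperp 0
  rw [gam_zero F.isExp] at hon0
  rw [gam_zero F.isExp, vel_zero F.isExp] at hperp0
  choose A hA hAv using fun i => exists_PF v₀ (a := b 0 i) ((ip_comm' _ _ _).trans (hperp0 i))
  obtain ⟨W₀, hW₀⟩ := exists_isLF F hD hB hdiam hP v₀
  choose B hBL hBv using fun i => exists_LS F hD hB hdiam hP v₀ (hW₀.isL i).mem_Lf
  have hBp : ∀ j, PF (B j) := fun j => ⟨(hBL j).fld, (hBL j).orth⟩
  have hzero : ∀ (σ : ℝ) (c : Fin N ⊕ Fin l → ℝ),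
      qF F σ (fun v => ∑ i, c (Sum.inl i) • A i v) (fun v => ∑ j, c (Sum.inr j) • B j v) v₀ 0 =
      ∑ i, c i ^ 2 := by
    intro σ c
    unfold qF
    simp only [qB_zero F, hAv, hBv]
    rw [ip_on _ hon0, ip_on (foot v₀) (a := fun j => vec' (W₀ j)) (fun i j => by
      split_ifs with h
      · rw [h]
        exact (hW₀.isL j).ip_self
      · exact hW₀.orth i j h), ip_comm' (foot v₀) (∑ i, c (Sum.inl i) • b 0 i), sub_self,
      mul_zero, add_zero, Fintype.sum_sum_type]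
  have hev := fun σ => ev_qF F σ (fun i => (hA i).fld) (fun j => (hBp j).fld) v₀ (hzero σ)
  obtain ⟨ρ₁, hρ₁, hball⟩ := Metric.eventually_nhds_iff.1 ((hev 1).and (hev (-1)))
  -- the bump function
  set ρ₂ : ℝ := min ρ₁ D / 3 with hρ₂
  have hρ₂0 : 0 < ρ₂ := by rw [hρ₂]; positivity
  have hρ₂1 : 3 * ρ₂ ≤ ρ₁ := by rw [hρ₂]; linarith [min_le_left ρ₁ D]
  have hρ₂D : 3 * ρ₂ ≤ D := by rw [hρ₂]; linarith [min_le_right ρ₁ D]
  obtain ⟨g, -, hg⟩ := (SmoothBumpFunction.nhds_basis_tsupport (I := 𝓘(ℝ, E)) (foot v₀)).mem_iff.1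
    (Metric.ball_mem_nhds (foot v₀) hρ₂0)
  have hg1 : g (foot v₀) = 1 := g.eq_one
  have hg0 : ∀ y : M, 0 ≤ g y := fun y => g.nonneg
  have hg2 : ∀ y : M, g y ≠ 0 → dist (foot v₀) y < ρ₂ := by
    intro y hy
    have h1 := hg (subset_tsupport _ (Function.mem_support.2 hy))
    rwa [Metric.mem_ball, dist_comm] at h1
  have hgm : (dUT E M).Map (Dif.lin ℝ) (fun w => g (foot w)) := fun {E'} _ _ _ {u x} h =>
    Dif.map_mfd_lin g.contMDiff (map_foot h)
  set W : Fin N ⊕ Fin l → UT E M → E := Sum.elim (fun i u => g (foot u) • A i u)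
    (fun j u => Tr F hD hB hdiam (phi F (u, D)) (g (foot (phi F (u, D))) • B j (phi F (u, D))))
    with hW
  have hWp : ∀ i, PF (W i) := by
    rintro (i | j)
    · exact (hA i).smul hgm
    · exact pf_Tr F hD hB hdiam hP (X := fun u => g (foot u) • B j u) ((hBp j).fld.smul hgm)
  refine ⟨W, hWp, fun z hz hz1 hz2 => ?_⟩
  -- the coefficients
  set c : Fin N ⊕ Fin l → ℝ := Sum.elim (fun i => z.fst (Sum.inl i)) (fun j => z.snd (Sum.inr j))
    with hc
  have hc0 : c ≠ 0 := by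
    intro h
    refine hz (V2.ext ?_ ?_)
    · ext (i | j)
      · exact congrFun h (Sum.inl i)
      · exact hz1 j
    · ext (i | j)
      · exact hz2 i
      · exact congrFun h (Sum.inr j)
  set Ac : UT E M → E := fun v => ∑ i, c (Sum.inl i) • A i v with hAc
  set Bc : UT E M → E := fun v => ∑ j, c (Sum.inr j) • B j v with hBc
  have hAcp : PF Ac := PF.comb _ hA
  have hBcp : PF Bc := PF.comb _ hBp
  set α : ℝ → E := fun t => Real.cos (an D t) •
    (g (foot (phi F (v₀, t))) • Ac (phi F (v₀, t))) with hα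
  set β : ℝ → E := fun t => Real.cos (an D t) •
    (g (foot (phi F (v₀, t))) • Bc (phi F (v₀, t))) with hβ
  have ha : AS F D v₀ α := as_sc F hD hB hdiam (hAcp.smul hgm) v₀
  have hb : AS F D v₀ β := as_sc F hD hB hdiam (hBcp.smul hgm) v₀
  have hm : ∀ t, (β t : TangentSpace 𝓘(ℝ, E) (foot (phi F (v₀, t)))) ∈ Lf e D (phi F (v₀, t)) := by
    intro t
    refine Submodule.smul_mem _ _ (Submodule.smul_mem _ _ (Submodule.sum_mem _ fun j _ =>
      Submodule.smul_mem _ _ (mem_Lf.2 ⟨(hBL j).mem _, (hBL j).orth _⟩)))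
  have hδ : ∀ t, sr F D W v₀ z t = α t + tau F hD hB hdiam v₀ β t := by
    intro t
    unfold sr XX tau
    rw [Fintype.sum_sum_type]
    congr 1
    · simp only [hα, hAc, hW, hc, Sum.elim_inl, Rt_fst, PiLp.sub_apply, PiLp.smul_apply, hz2,
        Finset.smul_sum, smul_smul, smul_eq_mul]
      refine Finset.sum_congr rfl fun i _ => ?_
      congr 1
      ring
    · simp only [hβ, hBc, hW, hc, Sum.elim_inr, Rt_fst, PiLp.sub_apply, PiLp.smul_apply, hz1,
        Finset.smul_sum, smul_smul, smul_eq_mul, phi_add]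
      rw [← TrL_apply, map_sum]
      refine Finset.sum_congr rfl fun j _ => ?_
      rw [TrL_apply, Tr_smul, Tr_smul, smul_smul, an_add, an_D hD, Real.cos_add_pi_div_two]
      congr 1
      ring
  -- the sign of the kernels
  have key : ∀ (t s : ℝ), |t| ≤ D → |t - s| ≤ D → ∀ σ : ℝ, σ = 1 ∨ σ = -1 →
      0 ≤ ((Real.cos (an D t) * g (gm e (v₀, t))) * (Real.cos (an D s) * g (gm e (v₀, s)))) *
        qF F σ Ac Bc (phi F (v₀, s)) (t - s) := by
    intro t s ht hts σ hσ
    by_cases h1 : g (gm e (v₀, t)) = 0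
    · rw [h1, mul_zero, zero_mul, zero_mul]
    by_cases h2 : g (gm e (v₀, s)) = 0
    · rw [h2, mul_zero, mul_zero, zero_mul]
    have d1 := hg2 _ h1
    have d2 := hg2 _ h2
    have d3 : |t - s| < 2 * ρ₂ := by
      have k := dist_gm' F hD hB (phi F (v₀, s)) hts
      rw [gm_phi_sub F] at k
      have k2 := dist_triangle_left (gm e (v₀, s)) (gm e (v₀, t)) (foot v₀)
      have k4 : dist (foot (phi F (v₀, s))) (gm e (v₀, t)) =
        dist (gm e (v₀, s)) (gm e (v₀, t)) := rfl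
      rw [← k, k4]
      linarith
    rw [dist_gm' F hD hB v₀ ht] at d1
    have d4 : |s| < 3 * ρ₂ := by
      have k := abs_sub t (t - s)
      rw [sub_sub_cancel] at k
      linarith
    have h3 : dist ((s, t - s) : ℝ × ℝ) (0, 0) < ρ₁ := by
      rw [Prod.dist_eq, max_lt_iff, Real.dist_eq, Real.dist_eq, sub_zero, sub_zero]
      exact ⟨by linarith, by linarith⟩
    refine mul_nonneg (mul_nonneg (mul_nonneg (cos_an_nonneg hD ht) (hg0 _))
      (mul_nonneg (cos_an_nonneg hD (by linarith)) (hg0 _))) ?_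
    rcases hσ with rfl | rfl
    · exact ((hball h3).1 c hc0).le
    · exact ((hball h3).2 c hc0).le
  have hfk : ∀ t x, fk (Kk F v₀ α α) (Kk F v₀ α β) (Kk F v₀ β α) (Kk F v₀ β β) t x =
      x * (((Real.cos (an D t) * g (gm e (v₀, t))) *
          (Real.cos (an D (t - x)) * g (gm e (v₀, t - x)))) *
        qF F 1 Ac Bc (phi F (v₀, t - x)) (t - (t - x))) +
      x * (((Real.cos (an D t) * g (gm e (v₀, t))) *
          (Real.cos (an D (t + x)) * g (gm e (v₀, t + x)))) *
        qF F (-1) Ac Bc (phi F (v₀, t + x)) (t - (t + x))) := by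
    intro t x
    unfold fk qF
    simp only [hα, hβ, Kk_sc F v₀ (fun t => Real.cos (an D t)) g]
    ring
  unfold n2
  simp only [ln_eq_Gr F D hWp]
  rw [pair_fold hP ha hb hm hδ]
  refine mul_pos (by norm_num) (fold_pos hD (cont_fk (ak_Kk hD hB hdiam ha ha)
    (ak_Kk hD hB hdiam ha hb) (ak_Kk hD hB hdiam hb ha) (ak_Kk hD hB hdiam hb hb))
    (fun t ht x hx => ?_) ?_)
  · rw [hfk]
    refine add_nonneg (mul_nonneg hx.1 (key t _ (abs_le.2 ht) ?_ 1 (Or.inl rfl)))
      (mul_nonneg hx.1 (key t _ (abs_le.2 ht) ?_ (-1) (Or.inr rfl)))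
    · rw [sub_sub_cancel, abs_of_nonneg hx.1]
      exact hx.2
    · rw [sub_add_cancel_left, abs_neg, abs_of_nonneg hx.1]
      exact hx.2
  · have c1 : Continuous fun x : ℝ => Real.cos (an D (0 - x)) * g (gm e (v₀, 0 - x)) := by
      have k1 : Continuous fun t : ℝ => g (foot (phi F (v₀, t))) :=
        (H766.contDiff_phi F (f := fun w => g (foot w)) hgm v₀).continuous
      exact ((Real.continuous_cos.comp (contDiff_an D).continuous).mul k1).comp
        (continuous_const.sub continuous_id)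
    have h0 : 0 < Real.cos (an D (0 - 0)) * g (gm e (v₀, 0 - 0)) := by
      rw [sub_zero, an_zero, Real.cos_zero, gm_zero F, hg1]
      norm_num
    have h1 : ∀ᶠ x in 𝓝[>] (0 : ℝ), 0 < Real.cos (an D (0 - x)) * g (gm e (v₀, 0 - x)) :=
      (c1.continuousAt.eventually (lt_mem_nhds h0)).filter_mono nhdsWithin_le_nhds
    obtain ⟨x, hx1, hx2⟩ := (h1.and (Ioo_mem_nhdsGT hρ₂0)).exists
    have hxD : x ≤ D := by linarith [hx2.2]
    refine ⟨x, ⟨hx2.1.le, hxD⟩, ?_⟩
    rw [hfk]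
    refine add_pos_of_pos_of_nonneg (mul_pos hx2.1 (mul_pos (mul_pos ?_ hx1) ?_))
      (mul_nonneg hx2.1.le (key 0 _ (by rw [abs_zero]; exact hD.le) ?_ (-1) (Or.inr rfl)))
    · rwa [sub_zero] at h0
    · have h3 : dist ((0 - x, 0 - (0 - x)) : ℝ × ℝ) (0, 0) < ρ₁ := by
        rw [Prod.dist_eq, max_lt_iff, Real.dist_eq, Real.dist_eq, sub_zero, sub_zero,
          sub_sub_cancel, zero_sub, abs_neg, abs_of_pos hx2.1]
        exact ⟨by linarith [hx2.2], by linarith [hx2.2]⟩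
      exact (hball h3).1 c hc0
    · rw [sub_add_cancel_left, abs_neg, abs_of_pos hx2.1]
      exact hxD

end

end Vale.Agent.P231Z.N2
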