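import Vale.Agent.P231Z.N2.Rec2
import Vale.Agent.P231Z.N2.Ge
import Vale.Agent.P231Z.N2.Gap
import Vale.Agent.P231Z.HU.OriM

/-!
# P231 (A), SIG: **the sphere bundle of the second level**
-/

set_option maxSynthPendingDepth 3
set_option linter.unusedSectionVars false
set_option linter.unusedVariables false

open Bundle Manifold Set Filter Module MeasureTheory
open scoped ContDiff Manifold Topology ENNReal

namespace Vale.Agent.P231Z.N2

noncomputable section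

open Vale.Agent.P234 Vale.Agent.P231 Vale.Agent.P231.Fm Vale.Agent.P231.W Vale.Agent.P231.WR
open Vale.Agent.P231.H775 Vale.Agent.P231.WC Vale.Agent.P231.WF Vale.Agent.P231.S2N

universe u w

variable {E : Type w} [NormedAddCommGroup E] [NormedSpace ℝ E]
  {M : Type u} [MetricSpace M] [ChartedSpace E M]
  [RiemannianBundle (fun x : M => TangentSpace 𝓘(ℝ, E) x)]
  {e : ∀ x : M, TangentSpace 𝓘(ℝ, E) x → M}
  [FiniteDimensional ℝ E] [IsManifold 𝓘(ℝ, E) ∞ M]
  [IsContMDiffRiemannianBundle 𝓘(ℝ, E) ∞ E (fun x : M => TangentSpace 𝓘(ℝ, E) x)]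
  [CompactSpace M] [ConnectedSpace M] [IsRiemannianManifold 𝓘(ℝ, E) M]

variable {D : ℝ} {ι : Type} [Fintype ι] [DecidableEq ι]

/-- the negative bundle of the antiperiodic fields -/
theorem exists_neg2 (F : Facts e) (hD : 0 < D) (hB : InjGE e D) (hdiam : ∀ p q : M, dist p q ≤ D)
    {l : ℕ} (hP : ∀ x y : M, dist x y = D → finrank ℝ (H775.Pl e D x y) = l + 1)
    {N : ℕ} (hN : finrank ℝ E = N + 1) :
    ∃ (κ : Type) (_ : Fintype κ) (_ : DecidableEq κ) (W C S : κ → UT E M → E)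
      (P : UT E M → V2 κ →L[ℝ] V2 κ) (ε : ℝ), Neg F D (N + l) W C S P ε :=
  exists_Neg F hD hB hdiam hP hN (fun κ _ _ W hW => af_green F hD hB hdiam hP hW)
    (exists_ge F hD hB hdiam hP hN)

/-- **the record of the second level** -/
theorem exists_sg0 {F : Facts e} {hD : 0 < D} {hB : InjGE e D} {hdiam : ∀ p q : M, dist p q ≤ D}
    {X δ : ι → UT E M → E} {ε₁ : ℝ}
    (hl : ∀ x y : M, dist x y = D → finrank ℝ (H775.Pl e D x y) = 2 * 3 + 1 + 1)
    (hN : finrank ℝ E = 15 + 1) (h : Fam F hD hB hdiam (2 * 3 + 1) X δ ε₁) :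
    ∃ ε₀ : ℝ, 0 < ε₀ ∧ ∀ ε ∈ Ioc 0 ε₀, ∀ c : Pr e D → Loop.X M,
      (∀ b t, (c b).1 t = H766.poP e (Yb F hD hB hdiam X δ ε₁) ε (Lam hl h (b, 4 * D * t))) →
      ∃ (Sg Fr : Type (max u w)) (dS : Dif Sg) (dF : Dif Fr),
        Nonempty (Asm.Sg0 (dPr e D) (dUT E M) (Loop.dX (dM E M) D) D (phi F) (Lam hl h) Pr.v
          (H766.ngP F hD hB hdiam) (Loop.Φ D) c dS dF) := by
  obtain ⟨op, hO⟩ := HU.exists_oriM F hD hB hdiam (fun x y hxy => by rw [hl x y hxy]; norm_num) hN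
  obtain ⟨κ, _, _, W, C, S, P, ε₂, h2⟩ := exists_neg2 F hD hB hdiam hl hN
  exact exists_sg0_of hl hN hO h h2

end

end Vale.Agent.P231Z.N2
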