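import Vale.Agent.P231.Co.SINeg
import Vale.Agent.P231.FE.Spr
import Vale.Agent.P231.WF.Deg

/-!
# P231 (A), SIG: sphere bundles of oriented smooth families of projections (definitions)
-/

set_option linter.unusedSectionVars false
set_option linter.unusedVariables false

open Set Module Filter Topology
open scoped ContDiff

namespace Vale.Agent.P231Z.N2

noncomputable section

open Vale.Agent.P231 Vale.Agent.P231.Fm

variable {B : Type*} {V : Type} [NormedAddCommGroup V] [InnerProductSpace ℝ V]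
  [FiniteDimensional ℝ V]

/-- orthonormal frames of the range of `Q` -/
def IsFr {m : ℕ} (Q : V →L[ℝ] V) (g : Fin m → V) : Prop :=
  Orthonormal ℝ g ∧ ∀ a, Q (g a) = g a

/-- a smooth family of orthogonal projections of rank `m`, oriented by the predicate `pos` -/
structure PS (DB : Dif B) (m : ℕ) (P : B → V →L[ℝ] V) (pos : B → (Fin m → V) → Prop) : Prop where
  map : DB.Map (Dif.lin (V →L[ℝ] V)) P
  idem : ∀ b x, P b (P b x) = P b x
  symm : ∀ b x y, inner ℝ (P b x) y = (inner ℝ x (P b y) : ℝ)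
  rank : ∀ b, finrank ℝ (LinearMap.range (P b : V →ₗ[ℝ] V)) = m
  ex : ∀ b, ∃ g, IsFr (P b) g ∧ pos b g
  det : ∀ b (g : Fin m → V) (A : Matrix (Fin m) (Fin m) ℝ), IsFr (P b) g →
    IsFr (P b) (fun a => ∑ c, A a c • g c) → pos b g → pos b (fun a => ∑ c, A a c • g c) →
    0 < A.det
  loc : ∀ {E' : Type} [NormedAddCommGroup E'] [NormedSpace ℝ E'] [FiniteDimensional ℝ E']
    {u : E' → B} {g : E' → Fin m → V} {x : E'}, DB.At u x → Sm g x →
    (∀ᶠ s in 𝓝 x, IsFr (P (u s)) (g s)) → pos (u x) (g x) → ∀ᶠ s in 𝓝 x, pos (u s) (g s)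

/-- the unit vectors of the ranges -/
def sS (P : B → V →L[ℝ] V) : Set (B × V) := {p | P p.1 p.2 = p.2 ∧ ‖p.2‖ = 1}

/-- the sphere bundle -/
abbrev dS (DB : Dif B) (P : B → V →L[ℝ] V) : Dif (B × V) := (DB.prod (Dif.lin V)).on (sS P)

/-- the oriented frames -/
def sF {m : ℕ} (P : B → V →L[ℝ] V) (pos : B → (Fin m → V) → Prop) : Set (B × (Fin m → V)) :=
  {p | IsFr (P p.1) p.2 ∧ pos p.1 p.2}

/-- the bundle of oriented frames -/
abbrev dF (DB : Dif B) {m : ℕ} (P : B → V →L[ℝ] V) (pos : B → (Fin m → V) → Prop) :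
    Dif (B × (Fin m → V)) := (DB.prod (Dif.lin (Fin m → V))).on (sF P pos)

/-- the evaluation of a frame -/
def evF {m : ℕ} (z : (B × (Fin m → V)) × EuclideanSpace ℝ (Fin m)) : B × V :=
  (z.1.1, ∑ a, z.2 a • z.1.2 a)

/-- the antipodal map of the fibres -/
def ngS (p : B × V) : B × V := (p.1, -p.2)

end

end Vale.Agent.P231Z.N2
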