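import Mathlib.LinearAlgebra.Matrix.Block
import Mathlib.LinearAlgebra.Matrix.ToLinearEquiv
import Mathlib.Topology.Instances.Matrix
import Mathlib.Topology.Instances.Real.Lemmas

/-!
# P231 (A), SIG: the determinant which orients the bundle of the second level (linear algebra)
-/

set_option linter.unusedSectionVars false
set_option linter.unusedVariables false

open Matrix

namespace Vale.Agent.P231Z.N2

noncomputable section

variable {V T : Type*} [AddCommGroup V] [Module ℝ V] [AddCommGroup T] [Module ℝ T]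
  {l n m : ℕ}

/-- the matrix of the boundary values -/
def Mx (β : T →ₗ[ℝ] T →ₗ[ℝ] ℝ) (t1 t2 t3 : V →ₗ[ℝ] T) (v : T) (W : Fin l → T) (c : Fin n → T)
    (g : Fin m → V) : Matrix (Fin m ⊕ Unit) (Fin l ⊕ Fin l ⊕ Fin n) ℝ :=
  Matrix.of fun i k => Sum.elim
    (fun a => Sum.elim (fun i => β (W i) (t1 (g a)))
      (Sum.elim (fun i => β (W i) (t3 (g a))) (fun j => β (c j) (t2 (g a)))) k)
    (fun _ => Sum.elim (fun _ => 0) (Sum.elim (fun _ => 0) (fun j => β (c j) v)) k) i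

/-- its determinant -/
def Dt (σ : Fin m ⊕ Unit ≃ Fin l ⊕ Fin l ⊕ Fin n) (β : T →ₗ[ℝ] T →ₗ[ℝ] ℝ)
    (t1 t2 t3 : V →ₗ[ℝ] T) (v : T) (W : Fin l → T) (c : Fin n → T) (g : Fin m → V) : ℝ :=
  ((Mx β t1 t2 t3 v W c g).submatrix id σ).det

variable {σ : Fin m ⊕ Unit ≃ Fin l ⊕ Fin l ⊕ Fin n} {β : T →ₗ[ℝ] T →ₗ[ℝ] ℝ}
  {t1 t2 t3 : V →ₗ[ℝ] T} {v : T}

theorem Mx_row (W : Fin l → T) (c : Fin n → T) (g : Fin m → V) (A : Matrix (Fin m) (Fin m) ℝ) :
    Mx β t1 t2 t3 v W c (fun a => ∑ b, A a b • g b) =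
      fromBlocks A 0 0 (1 : Matrix Unit Unit ℝ) * Mx β t1 t2 t3 v W c g := by
  ext i k
  rw [Matrix.mul_apply, Fintype.sum_sum_type]
  rcases i with a | a
  · rcases k with i | i | i <;> simp [Mx, map_sum]
  · rcases k with i | i | i <;> simp [Mx]

theorem Dt_row (W : Fin l → T) (c : Fin n → T) (g : Fin m → V) (A : Matrix (Fin m) (Fin m) ℝ) :
    Dt σ β t1 t2 t3 v W c (fun a => ∑ b, A a b • g b) = A.det * Dt σ β t1 t2 t3 v W c g := by
  have h1 : (fromBlocks A 0 0 (1 : Matrix Unit Unit ℝ) * Mx β t1 t2 t3 v W c g).submatrix id σ =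
      fromBlocks A 0 0 (1 : Matrix Unit Unit ℝ) * (Mx β t1 t2 t3 v W c g).submatrix id σ := by
    ext i k
    simp only [Matrix.submatrix_apply, Matrix.mul_apply, id]
  rw [Dt, Mx_row, h1, Matrix.det_mul, Matrix.det_fromBlocks_zero₂₁, Matrix.det_one, mul_one, Dt]

theorem Mx_col (W : Fin l → T) (c : Fin n → T) (g : Fin m → V) (B : Matrix (Fin l) (Fin l) ℝ)
    (A : Matrix (Fin n) (Fin n) ℝ) :
    Mx β t1 t2 t3 v (fun a => ∑ b, B a b • W b) (fun a => ∑ b, A a b • c b) g =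
      Mx β t1 t2 t3 v W c g * (fromBlocks B 0 0 (fromBlocks B 0 0 A))ᵀ := by
  ext i k
  rw [Matrix.mul_apply, Fintype.sum_sum_type, Fintype.sum_sum_type]
  rcases i with a | a
  · rcases k with i | i | i <;> simp [Mx, map_sum, mul_comm]
  · rcases k with i | i | i <;> simp [Mx, map_sum, mul_comm]

theorem Dt_col (W : Fin l → T) (c : Fin n → T) (g : Fin m → V) (B : Matrix (Fin l) (Fin l) ℝ)
    (A : Matrix (Fin n) (Fin n) ℝ) :
    Dt σ β t1 t2 t3 v (fun a => ∑ b, B a b • W b) (fun a => ∑ b, A a b • c b) g =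
      Dt σ β t1 t2 t3 v W c g * (B.det * (B.det * A.det)) := by
  have h1 : (Mx β t1 t2 t3 v W c g * (fromBlocks B 0 0 (fromBlocks B 0 0 A))ᵀ).submatrix id σ =
      (Mx β t1 t2 t3 v W c g).submatrix id σ *
        ((fromBlocks B 0 0 (fromBlocks B 0 0 A))ᵀ).submatrix σ σ := by
    rw [Matrix.submatrix_mul_equiv]
  rw [Dt, Mx_col, h1, Matrix.det_mul, Matrix.det_submatrix_equiv_self, Matrix.det_transpose,
    Matrix.det_fromBlocks_zero₂₁, Matrix.det_fromBlocks_zero₂₁, Dt]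

theorem Dt_ne {W : Fin l → T} {c : Fin n → T} {g : Fin m → V} (hg : LinearIndependent ℝ g)
    (h1 : ∀ z, (∀ i, β (W i) (t1 z) = 0) → t1 z = 0)
    (h3 : ∀ z, (∀ i, β (W i) (t3 z) = 0) → t3 z = 0)
    (hc : ∀ a, (∀ j, β (c j) a = 0) → a = 0) (h2 : ∀ z, β v (t2 z) = 0) (hv : β v v = 1)
    (hinj : ∀ ξ : Fin m → ℝ, t1 (∑ a, ξ a • g a) = 0 → t2 (∑ a, ξ a • g a) = 0 →
      t3 (∑ a, ξ a • g a) = 0 → ∑ a, ξ a • g a = 0) :
    Dt σ β t1 t2 t3 v W c g ≠ 0 := by
  intro h0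
  obtain ⟨w, hw0, hw⟩ := Matrix.exists_vecMul_eq_zero_iff.2 h0
  have k0 : ∀ k, ∑ i, w i * Mx β t1 t2 t3 v W c g i k = 0 := fun k => by
    have k1 := congrFun hw (σ.symm k)
    simpa [Matrix.vecMul, dotProduct] using k1
  set z := ∑ a, w (Sum.inl a) • g a with hz
  have k1 : t1 z = 0 := h1 z fun i => by
    have k := k0 (Sum.inl i)
    rw [Fintype.sum_sum_type] at k
    simpa [Mx, hz, map_sum] using k
  have k3 : t3 z = 0 := h3 z fun i => by
    have k := k0 (Sum.inr (Sum.inl i))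
    rw [Fintype.sum_sum_type] at k
    simpa [Mx, hz, map_sum] using k
  have k2 : t2 z + w (Sum.inr ()) • v = 0 := hc _ fun j => by
    have k := k0 (Sum.inr (Sum.inr j))
    rw [Fintype.sum_sum_type] at k
    simpa [Mx, hz, map_sum] using k
  have k4 : w (Sum.inr ()) = 0 := by
    have k := congrArg (β v) k2
    rwa [map_add, map_smul, h2, hv, map_zero, zero_add, smul_eq_mul, mul_one] at k
  rw [k4, zero_smul, add_zero] at k2
  have k5 := Fintype.linearIndependent_iff.1 hg _ (hinj _ k1 k2 k3)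
  refine hw0 (funext fun i => ?_)
  rcases i with a | a
  · exact k5 a
  · exact k4

/-- continuity of the determinant -/
theorem Dt_cont {X : Type*} [TopologicalSpace X] {x : X} {β : X → T →ₗ[ℝ] T →ₗ[ℝ] ℝ}
    {t1 t2 t3 : X → V →ₗ[ℝ] T} {v : X → T} {W : X → Fin l → T} {c : X → Fin n → T}
    {g : X → Fin m → V}
    (h1 : ∀ i a, ContinuousAt (fun s => β s (W s i) (t1 s (g s a))) x)
    (h3 : ∀ i a, ContinuousAt (fun s => β s (W s i) (t3 s (g s a))) x)
    (h2 : ∀ j a, ContinuousAt (fun s => β s (c s j) (t2 s (g s a))) x)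
    (h4 : ∀ j, ContinuousAt (fun s => β s (c s j) (v s)) x) :
    ContinuousAt (fun s => Dt σ (β s) (t1 s) (t2 s) (t3 s) (v s) (W s) (c s) (g s)) x := by
  have h5 : Continuous fun A : Matrix (Fin m ⊕ Unit) (Fin m ⊕ Unit) ℝ => A.det :=
    continuous_id.matrix_det
  refine h5.continuousAt.comp (f := fun s =>
    (Mx (β s) (t1 s) (t2 s) (t3 s) (v s) (W s) (c s) (g s)).submatrix id σ) ?_
  refine continuousAt_pi.2 fun i => continuousAt_pi.2 fun k => ?_
  simp only [Matrix.submatrix_apply, id]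
  generalize σ k = k'
  rcases i with a | a
  · rcases k' with i | i | i
    · exact h1 i a
    · exact h3 i a
    · exact h2 i a
  · rcases k' with i | i | i
    · exact continuousAt_const
    · exact continuousAt_const
    · exact h4 i

end

end Vale.Agent.P231Z.N2
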