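import Vale.Agent.P231Z.N2.BunDefs

/-!
# P231 (A), SIG: the sphere bundle of an oriented smooth family of projections
-/

set_option linter.unusedSectionVars false
set_option linter.unusedVariables false

open Set Module Filter Topology
open scoped ContDiff

namespace Vale.Agent.P231Z.N2

noncomputable section

open Vale.Agent.P231 Vale.Agent.P231.Fm

variable {B : Type*} {V : Type} [NormedAddCommGroup V] [InnerProductSpace ℝ V]
  [FiniteDimensional ℝ V] {m : ℕ}

/-- the linear combination of a family of vectors -/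
def mkF (g : Fin m → V) : EuclideanSpace ℝ (Fin m) →L[ℝ] V :=
  ∑ a, (EuclideanSpace.proj a : EuclideanSpace ℝ (Fin m) →L[ℝ] ℝ).smulRight (g a)

theorem mkF_apply (g : Fin m → V) (ξ : EuclideanSpace ℝ (Fin m)) :
    mkF g ξ = ∑ a, ξ a • g a := by
  rw [mkF, sum_apply]
  exact Finset.sum_congr rfl fun a _ => by
    rw [ContinuousLinearMap.smulRight_apply]
    rfl

/-- the coordinates in a frame -/
def trF (g : Fin m → V) : V →L[ℝ] EuclideanSpace ℝ (Fin m) :=
  ∑ a, (innerSL ℝ (g a)).smulRight (EuclideanSpace.single a (1 : ℝ))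

theorem trF_apply (g : Fin m → V) (w : V) (a : Fin m) : trF g w a = (inner ℝ (g a) w : ℝ) := by
  have h1 : trF g w = ∑ b, (inner ℝ (g b) w : ℝ) • EuclideanSpace.single b (1 : ℝ) := by
    rw [trF, sum_apply]
    exact Finset.sum_congr rfl fun a _ => by
      rw [ContinuousLinearMap.smulRight_apply, innerSL_apply_apply]
  rw [h1]
  simp [Pi.single_apply]

theorem norm_mkF {g : Fin m → V} (hg : Orthonormal ℝ g) (ξ : EuclideanSpace ℝ (Fin m)) :
    ‖mkF g ξ‖ = ‖ξ‖ := by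
  have h1 : ‖mkF g ξ‖ ^ 2 = ‖ξ‖ ^ 2 := by
    rw [← real_inner_self_eq_norm_sq, mkF_apply, hg.inner_sum, EuclideanSpace.norm_sq_eq]
    refine Finset.sum_congr rfl fun a _ => ?_
    simp [sq]
  exact (sq_eq_sq₀ (norm_nonneg _) (norm_nonneg _)).1 h1

theorem trF_mkF {g : Fin m → V} (hg : Orthonormal ℝ g) (ξ : EuclideanSpace ℝ (Fin m)) :
    trF g (mkF g ξ) = ξ := by
  ext a
  rw [trF_apply, mkF_apply, hg.inner_right_fintype]

theorem IsFr.mem_span {Q : V →L[ℝ] V} (hr : finrank ℝ (LinearMap.range (Q : V →ₗ[ℝ] V)) = m)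
    {g : Fin m → V} (hg : IsFr Q g) {w : V} (hw : Q w = w) :
    w ∈ Submodule.span ℝ (Set.range g) := by
  rw [FE.span_eq hr hg.1 fun a => ⟨g a, hg.2 a⟩]
  exact ⟨w, hw⟩

theorem IsFr.mkF_trF {Q : V →L[ℝ] V} (hr : finrank ℝ (LinearMap.range (Q : V →ₗ[ℝ] V)) = m)
    {g : Fin m → V} (hg : IsFr Q g) {w : V} (hw : Q w = w) : mkF g (trF g w) = w := by
  rw [mkF_apply]
  simp only [trF_apply]
  exact FE.sum_of_mem_span hg.1 (hg.mem_span hr hw)

theorem IsFr.fix {Q : V →L[ℝ] V} {g : Fin m → V} (hg : IsFr Q g)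
    (ξ : EuclideanSpace ℝ (Fin m)) : Q (mkF g ξ) = mkF g ξ := by
  rw [mkF_apply]
  simp only [map_sum, map_smul, hg.2]

theorem evF_eq (f : B × (Fin m → V)) (ξ : EuclideanSpace ℝ (Fin m)) :
    evF (f, ξ) = (f.1, mkF f.2 ξ) := by
  rw [mkF_apply]
  rfl

section Smooth

variable {E' : Type*} [NormedAddCommGroup E'] [NormedSpace ℝ E'] {x : E'}

theorem cda_mkF {g : E' → Fin m → V} (hg : ContDiffAt ℝ ∞ g x) :
    ContDiffAt ℝ ∞ (fun y => mkF (g y)) x := by
  unfold mkF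
  exact ContDiffAt.sum fun a _ => contDiffAt_const.smulRight (contDiffAt_pi.1 hg a)

theorem cda_trF {g : E' → Fin m → V} (hg : ContDiffAt ℝ ∞ g x) :
    ContDiffAt ℝ ∞ (fun y => trF (g y)) x := by
  unfold trF
  refine ContDiffAt.sum fun a _ => ?_
  have h2 : ContDiffAt ℝ ∞ (fun y => innerSL ℝ (g y a)) x :=
    (innerSL ℝ (E := V)).contDiff.contDiffAt.comp x (contDiffAt_pi.1 hg a)
  exact h2.smulRight contDiffAt_const

end Smooth

/-- the determinant of an isometry has square one -/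
theorem det_sq_of_iso {W : Type*} [NormedAddCommGroup W] [InnerProductSpace ℝ W]
    [FiniteDimensional ℝ W] (g : W →ₗ[ℝ] W) (hg : ∀ ξ, ‖g ξ‖ = ‖ξ‖) :
    LinearMap.det g * LinearMap.det g = 1 := by
  let b := stdOrthonormalBasis ℝ W
  have h1 : Orthonormal ℝ fun a => g (b a) :=
    b.orthonormal.comp_linearIsometry (⟨g, hg⟩ : W →ₗᵢ[ℝ] W)
  set A := LinearMap.toMatrix b.toBasis b.toBasis g with hA
  have h2 : A.transpose * A = 1 := by
    ext a c
    rw [Matrix.mul_apply, Matrix.one_apply, ← orthonormal_iff_ite.1 h1 a c,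
      ← b.sum_inner_mul_inner]
    refine Finset.sum_congr rfl fun k _ => ?_
    rw [Matrix.transpose_apply, hA, LinearMap.toMatrix_apply, LinearMap.toMatrix_apply,
      OrthonormalBasis.coe_toBasis, OrthonormalBasis.coe_toBasis_repr_apply,
      OrthonormalBasis.coe_toBasis_repr_apply, b.repr_apply_apply, b.repr_apply_apply,
      real_inner_comm]
  have h3 := congrArg Matrix.det h2
  rw [Matrix.det_mul, Matrix.det_transpose, Matrix.det_one, hA, LinearMap.det_toMatrix] at h3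
  exact h3

/-- the determinant of the transition between two frames -/
theorem det_trans (g g' : Fin m → V) :
    LinearMap.det ((((trF g).comp (mkF g') : _ →L[ℝ] _)) :
      EuclideanSpace ℝ (Fin m) →ₗ[ℝ] EuclideanSpace ℝ (Fin m)) =
      Matrix.det (Matrix.of fun a c : Fin m => (inner ℝ (g c) (g' a) : ℝ)) := by
  rw [← LinearMap.det_toMatrix (EuclideanSpace.basisFun (Fin m) ℝ).toBasis,
    ← Matrix.det_transpose]
  congr 1
  ext a c
  rw [Matrix.transpose_apply, LinearMap.toMatrix_apply, OrthonormalBasis.coe_toBasis,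
    OrthonormalBasis.coe_toBasis_repr_apply, EuclideanSpace.basisFun_repr, Matrix.of_apply]
  change trF g (mkF g' _) c = _
  rw [trF_apply, mkF_apply]
  congr 1
  simp

variable {DB : Dif B} {P : B → V →L[ℝ] V} {pos : B → (Fin m → V) → Prop}

/-- local oriented frames along a plot -/
theorem PS.exists_frame (h : PS DB m P pos) {E' : Type} [NormedAddCommGroup E']
    [NormedSpace ℝ E'] [FiniteDimensional ℝ E'] {u : E' → B} {x : E'} (hu : DB.At u x) :
    ∃ g : E' → Fin m → V, Sm g x ∧ ∀ᶠ s in 𝓝 x, IsFr (P (u s)) (g s) ∧ pos (u s) (g s) := by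
  obtain ⟨g0, hg0, hp0⟩ := h.ex (u x)
  have hP : Sm (fun s => P (u s)) x := h.map hu
  obtain ⟨e, h1, h2, h3, h4⟩ := FE.exists_gs (x := x)
    (K := fun s => LinearMap.range (P (u s) : V →ₗ[ℝ] V)) (fun g hg _ => by
      obtain ⟨w, rfl⟩ := hg
      refine ⟨fun s => P (u s) (P (u x) w), ?_, h.idem _ _,
        Eventually.of_forall fun s => ⟨_, rfl⟩⟩
      filter_upwards [hP] with s hs using hs.clm_apply contDiffAt_const) m g0 hg0.1
    (fun a => ⟨g0 a, hg0.2 a⟩)
  have h5 : Sm (fun s a => e a s) x := by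
    have h6 : ∀ᶠ y in 𝓝 x, ∀ a, ContDiffAt ℝ ∞ (e a) y := Filter.eventually_all.2 h1
    filter_upwards [h6] with y hy using contDiffAt_pi.2 hy
  have h7 : ∀ᶠ s in 𝓝 x, IsFr (P (u s)) (fun a => e a s) := by
    filter_upwards [h2, h3] with s k2 k3
    refine ⟨k2, fun a => ?_⟩
    obtain ⟨w, hw⟩ := k3 a
    show P (u s) (e a s) = e a s
    rw [← hw]
    exact h.idem _ _
  have h8 : pos (u x) (fun a => e a x) := by
    rw [show (fun a => e a x) = g0 from funext h4]
    exact hp0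
  exact ⟨fun s a => e a s, h5, h7.and (h.loc hu h5 h7 h8)⟩

/-- **the unit vectors of an oriented family of projections form a sphere bundle** -/
theorem PS.bun (h : PS DB m P pos) :
    Co.Bun DB (dS DB P) (dF DB P pos) (EuclideanSpace ℝ (Fin m)) Prod.fst Prod.fst evF where
  hπ := fun hu => hu.1.1
  hq := {
    map := fun hu => hu.1.1
    lift := fun {E'} _ _ _ {u x} hu => by
      obtain ⟨g, h1, h2⟩ := h.exists_frame hu
      exact ⟨fun s => (u s, g s), ⟨⟨hu, h1⟩, h2⟩, EventuallyEq.rfl⟩ }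
  hev := fun {E'} _ _ _ {u x} hu => by
    have h1 : DB.At (fun y => (u y).1.1) x := hu.1.1.1.1
    have h2 : Sm (fun y => (u y).1.2) x := hu.1.1.1.2
    have h3 : ∀ᶠ y in 𝓝 x, (u y).1 ∈ sF P pos := hu.1.1.2
    have h4 : Sm (fun y => (u y).2) x := hu.1.2
    have h5 : ∀ᶠ y in 𝓝 x, ‖(u y).2‖ = 1 := hu.2
    have h6 : (evF ∘ u) = fun y => ((u y).1.1, mkF (u y).1.2 (u y).2) :=
      funext fun y => evF_eq (u y).1 (u y).2
    rw [h6]
    refine ⟨⟨h1, ?_⟩, ?_⟩
    · show Sm (fun y => mkF (u y).1.2 (u y).2) x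
      filter_upwards [h2, h4] with y k2 k4 using (cda_mkF k2).clm_apply k4
    · filter_upwards [h3, h5] with y k3 k5
      exact ⟨k3.1.fix _, by
        show ‖mkF (u y).1.2 (u y).2‖ = 1
        rw [norm_mkF k3.1.1, k5]⟩
  comm := fun _ => rfl
  trans := fun {E'} _ _ _ {f f' x} hf hf' hq => by
    have h1 : Sm (fun y => (f y).2) x := hf.1.2
    have h1' : Sm (fun y => (f' y).2) x := hf'.1.2
    have h2 : ∀ᶠ y in 𝓝 x, f y ∈ sF P pos := hf.2
    have h2' : ∀ᶠ y in 𝓝 x, f' y ∈ sF P pos := hf'.2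
    refine ⟨fun y => (trF (f y).2).comp (mkF (f' y).2), ?_, ?_⟩
    · filter_upwards [h1, h1'] with y k1 k2 using (cda_trF k1).clm_comp (cda_mkF k2)
    · filter_upwards [h2, h2', hq] with y k2 k2' k3
      have k4 : (f y).1 = (f' y).1 := k3
      have k5 : IsFr (P (f y).1) (f' y).2 := k4 ▸ k2'.1
      have k6 : pos (f y).1 (f' y).2 := k4 ▸ k2'.2
      have k7 : ∀ ξ, mkF (f y).2 (trF (f y).2 (mkF (f' y).2 ξ)) = mkF (f' y).2 ξ := fun ξ =>
        k2.1.mkF_trF (h.rank _) (k5.fix ξ)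
      have k8 : ∀ ξ, ‖((trF (f y).2).comp (mkF (f' y).2)) ξ‖ = ‖ξ‖ := fun ξ => by
        rw [← norm_mkF k2.1.1]
        change ‖mkF (f y).2 (trF (f y).2 (mkF (f' y).2 ξ))‖ = _
        rw [k7, norm_mkF k5.1]
      refine ⟨k8, ?_, fun ξ _ => ?_⟩
      · have k9 := det_sq_of_iso _ k8
        have k10 : (fun a => ∑ c, (Matrix.of fun a c : Fin m =>
            (inner ℝ ((f y).2 c) ((f' y).2 a) : ℝ)) a c • (f y).2 c) = (f' y).2 :=
          funext fun a => FE.sum_of_mem_span k2.1.1 (k2.1.mem_span (h.rank _) (k5.2 a))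
        have k11 := h.det (f y).1 (f y).2 _ k2.1 (by rw [k10]; exact k5) k2.2
          (by rw [k10]; exact k6)
        rw [← det_trans] at k11
        have k12 : ∀ t : ℝ, t * t = 1 → 0 < t → t = 1 := fun t a b => by nlinarith
        exact k12 _ k9 k11
      · rw [evF_eq, evF_eq]
        exact Prod.ext k4.symm (k7 ξ).symm
  lift := fun {E'} _ _ _ {s f x} hs hf hq => by
    have h1 : Sm (fun y => (f y).2) x := hf.1.2
    have h2 : ∀ᶠ y in 𝓝 x, f y ∈ sF P pos := hf.2
    have h3 : Sm (fun y => (s y).2) x := hs.1.2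
    have h4 : ∀ᶠ y in 𝓝 x, s y ∈ sS P := hs.2
    refine ⟨fun y => trF (f y).2 (s y).2, ?_, ?_⟩
    · filter_upwards [h1, h3] with y k1 k3 using (cda_trF k1).clm_apply k3
    · filter_upwards [h2, h4, hq] with y k2 k4 k3
      have k5 : (f y).1 = (s y).1 := k3
      have k6 : mkF (f y).2 (trF (f y).2 (s y).2) = (s y).2 :=
        k2.1.mkF_trF (h.rank _) (by rw [k5]; exact k4.1)
      refine ⟨?_, ?_⟩
      · rw [← norm_mkF k2.1.1, k6, k4.2]
      · rw [evF_eq]
        exact Prod.ext k5 k6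
  inj := fun {E'} _ _ _ {f x} hf ξ ξ' _ _ hξ => by
    have h2 : f x ∈ sF P pos := hf.2.self_of_nhds
    rw [evF_eq, evF_eq] at hξ
    have h3 : mkF (f x).2 ξ = mkF (f x).2 ξ' := congrArg Prod.snd hξ
    rw [← trF_mkF h2.1.1 ξ, h3, trF_mkF h2.1.1]

theorem map_ngS : (dS DB P).Map (dS DB P) ngS := fun {E'} _ _ _ {u x} hu => by
  have h1 : Sm (fun y => (u y).2) x := hu.1.2
  have h2 : ∀ᶠ y in 𝓝 x, u y ∈ sS P := hu.2
  refine ⟨⟨hu.1.1, ?_⟩, ?_⟩
  · show Sm (fun y => -(u y).2) x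
    filter_upwards [h1] with y k1 using k1.neg
  · filter_upwards [h2] with y k2
    refine ⟨?_, ?_⟩
    · show P (u y).1 (-(u y).2) = -(u y).2
      rw [map_neg, k2.1]
    · show ‖-(u y).2‖ = 1
      rw [norm_neg, k2.2]

theorem ngS_evF (f : B × (Fin m → V)) (ξ : EuclideanSpace ℝ (Fin m)) :
    ngS (evF (f, ξ)) = evF (f, -ξ) := by
  rw [evF_eq, evF_eq, map_neg]
  rfl

end

end Vale.Agent.P231Z.N2
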