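import Vale.Agent.P231Z.N2.BunP
import Vale.Agent.P231Z.N2.BunLin
import Vale.Agent.P231Z.N2.OriDefs
import Vale.Agent.P231.S2N.Tra

/-!
# P231 (A), SIG: orientation of a family of projections isomorphic to `L ⊕ L ⊕ v^⊥`
-/

set_option maxSynthPendingDepth 3
set_option linter.unusedSectionVars false
set_option linter.unusedVariables false

open Bundle Manifold Set Filter Module
open scoped ContDiff Manifold Topology

namespace Vale.Agent.P231Z.N2

noncomputable section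

open Vale.Agent.P234 Vale.Agent.P231 Vale.Agent.P231.Fm Vale.Agent.P231.W Vale.Agent.P231.WR

variable {E : Type*} [NormedAddCommGroup E] [NormedSpace ℝ E]
  {M : Type*} [MetricSpace M] [ChartedSpace E M]
  [RiemannianBundle (fun x : M => TangentSpace 𝓘(ℝ, E) x)]
  {e : ∀ x : M, TangentSpace 𝓘(ℝ, E) x → M}
  [FiniteDimensional ℝ E] [IsManifold 𝓘(ℝ, E) ∞ M]
  [IsContMDiffRiemannianBundle 𝓘(ℝ, E) ∞ E (fun x : M => TangentSpace 𝓘(ℝ, E) x)]

/-- the metric as a bilinear map -/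
def ipL (x : M) : E →ₗ[ℝ] E →ₗ[ℝ] ℝ :=
  LinearMap.mk₂ ℝ (ip x) (ip_add_left' x) (fun r a b => ip_smul_left' x r a b)
    (ip_add_right' x) (fun r a b => ip_smul_right' x r a b)

@[simp] theorem ipL_apply (x : M) (a b : E) : ipL x a b = ip x a b := rfl

theorem eq_zero_of_ip_self {x : M} {a : E} (h : ip x a a = 0) : a = 0 :=
  (inner_self_eq_zero (𝕜 := ℝ) (E := TangentSpace 𝓘(ℝ, E) x) (x := a)).1 h

theorem exists_coef {n : ℕ} (hn : finrank ℝ E = n) {c : Fin n → E} (hc : LinearIndependent ℝ c)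
    (a : E) : ∃ r : Fin n → ℝ, ∑ j, r j • c j = a := by
  have h1 : Submodule.span ℝ (Set.range c) = ⊤ :=
    hc.span_eq_top_of_card_eq_finrank' (by rw [Fintype.card_fin, hn])
  exact (Submodule.mem_span_range_iff_exists_fun ℝ).1 (h1 ▸ Submodule.mem_top)

theorem eq_zero_of_ip_basis {n : ℕ} (hn : finrank ℝ E = n) {x : M} {c : Fin n → E}
    (hc : LinearIndependent ℝ c) {a : E} (h : ∀ j, ip x (c j) a = 0) : a = 0 := by
  obtain ⟨r, hr⟩ := exists_coef hn hc a
  refine eq_zero_of_ip_self (x := x) ?_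
  have h1 : ip x (∑ j, r j • c j) a = 0 := by
    rw [ip_sum_left]
    exact Finset.sum_eq_zero fun j _ => by rw [ip_smul_left', h, mul_zero]
  rwa [hr] at h1

section Plots

variable {E' : Type} [NormedAddCommGroup E'] [NormedSpace ℝ E'] [FiniteDimensional ℝ E']

/-- a tangent vector extends to a smooth field along a plot -/
theorem at_ext {f : E' → M} {x : E'} (hf : (dM E M).At f x) (a : E) :
    (dTM E M).At (fun s => tb (f s) (vec (f x) (f s) a : E)) x := by
  have h1 : ∀ᶠ s in 𝓝 x, ContMDiffAt 𝓘(ℝ, E') 𝓘(ℝ, E) ∞ f s := hf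
  have h2 : ∀ᶠ s in 𝓝 x, f s ∈ (extChartAt 𝓘(ℝ, E) (f x)).source :=
    h1.self_of_nhds.continuousAt.eventually
      ((isOpen_extChartAt_source (f x)).mem_nhds (mem_extChartAt_source (f x)))
  refine (S2N.at_tb (a := fun s => (vec (f x) (f s) a : E))).2 ?_
  filter_upwards [h1, h2] with s k1 k2
  exact H775.smV_vec (ξ := fun _ => a) (f x) k2 k1 contDiffAt_const

/-- local positive bases through a given positive basis -/
theorem OriM.sec {n : ℕ} {op : M → (Fin n → E) → Prop} (h : OriM E M n op) {f : E' → M} {x : E'}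
    (hf : (dM E M).At f x) {c₀ : Fin n → E} (h0 : op (f x) c₀) :
    ∃ c : E' → Fin n → E, c x = c₀ ∧ (∀ a, (dTM E M).At (fun s => tb (f s) (c s a)) x) ∧
      ∀ᶠ s in 𝓝 x, op (f s) (c s) := by
  have h1 : (fun a => (vec (f x) (f x) (crd (f x) (f x) (c₀ a)) : E)) = c₀ :=
    funext fun a => vec_crd (f x) (mem_extChartAt_source (f x)) (c₀ a)
  refine ⟨fun s a => (vec (f x) (f s) (crd (f x) (f x) (c₀ a)) : E), h1,
    fun a => at_ext hf _, h.loc hf (fun a => at_ext hf _) ?_⟩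
  rw [h1]
  exact h0

variable [CompactSpace M] [ConnectedSpace M] [IsRiemannianManifold 𝓘(ℝ, E) M]
variable {V : Type} [NormedAddCommGroup V] [InnerProductSpace ℝ V] [FiniteDimensional ℝ V]

/-- a linear family of fields applied to a smooth vector -/
theorem at_lin {t : UT E M → V →ₗ[ℝ] E} (ht : ∀ z, S2N.Fld (fun v => t v z)) {u : E' → UT E M}
    {x : E'} (hu : (dUT E M).At u x) {z : E' → V} (hz : Sm z x) :
    (dTM E M).At (fun s => tb (foot (u s)) (t (u s) (z s))) x := by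
  let b := stdOrthonormalBasis ℝ V
  have h1 : (fun s => tb (foot (u s)) (t (u s) (z s))) =
      fun s => tb (foot (u s)) (∑ k, (inner ℝ (b k) (z s) : ℝ) • t (u s) (b k)) := by
    funext s
    refine tb_congr rfl ?_
    conv_lhs => rw [← b.sum_repr' (z s)]
    simp only [map_sum, map_smul]
  rw [h1]
  refine S2N.at_sum' _ (S2N.at_zero hu) fun k => S2N.at_smul ?_ ((ht (b k)).map hu)
  filter_upwards [hz] with s hs using contDiffAt_const.inner ℝ hs

end Plots

variable [CompactSpace M] [ConnectedSpace M] [IsRiemannianManifold 𝓘(ℝ, E) M]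
variable {V : Type} [NormedAddCommGroup V] [InnerProductSpace ℝ V] [FiniteDimensional ℝ V]

theorem exists_isFr {m : ℕ} {Q : V →L[ℝ] V} (hidem : ∀ x, Q (Q x) = Q x)
    (hr : finrank ℝ (LinearMap.range (Q : V →ₗ[ℝ] V)) = m) : ∃ g : Fin m → V, IsFr Q g := by
  let b := (stdOrthonormalBasis ℝ (LinearMap.range (Q : V →ₗ[ℝ] V))).reindex (finCongr hr)
  refine ⟨fun a => (b a : V), b.orthonormal.comp_linearIsometry
    (LinearMap.range (Q : V →ₗ[ℝ] V)).subtypeₗᵢ, fun a => ?_⟩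
  obtain ⟨w, hw⟩ := (b a).2
  show Q (b a : V) = b a
  rw [← hw]
  exact hidem w

theorem IsFr.flip {m : ℕ} {Q : V →L[ℝ] V} {g : Fin m → V} (hg : IsFr Q g) (i : Fin m) :
    IsFr Q (fun a => ∑ b, Matrix.diagonal (fun k => if k = i then (-1 : ℝ) else 1) a b • g b) := by
  have h1 : ∀ a, ∑ b, Matrix.diagonal (fun k => if k = i then (-1 : ℝ) else 1) a b • g b =
      (if a = i then (-1 : ℝ) else 1) • g a := fun a => by
    rw [Finset.sum_eq_single a]
    · rw [Matrix.diagonal_apply_eq]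
    · intro b _ hb
      rw [Matrix.diagonal_apply_ne _ (Ne.symm hb), zero_smul]
    · simp
  refine ⟨hg.1.orthonormal_of_forall_eq_or_eq_neg fun a => ?_, fun a => ?_⟩
  · rw [h1]
    by_cases h : a = i
    · right
      rw [if_pos h, neg_one_smul]
    · left
      rw [if_neg h, one_smul]
  · show Q (∑ b, _) = ∑ b, _
    simp only [map_sum, map_smul, hg.2]

section Main

variable (F : Facts e) {D : ℝ} (hD : 0 < D) (hB : InjGE e D) (hdiam : ∀ p q : M, dist p q ≤ D)
  {l : ℕ} (hP : ∀ x y : M, dist x y = D → finrank ℝ (H775.Pl e D x y) = l + 1)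

include F hD hB hdiam hP in
theorem isLF_sum {v : UT E M} {W : Fin l → UT E M} (h : IsLF e D v W) {a : E}
    (ha : (a : TangentSpace 𝓘(ℝ, E) (foot v)) ∈ Lf e D v) :
    a = ∑ i, ip (foot v) (vec' (W i)) a • vec' (W i) := by
  rw [← h.prL_eq F hD hB hdiam hP, prL_of_mem ha]

include F hD hB hdiam hP in
theorem isLF_zero {v : UT E M} {W : Fin l → UT E M} (h : IsLF e D v W) {a : E}
    (ha : (a : TangentSpace 𝓘(ℝ, E) (foot v)) ∈ Lf e D v)
    (h0 : ∀ i, ip (foot v) (vec' (W i)) a = 0) : a = 0 := by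
  rw [isLF_sum F hD hB hdiam hP h ha]
  exact Finset.sum_eq_zero fun i _ => by rw [h0, zero_smul]

/-- the positive frames -/
def posF (e : ∀ x : M, TangentSpace 𝓘(ℝ, E) x → M) (D : ℝ) {l n m : ℕ}
    (σ : Fin m ⊕ Unit ≃ Fin l ⊕ Fin l ⊕ Fin n) (op : M → (Fin n → E) → Prop)
    (t1 t2 t3 : UT E M → V →ₗ[ℝ] E) (v : UT E M) (g : Fin m → V) : Prop :=
  ∃ (W : Fin l → UT E M) (c : Fin n → E), IsLF e D v W ∧ op (foot v) c ∧
    0 < Dt σ (ipL (foot v)) (t1 v) (t2 v) (t3 v) (vec' v) (fun i => vec' (W i)) c g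

include F hD hB hdiam hP in
/-- **a family of projections isomorphic to `L ⊕ L ⊕ v^⊥` is orientable** -/
theorem exists_pos {N : ℕ} (hN : finrank ℝ E = N + 1) {op : M → (Fin (N + 1) → E) → Prop}
    (hO : OriM E M (N + 1) op) {m : ℕ} (hm : m = l + l + N) (P : UT E M → V →L[ℝ] V)
    (hmap : (dUT E M).Map (Dif.lin (V →L[ℝ] V)) P) (hidem : ∀ v x, P v (P v x) = P v x)
    (hsymm : ∀ v x y, inner ℝ (P v x) y = (inner ℝ x (P v y) : ℝ))
    (hrank : ∀ v, finrank ℝ (LinearMap.range (P v : V →ₗ[ℝ] V)) = m)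
    (t1 t2 t3 : UT E M → V →ₗ[ℝ] E) (f1 : ∀ z, S2N.Fld (fun v => t1 v z))
    (f2 : ∀ z, S2N.Fld (fun v => t2 v z)) (f3 : ∀ z, S2N.Fld (fun v => t3 v z))
    (m1 : ∀ v z, (t1 v z : TangentSpace 𝓘(ℝ, E) (foot v)) ∈ Lf e D v)
    (m3 : ∀ v z, (t3 v z : TangentSpace 𝓘(ℝ, E) (foot v)) ∈ Lf e D v)
    (m2 : ∀ v z, ip (foot v) (vec' v) (t2 v z) = 0)
    (inj : ∀ v z, P v z = z → t1 v z = 0 → t2 v z = 0 → t3 v z = 0 → z = 0) :
    ∃ pos, PS (dUT E M) m P pos := by
  rcases Nat.eq_zero_or_pos m with h0 | h0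
  · subst h0
    refine ⟨fun _ _ => True, hmap, hidem, hsymm, hrank, fun v => ?_, fun v g A _ _ _ _ => ?_,
      fun _ _ _ _ => Eventually.of_forall fun _ => trivial⟩
    · obtain ⟨g, hg⟩ := exists_isFr (hidem v) (hrank v)
      exact ⟨g, hg, trivial⟩
    · rw [Matrix.det_isEmpty]
      exact one_pos
  let σ : Fin m ⊕ Unit ≃ Fin l ⊕ Fin l ⊕ Fin (N + 1) := Fintype.equivOfCardEq (by
    simp only [Fintype.card_sum, Fintype.card_fin, Fintype.card_unit]
    omega)
  refine ⟨posF e D σ op t1 t2 t3, hmap, hidem, hsymm, hrank, fun v => ?_, ?_, ?_⟩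
  · obtain ⟨g, hg⟩ := exists_isFr (hidem v) (hrank v)
    obtain ⟨W, hW⟩ := exists_isLF F hD hB hdiam hP v
    obtain ⟨c, hc⟩ := hO.ex (foot v)
    have h1 : Dt σ (ipL (foot v)) (t1 v) (t2 v) (t3 v) (vec' v) (fun i => vec' (W i)) c g ≠ 0 := by
      refine Dt_ne hg.1.linearIndependent
        (fun z hz => isLF_zero F hD hB hdiam hP hW (m1 v z) hz)
        (fun z hz => isLF_zero F hD hB hdiam hP hW (m3 v z) hz)
        (fun a ha => eq_zero_of_ip_basis hN (hO.li _ _ hc) ha) (m2 v) (ip_vec' v)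
        (fun ξ => inj v _ ?_)
      simp only [map_sum, map_smul, hg.2]
    rcases lt_or_gt_of_ne h1 with h2 | h2
    · refine ⟨_, hg.flip ⟨0, h0⟩, W, c, hW, hc, ?_⟩
      rw [Dt_row, Matrix.det_diagonal, Finset.prod_ite_eq', if_pos (Finset.mem_univ _)]
      linarith
    · exact ⟨g, hg, W, c, hW, hc, h2⟩
  · rintro v g A - - ⟨W, c, hW, hc, h1⟩ ⟨W', c', hW', hc', h2⟩
    choose r hr using fun j => exists_coef hN (hO.li _ _ hc) (c' j)
    have h3 : c' = fun a => ∑ b, (Matrix.of r) a b • c b := funext fun a => (hr a).symm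
    have h4 : (fun i => vec' (W' i)) = fun a => ∑ b, (Matrix.of fun a b =>
        ip (foot v) (vec' (W b)) (vec' (W' a))) a b • vec' (W b) :=
      funext fun a => isLF_sum F hD hB hdiam hP hW (hW'.isL a).mem_Lf
    have h5 : 0 < (Matrix.of r).det := hO.det _ c _ hc (h3 ▸ hc')
    rw [Dt_row, h4, h3, Dt_col] at h2
    generalize (Matrix.of fun a b => ip (foot v) (vec' (W b)) (vec' (W' a))).det = β at h2
    by_contra h6
    have h7 : 0 ≤ Dt σ (ipL (foot v)) (t1 v) (t2 v) (t3 v) (vec' v) (fun i => vec' (W i)) c g *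
        (β * (β * (Matrix.of r).det)) := by
      refine mul_nonneg h1.le ?_
      rw [← mul_assoc]
      exact mul_nonneg (mul_self_nonneg β) h5.le
    exact absurd h2 (not_lt.2 (mul_nonpos_of_nonpos_of_nonneg (not_lt.1 h6) h7))
  · rintro E' _ _ _ u g x hu hg - ⟨W₀, c₀, hW, hc, h1⟩
    obtain ⟨W, w1, w2, w3⟩ := WR.exists_frame F hD hB hdiam hP hu hW
    obtain ⟨c, c1, c2, c3⟩ := hO.sec (f := fun s => foot (u s)) (map_foot hu) hc
    have hga : ∀ a, Sm (fun s => g s a) x := fun a => by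
      filter_upwards [hg] with s hs using contDiffAt_pi.1 hs a
    have hf : ∀ i, ∀ᶠ s in 𝓝 x, foot (W i s) = foot (u s) := fun i =>
      w3.mono fun s hs => (hs.isL i).foot_eq
    have h2 : ContinuousAt (fun s => Dt σ (ipL (foot (u s))) (t1 (u s)) (t2 (u s)) (t3 (u s))
        (vec' (u s)) (fun i => vec' (W i s)) (c s) (g s)) x :=
      Dt_cont (fun i a => (sm_ip_raw (w2 i) (at_lin f1 hu (hga a)) (hf i)).continuousAt)
        (fun i a => (sm_ip_raw (w2 i) (at_lin f3 hu (hga a)) (hf i)).continuousAt)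
        (fun j a => (S2N.sm_ip_tb (c2 j) (at_lin f2 hu (hga a))).continuousAt)
        (fun j => (S2N.sm_ip_tb (c2 j) (b := fun s => vec' (u s)) hu).continuousAt)
    have h3 : 0 < Dt σ (ipL (foot (u x))) (t1 (u x)) (t2 (u x)) (t3 (u x))
        (vec' (u x)) (fun i => vec' (W i x)) (c x) (g x) := by
      rw [c1, show (fun i => vec' (W i x)) = fun i => vec' (W₀ i) from
        funext fun i => by rw [w1]]
      exact h1
    filter_upwards [w3, c3, h2.eventually (lt_mem_nhds h3)] with s k1 k2 k3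
    exact ⟨fun i => W i s, c s, k1, k2, k3⟩

end Main

end

end Vale.Agent.P231Z.N2
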