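import Vale.Agent.P231.S2N.Tra

/-!
# P231 (A), SIG: the coefficient model of the antiperiodic fields (definitions)
-/

set_option maxSynthPendingDepth 3
set_option linter.unusedSectionVars false
set_option linter.unusedVariables false

open Bundle Manifold Set Filter Module MeasureTheory
open scoped ContDiff Manifold Topology ENNReal

namespace Vale.Agent.P231Z.N2

noncomputable section

open Vale.Agent.P234 Vale.Agent.P231 Vale.Agent.P231.Fm Vale.Agent.P231.W Vale.Agent.P231.WR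
open Vale.Agent.P231.H775 Vale.Agent.P231.WC Vale.Agent.P231.WF Vale.Agent.P231.S2N

/-! ### the rotation of the coefficients -/

/-- the angle -/
def an (D t : ℝ) : ℝ := Real.pi * t / (2 * D)

/-- the space of coefficients -/
abbrev V2 (κ : Type) [Fintype κ] : Type :=
  WithLp 2 (EuclideanSpace ℝ κ × EuclideanSpace ℝ κ)

section Rot

variable {κ : Type} [Fintype κ]

/-- the rotation by a quarter turn -/
def Jm (κ : Type) [Fintype κ] : V2 κ →L[ℝ] V2 κ :=
  ((WithLp.prodContinuousLinearEquiv 2 ℝ (EuclideanSpace ℝ κ) (EuclideanSpace ℝ κ)).symm :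
      EuclideanSpace ℝ κ × EuclideanSpace ℝ κ →L[ℝ] V2 κ) ∘L
    ((-ContinuousLinearMap.snd ℝ _ _).prod (ContinuousLinearMap.fst ℝ _ _)) ∘L
    (WithLp.prodContinuousLinearEquiv 2 ℝ (EuclideanSpace ℝ κ) (EuclideanSpace ℝ κ) :
      V2 κ →L[ℝ] EuclideanSpace ℝ κ × EuclideanSpace ℝ κ)

theorem Jm_fst (z : V2 κ) : (Jm κ z).fst = -z.snd := rfl

theorem Jm_snd (z : V2 κ) : (Jm κ z).snd = z.fst := rfl

/-- the rotation of the coefficients -/
def Rt (D t : ℝ) : V2 κ →L[ℝ] V2 κ :=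
  Real.cos (an D t) • ContinuousLinearMap.id ℝ (V2 κ) + Real.sin (an D t) • Jm κ

theorem Rt_apply (D t : ℝ) (z : V2 κ) :
    Rt D t z = Real.cos (an D t) • z + Real.sin (an D t) • Jm κ z := rfl

theorem Rt_fst (D t : ℝ) (z : V2 κ) :
    (Rt D t z).fst = Real.cos (an D t) • z.fst - Real.sin (an D t) • z.snd := by
  rw [Rt_apply, WithLp.add_fst, WithLp.smul_fst, WithLp.smul_fst, Jm_fst, smul_neg,
    sub_eq_add_neg]

theorem Rt_snd (D t : ℝ) (z : V2 κ) :
    (Rt D t z).snd = Real.sin (an D t) • z.fst + Real.cos (an D t) • z.snd := by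
  rw [Rt_apply, WithLp.add_snd, WithLp.smul_snd, WithLp.smul_snd, Jm_snd, add_comm]

theorem V2.ext {z w : V2 κ} (h1 : z.fst = w.fst) (h2 : z.snd = w.snd) : z = w :=
  (WithLp.equiv 2 _).injective (Prod.ext h1 h2)

theorem an_add (D s t : ℝ) : an D (s + t) = an D s + an D t := by
  unfold an
  ring

theorem an_zero (D : ℝ) : an D 0 = 0 := by
  unfold an
  ring

theorem an_neg (D t : ℝ) : an D (-t) = -an D t := by
  unfold an
  ring

theorem an_D {D : ℝ} (hD : 0 < D) : an D D = Real.pi / 2 := by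
  unfold an
  field_simp

theorem an_two {D : ℝ} (hD : 0 < D) : an D (2 * D) = Real.pi := by
  unfold an
  field_simp

theorem contDiff_an (D : ℝ) : ContDiff ℝ ∞ (an D) :=
  (contDiff_const.mul contDiff_id).div_const _

theorem Rt_zero (D : ℝ) (z : V2 κ) : Rt D 0 z = z := by
  rw [Rt_apply, an_zero, Real.cos_zero, Real.sin_zero, one_smul, zero_smul, add_zero]

theorem Rt_add (D s t : ℝ) (z : V2 κ) : Rt D t (Rt D s z) = Rt D (s + t) z := by
  refine V2.ext ?_ ?_
  · simp only [Rt_fst, Rt_snd, an_add, Real.cos_add, Real.sin_add]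
    module
  · simp only [Rt_fst, Rt_snd, an_add, Real.cos_add, Real.sin_add]
    module

theorem Rt_two {D : ℝ} (hD : 0 < D) (z : V2 κ) : Rt D (2 * D) z = -z := by
  rw [Rt_apply, an_two hD, Real.cos_pi, Real.sin_pi, zero_smul, add_zero, neg_smul, one_smul]

theorem Rt_anti {D : ℝ} (hD : 0 < D) (t : ℝ) (z : V2 κ) : Rt D (t + 2 * D) z = -Rt D t z := by
  rw [← Rt_add, Rt_two hD]

theorem inner_Rt (D t : ℝ) (z w : V2 κ) : inner ℝ (Rt D t z) (Rt D t w) = (inner ℝ z w : ℝ) := by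
  have h := Real.cos_sq_add_sin_sq (an D t)
  have e1 : inner ℝ (Rt D t z) (Rt D t w) = (inner ℝ (Rt D t z).fst (Rt D t w).fst : ℝ) +
      inner ℝ (Rt D t z).snd (Rt D t w).snd := rfl
  have e2 : inner ℝ z w = (inner ℝ z.fst w.fst : ℝ) + inner ℝ z.snd w.snd := rfl
  rw [e1, e2]
  simp only [Rt_fst, Rt_snd, inner_sub_left, inner_sub_right, inner_add_left, inner_add_right,
    real_inner_smul_left, real_inner_smul_right]
  linear_combination (inner ℝ z.fst w.fst + inner ℝ z.snd w.snd : ℝ) * h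

theorem norm_Rt (D t : ℝ) (z : V2 κ) : ‖Rt D t z‖ = ‖z‖ := by
  have h := inner_Rt D t z z
  rw [real_inner_self_eq_norm_sq, real_inner_self_eq_norm_sq] at h
  exact (sq_eq_sq₀ (norm_nonneg _) (norm_nonneg _)).1 h

theorem contDiff_Rt (D : ℝ) : ContDiff ℝ ∞ (fun t => (Rt D t : V2 κ →L[ℝ] V2 κ)) :=
  ((Real.contDiff_cos.comp (contDiff_an D)).smul contDiff_const).add
    ((Real.contDiff_sin.comp (contDiff_an D)).smul contDiff_const)

end Rot

variable {E : Type*} [NormedAddCommGroup E] [NormedSpace ℝ E]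
  {M : Type*} [MetricSpace M] [ChartedSpace E M]
  [RiemannianBundle (fun x : M => TangentSpace 𝓘(ℝ, E) x)]
  {e : ∀ x : M, TangentSpace 𝓘(ℝ, E) x → M}
  [FiniteDimensional ℝ E] [IsManifold 𝓘(ℝ, E) ∞ M]
  [IsContMDiffRiemannianBundle 𝓘(ℝ, E) ∞ E (fun x : M => TangentSpace 𝓘(ℝ, E) x)]
  [CompactSpace M] [ConnectedSpace M] [IsRiemannianManifold 𝓘(ℝ, E) M]

variable {D : ℝ} {κ : Type} [Fintype κ] [DecidableEq κ]

/-- the field at time zero with coefficients `z` -/
def Y2 (C S : κ → UT E M → E) (z : V2 κ) (v : UT E M) : E := XX C z.fst v + XX S z.snd v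

/-- the antiperiodic field along the geodesic of `v` with coefficients `z` -/
def ln (F : Facts e) (D : ℝ) (C S : κ → UT E M → E) (v : UT E M) (z : V2 κ) (t : ℝ) : E :=
  Y2 C S (Rt D t z) (phi F (v, t))

/-- its source -/
def sr (F : Facts e) (D : ℝ) (W : κ → UT E M → E) (v : UT E M) (z : V2 κ) (t : ℝ) : E :=
  XX W (Rt D t z).fst (phi F (v, t))

/-- the pairing of a source with a field -/
def n2 (F : Facts e) (D : ℝ) (W C S : κ → UT E M → E) (v : UT E M) (z w : V2 κ) : ℝ :=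
  ∫ t in (0 : ℝ)..(2 * D), ip (gm e (v, t)) (sr F D W v z t) (ln F D C S v w t)

/-- the cosine part of the Green field of `W` -/
def Cw (F : Facts e) (D : ℝ) (W : UT E M → E) (v : UT E M) : E :=
  (1 / 2 : ℝ) • ∫ r in (0 : ℝ)..(2 * D), Real.cos (an D r) • JW e W (phi F (v, -r)) r

/-- the sine part of the Green field of `W` -/
def Sw (F : Facts e) (D : ℝ) (W : UT E M → E) (v : UT E M) : E :=
  (1 / 2 : ℝ) • ∫ r in (0 : ℝ)..(2 * D), Real.sin (an D r) • JW e W (phi F (v, -r)) r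

/-- smooth fields orthogonal to the direction -/
structure PF (W : UT E M → E) : Prop where
  fld : Fld W
  perp : ∀ v, ip (foot v) (vec' v) (W v) = 0

/-- a family of antiperiodic fields with their sources -/
structure AF (F : Facts e) (D : ℝ) (W C S : κ → UT E M → E) : Prop where
  pW : ∀ i, PF (W i)
  pC : ∀ i, PF (C i)
  pS : ∀ i, PF (S i)
  je : ∀ v z, JE e (foot v) v (ln F D C S v z) (XX W z.fst v)
  dir : ∀ v z, ln F D C S v z 0 = 0 → prL e D (phi F (v, D)) (ln F D C S v z D) = 0 →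
    n2 F D W C S v z z ≤ 0

/-- the negative bundle of the antiperiodic fields -/
structure Neg (F : Facts e) (D : ℝ) (r : ℕ) (W C S : κ → UT E M → E)
    (P : UT E M → V2 κ →L[ℝ] V2 κ) (ε : ℝ) : Prop where
  af : AF F D W C S
  pos : 0 < ε
  map : (dUT E M).Map (Dif.lin (V2 κ →L[ℝ] V2 κ)) P
  idem : ∀ v z, P v (P v z) = P v z
  symm : ∀ v z w, inner ℝ (P v z) w = (inner ℝ z (P v w) : ℝ)
  rank : ∀ v, finrank ℝ (LinearMap.range (P v : V2 κ →ₗ[ℝ] V2 κ)) = r
  flow : ∀ v s z, P (phi F (v, s)) (Rt D s z) = Rt D s (P v z)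
  neg : ∀ v z, P v z = z → ε * ‖z‖ ^ 2 ≤ n2 F D W C S v z z

end

end Vale.Agent.P231Z.N2
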