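import Vale.Agent.P231.S2N.IndexLe
import Vale.Agent.P231.H703.Const

/-!
# P231 (A), level two: the Green field of an antiperiodic source along a closed geodesic
-/

set_option maxSynthPendingDepth 3
set_option linter.unusedSectionVars false
set_option linter.unusedVariables false

open Bundle Manifold Set Filter Module MeasureTheory
open scoped ContDiff Manifold Topology ENNReal

namespace Vale.Agent.P231Z.N2

noncomputable section

open Vale.Agent.P234 Vale.Agent.P231 Vale.Agent.P231.Fm Vale.Agent.P231.W Vale.Agent.P231.WR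
open Vale.Agent.P231.H775 Vale.Agent.P231.WC Vale.Agent.P231.WF Vale.Agent.P231.S2N

variable {E : Type*} [NormedAddCommGroup E] [NormedSpace ℝ E]
  {M : Type*} [MetricSpace M] [ChartedSpace E M]
  [RiemannianBundle (fun x : M => TangentSpace 𝓘(ℝ, E) x)]
  {e : ∀ x : M, TangentSpace 𝓘(ℝ, E) x → M}
  [FiniteDimensional ℝ E] [IsManifold 𝓘(ℝ, E) ∞ M]
  [IsContMDiffRiemannianBundle 𝓘(ℝ, E) ∞ E (fun x : M => TangentSpace 𝓘(ℝ, E) x)]
  [CompactSpace M] [ConnectedSpace M] [IsRiemannianManifold 𝓘(ℝ, E) M]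

variable {D : ℝ}

/-! ### the Wronskian -/

theorem finrank_pos (v : UT E M) : ∃ N, finrank ℝ E = N + 1 := by
  have h1 : (vec' v : E) ≠ 0 := by
    intro h
    have h2 := ip_vec' v
    rw [h] at h2
    have h3 : ip (foot v) (0 : E) 0 = 0 :=
      inner_zero_left (E := TangentSpace 𝓘(ℝ, E) (foot v)) (𝕜 := ℝ) _
    rw [h3] at h2
    exact zero_ne_one h2
  have : Nontrivial E := ⟨_, _, h1⟩
  exact Nat.exists_eq_succ_of_ne_zero (Module.finrank_pos (R := ℝ) (M := E)).ne'

/-- the kernel of the Jacobi fields is antisymmetric -/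
theorem Jc_anti (F : Facts e) (hD : 0 < D) (hB : InjGE e D) (hdiam : ∀ p q : M, dist p q ≤ D)
    (v : UT E M) (s t : ℝ) {a c : E} (ha : ip (gm e (v, t)) (vec' (phi F (v, t))) a = 0)
    (hc : ip (gm e (v, s)) (vec' (phi F (v, s))) c = 0) :
    ip (gm e (v, t)) a (Jc e (phi F (v, s)) c (t - s)) =
      -ip (gm e (v, s)) c (Jc e (phi F (v, t)) a (s - t)) := by
  obtain ⟨N, hN⟩ := finrank_pos v
  have hcl : ∀ (x : M) (v : E), nm x v = 2 * D → e x v = x :=
    fun x v hv => closed_of_inj_diam F hD hB hdiam x v hv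
  obtain ⟨b, A, hA, hon, hperp, hcol⟩ := exists_jdata F hD hB hcl hN (foot v) (vec' v) (nm_vec' v)
  have hv : ∀ t, nm (gam e (foot v) (vec' v) t) (vel e (foot v) (vec' v) t) = 1 := fun t =>
    nm_vec' (phi F (v, t))
  have ha' := H703.frame_complete hN (hv t) (hon t) (hperp t) (w := a) ((ip_comm' _ _ _).trans ha)
  have hc' := H703.frame_complete hN (hv s) (hon s) (hperp s) (w := c) ((ip_comm' _ _ _).trans hc)
  set x := foot v
  set u := vec' v
  have key : ∀ (s t : ℝ) (p q : Fin N → ℝ), ip (gam e x u t) (∑ i, p i • b t i)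
      (jf e x u s t (∑ j, q j • b s j)) = ∑ i, ∑ j, p i * q j * A s t i j := by
    intro s t p q
    rw [ip_sum_left]
    refine Finset.sum_congr rfl fun i _ => ?_
    rw [asm_jf_sum, ip_smul_left', ip_sum_right, Finset.mul_sum]
    refine Finset.sum_congr rfl fun j _ => ?_
    rw [asm_jf_smul, ip_smul_right', hcol, ip_sum_right]
    simp only [ip_smul_right', hon, mul_ite, mul_one, mul_zero, Finset.sum_ite_eq,
      Finset.mem_univ, if_true]
    ring
  rw [Jc_phi F, Jc_phi F]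
  change ip (gam e x u t) a (jf e x u s t c) = -ip (gam e x u s) c (jf e x u t s a)
  rw [ha', hc', key, key, Finset.sum_comm, ← Finset.sum_neg_distrib]
  refine Finset.sum_congr rfl fun i _ => ?_
  rw [← Finset.sum_neg_distrib]
  refine Finset.sum_congr rfl fun j _ => ?_
  rw [hA.anti s t, Matrix.neg_apply, Matrix.transpose_apply]
  ring

theorem Jc_neg (u : UT E M) (c : E) (r : ℝ) : Jc e u (-c) r = -Jc e u c r := by
  rw [← neg_one_smul ℝ c, Jc_smul, neg_one_smul]

/-! ### smoothness -/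

section Plots

variable {E' : Type} [NormedAddCommGroup E'] [NormedSpace ℝ E'] [FiniteDimensional ℝ E']

theorem at_Jc (F : Facts e) {U : E' → UT E M} {a : E' → E} {ρ : E' → ℝ} {x : E'}
    (hU : (dUT E M).At U x) (ha : (dTM E M).At (fun s => tb (foot (U s)) (a s)) x)
    (hρ : Sm ρ x) :
    (dTM E M).At (fun s => tb (gm e (U s, ρ s)) (Jc e (U s) (a s) (ρ s))) x := by
  have h1 : ∀ᶠ s in 𝓝 x, SmV (fun s => foot (U s)) (fun s => tv (U s)) s := hU
  let w' : ∀ s, TangentSpace 𝓘(ℝ, E) (foot (U s)) := fun s => a s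
  have h2 : ∀ᶠ s in 𝓝 x, SmV (fun s => foot (U s)) w' s := ha
  let u' : ∀ s, TangentSpace 𝓘(ℝ, E) (foot (U s)) := fun s => ρ s • tv (U s)
  have h4 : ∀ᶠ s in 𝓝 x, SmV (fun s => foot (U s)) u' s := by
    filter_upwards [h1, hρ] with s h3 h5
    exact h3.smul h5
  have key : (dTM E M).At (fun s => tb (gm e (U s, ρ s))
      (dE e (foot (U s)) (ρ s • vec' (U s)) (a s))) x := by
    have k : ∀ᶠ s in 𝓝 x, ContMDiffAt 𝓘(ℝ, E') 𝓘(ℝ, E).tangent ∞
        (fun s => tb (gm e (U s, ρ s)) (dE e (foot (U s)) (ρ s • vec' (U s)) (a s))) s := by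
      filter_upwards [eventually_eventually_nhds.2 h4, eventually_eventually_nhds.2 h2]
        with s h5 h6
      exact H583.smV_dE F.isExp h5 h6
    exact k
  have h5 := at_smul (f := fun s => gm e (U s, ρ s)) hρ key
  have h6 : (fun s => tb (gm e (U s, ρ s)) (Jc e (U s) (a s) (ρ s))) =
      fun s => tb (gm e (U s, ρ s)) (ρ s • dE e (foot (U s)) (ρ s • vec' (U s)) (a s)) := by
    funext s
    exact tb_congr rfl (Jc_eq F _ _ _)
  rw [h6]
  exact h5

/-- a field along the geodesic, read along a smooth time function -/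
theorem at_fa {v : UT E M} {δ : ℝ → E} (h : ∀ t, FA e v δ t) {τ : E' → ℝ} {x : E'}
    (hτ : Sm τ x) : (dTM E M).At (fun s => tb (gm e (v, τ s)) (δ (τ s))) x :=
  (dTM E M).comp (u := fun t => tb (gm e (v, t)) (δ t)) (g := τ) (x := x) (h (τ x)) hτ

/-- the kernel -/
theorem at_ker (F : Facts e) {v : UT E M} {δ : ℝ → E} (h : ∀ t, FA e v δ t) {σ τ : E' → ℝ}
    {x : E'} (hσ : Sm σ x) (hτ : Sm τ x) :
    (dTM E M).At (fun y => tb (gm e (v, τ y))
      (Jc e (phi F (v, σ y)) (δ (σ y)) (τ y - σ y))) x := by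
  have h1 : (dUT E M).At (fun y => phi F (v, σ y)) x :=
    map_phi F (u := fun y => (v, σ y)) ⟨H583.at_const v _, hσ⟩
  have h2 : Sm (fun y => τ y - σ y) x := by
    filter_upwards [hσ, hτ] with y k1 k2 using k2.sub k1
  have h3 := at_Jc F h1 (a := fun y => δ (σ y)) (at_fa h hσ) h2
  have h4 : (fun y => tb (gm e (v, τ y)) (Jc e (phi F (v, σ y)) (δ (σ y)) (τ y - σ y))) =
      fun y => tb (gm e (phi F (v, σ y), τ y - σ y))
        (Jc e (phi F (v, σ y)) (δ (σ y)) (τ y - σ y)) := by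
    funext y
    exact tb_congr (gm_phi_sub F v _ _).symm rfl
  rw [h4]
  exact h3

end Plots

/-! ### the Green field -/

/-- antiperiodic sources along the geodesic of `v` -/
structure AS (F : Facts e) (D : ℝ) (v : UT E M) (δ : ℝ → E) : Prop where
  fa : ∀ t, FA e v δ t
  perp : ∀ t, ip (gm e (v, t)) (vec' (phi F (v, t))) (δ t) = 0
  anti : ∀ t, δ (t + 2 * D) = -δ t

/-- the Green field of a source -/
def Gr (F : Facts e) (D : ℝ) (v : UT E M) (δ : ℝ → E) (t : ℝ) : E :=
  (1 / 2 : ℝ) • ∫ r in (0 : ℝ)..(2 * D), Jc e (phi F (v, t - r)) (δ (t - r)) r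

variable {v : UT E M} {δ η : ℝ → E}

theorem at_grk (F : Facts e) (h : ∀ t, FA e v δ t) (z : ℝ × ℝ) :
    (dTM E M).At (fun p : ℝ × ℝ => tb (gm e (v, p.1))
      (Jc e (phi F (v, p.1 - p.2)) (δ (p.1 - p.2)) p.2)) z := by
  have h1 := at_ker F h (σ := fun p : ℝ × ℝ => p.1 - p.2) (τ := fun p : ℝ × ℝ => p.1) (x := z)
    (Sm.of_contDiff (contDiff_fst.sub contDiff_snd) _) (Sm.of_contDiff contDiff_fst _)
  simpa only [sub_sub_cancel] using h1

theorem cont_grk (F : Facts e) (h : ∀ t, FA e v δ t) (t : ℝ) :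
    Continuous fun r => Jc e (phi F (v, t - r)) (δ (t - r)) r := by
  refine continuous_raw (x₀ := gm e (v, t)) fun r => ?_
  have h1 := (dTM E M).comp (g := fun r : ℝ => ((t, r) : ℝ × ℝ)) (x := r) (at_grk F h (t, r))
    (Sm.of_contDiff (contDiff_const.prodMk contDiff_id) _)
  exact Filter.Eventually.self_of_nhds h1

theorem fa_Gr (F : Facts e) (D : ℝ) (h : ∀ t, FA e v δ t) (t : ℝ) : FA e v (Gr F D v δ) t := by
  refine Eventually.of_forall fun t => ?_
  have hf : ∀ᶠ s in 𝓝 t, ContMDiffAt 𝓘(ℝ, ℝ) 𝓘(ℝ, E) ∞ (fun s => gm e (v, s)) s :=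
    map_gm F (u := fun t : ℝ => (v, t)) ⟨H583.at_const v _, Sm.of_contDiff contDiff_id _⟩
  have h1 := H583.smV_integral (f := fun s => gm e (v, s))
    (u := fun s r => Jc e (phi F (v, s - r)) (δ (s - r)) r) (2 * D) hf
    (Eventually.of_forall fun s r => Filter.Eventually.self_of_nhds (at_grk F h (s, r)))
  have h2 : SmV (fun s => gm e (v, s))
      (fun s => ((∫ r in (0 : ℝ)..(2 * D), Jc e (phi F (v, s - r)) (δ (s - r)) r : E) :
        TangentSpace 𝓘(ℝ, E) (gm e (v, s)))) t := h1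
  exact SmV.smul (contDiffAt_const (c := (1 / 2 : ℝ))) h2

/-- the inner product with the Green field as an integral -/
theorem ip_Gr (F : Facts e) (D : ℝ) (h : ∀ t, FA e v δ t) (x : M) (c : E) (t : ℝ) :
    ip x c (Gr F D v δ t) =
      1 / 2 * ∫ r in (0 : ℝ)..(2 * D), ip x c (Jc e (phi F (v, t - r)) (δ (t - r)) r) := by
  unfold Gr
  rw [ip_smul_right']
  congr 1
  exact (ContinuousLinearMap.intervalIntegral_comp_comm (H583.ipL x c)
    ((cont_grk F h t).intervalIntegrable 0 (2 * D))).symm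

theorem Gr_add (F : Facts e) (D : ℝ) (h : ∀ t, FA e v δ t) (h' : ∀ t, FA e v η t) (t : ℝ) :
    Gr F D v (fun s => δ s + η s) t = Gr F D v δ t + Gr F D v η t := by
  unfold Gr
  simp only [Jc_add]
  rw [intervalIntegral.integral_add ((cont_grk F h t).intervalIntegrable _ _)
    ((cont_grk F h' t).intervalIntegrable _ _), smul_add]

theorem Gr_smul (F : Facts e) (D : ℝ) (c : ℝ) (δ : ℝ → E) (t : ℝ) :
    Gr F D v (fun s => c • δ s) t = c • Gr F D v δ t := by
  unfold Gr
  simp only [Jc_smul]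
  rw [intervalIntegral.integral_smul, smul_comm]

/-- change of the origin of time -/
theorem Gr_shift (F : Facts e) (D : ℝ) (δ : ℝ → E) (s t : ℝ) :
    Gr F D (phi F (v, s)) (fun r => δ (s + r)) t = Gr F D v δ (s + t) := by
  unfold Gr
  simp only [phi_add, add_sub_assoc]

theorem phi_add_per (F : Facts e) (hD : 0 < D) (hB : InjGE e D) (hdiam : ∀ p q : M, dist p q ≤ D)
    (v : UT E M) (t : ℝ) : phi F (v, t + 2 * D) = phi F (v, t) := by
  have k := W.phi_per F hD hB hdiam (phi F (v, t))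
  rwa [phi_add] at k

theorem gm_add_per (F : Facts e) (hD : 0 < D) (hB : InjGE e D) (hdiam : ∀ p q : M, dist p q ≤ D)
    (v : UT E M) (t : ℝ) : gm e (v, t + 2 * D) = gm e (v, t) :=
  congrArg foot (phi_add_per F hD hB hdiam v t)

variable {F : Facts e}

theorem AS.add (h : AS F D v δ) (h' : AS F D v η) : AS F D v (fun t => δ t + η t) where
  fa t := (h.fa t).add (h'.fa t)
  perp t := by rw [ip_add_right', h.perp, h'.perp, add_zero]
  anti t := by rw [h.anti, h'.anti, neg_add]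

theorem AS.smul (c : ℝ) (h : AS F D v δ) : AS F D v (fun t => c • δ t) where
  fa t := (h.fa t).smul c
  perp t := by rw [ip_smul_right', h.perp, mul_zero]
  anti t := by rw [h.anti, smul_neg]

theorem AS.shift (h : AS F D v δ) (s : ℝ) : AS F D (phi F (v, s)) (fun t => δ (s + t)) where
  fa t := fa_shift F h.fa s t
  perp t := by rw [gm_phi F, phi_add]; exact h.perp _
  anti t := by rw [← add_assoc, h.anti]

theorem AS.Gr_perp (h : AS F D v δ) (t : ℝ) :
    ip (gm e (v, t)) (vec' (phi F (v, t))) (Gr F D v δ t) = 0 := by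
  rw [ip_Gr F D h.fa]
  have h1 : ∀ r, ip (gm e (v, t)) (vec' (phi F (v, t)))
      (Jc e (phi F (v, t - r)) (δ (t - r)) r) = 0 := by
    intro r
    have h2 := gauss_Jc F (phi F (v, t - r)) (δ (t - r)) r
    rw [gm_phi F, phi_add, sub_add_cancel] at h2
    rw [h2]
    exact mul_eq_zero_of_right _ (h.perp (t - r))
  simp only [h1, intervalIntegral.integral_zero, mul_zero]

theorem AS.Gr_anti (hD : 0 < D) (hB : InjGE e D) (hdiam : ∀ p q : M, dist p q ≤ D)
    (h : AS F D v δ) (t : ℝ) : Gr F D v δ (t + 2 * D) = -Gr F D v δ t := by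
  unfold Gr
  have h1 : ∀ r, Jc e (phi F (v, t + 2 * D - r)) (δ (t + 2 * D - r)) r =
      -Jc e (phi F (v, t - r)) (δ (t - r)) r := by
    intro r
    rw [show t + 2 * D - r = t - r + 2 * D by ring, phi_add_per F hD hB hdiam, h.anti, Jc_neg]
  simp only [h1]
  rw [intervalIntegral.integral_neg, smul_neg]

theorem AS.gr (hD : 0 < D) (hB : InjGE e D) (hdiam : ∀ p q : M, dist p q ≤ D)
    (h : AS F D v δ) : AS F D v (Gr F D v δ) :=
  ⟨fa_Gr F D h.fa, h.Gr_perp, h.Gr_anti hD hB hdiam⟩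

/-- the kernel in the chart -/
def jD (F : Facts e) (δ : ℝ → E) (x₀ : M) (v : UT E M) (z : ℝ × ℝ) : E :=
  crd x₀ (gm e (v, z.2)) (Jc e (phi F (v, z.1)) (δ z.1) (z.2 - z.1) : E)

theorem sm_jD (h : ∀ t, FA e v δ t) (x₀ : M) (s : ℝ) {t : ℝ}
    (ht : gm e (v, t) ∈ (extChartAt 𝓘(ℝ, E) x₀).source) : Sm (jD F δ x₀ v) (s, t) := by
  have h4 := at_ker F h (σ := fun z : ℝ × ℝ => z.1) (τ := fun z : ℝ × ℝ => z.2) (x := (s, t))
    (Sm.of_contDiff contDiff_fst _) (Sm.of_contDiff contDiff_snd _)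
  have h5 : ∀ᶠ z in 𝓝 ((s, t) : ℝ × ℝ), gm e (v, z.2) ∈ (extChartAt 𝓘(ℝ, E) x₀).source :=
    (continuous_snd.tendsto (s, t)).eventually (src_gm F x₀ ht)
  filter_upwards [h4, h5] with z h7 h8
  have h9 : SmV (fun z : ℝ × ℝ => gm e (v, z.2))
      (fun z => (Jc e (phi F (v, z.1)) (δ z.1) (z.2 - z.1) : E)) z := h7
  exact ((smV_iff (f := fun z : ℝ × ℝ => gm e (v, z.2)) (s := z) x₀ h8).1 h9).2

/-- the linearised geodesic operator of the Green field is the source -/
theorem AS.je_zero (hD : 0 < D) (hB : InjGE e D) (hdiam : ∀ p q : M, dist p q ≤ D)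
    (h : AS F D v δ) (x₀ : M) (hx : foot v ∈ (extChartAt 𝓘(ℝ, E) x₀).source) :
    JE e x₀ v (Gr F D v δ) (δ 0) := by
  set Y : ℝ → E := fun t => ∫ r in (0 : ℝ)..(2 * D), Jc e (phi F (v, t - r)) (δ (t - r)) r with hY
  have hYG : ∀ t, Y t = (2 : ℝ) • Gr F D v δ t := by
    intro t
    unfold Gr
    rw [smul_smul, show (2 : ℝ) * (1 / 2) = 1 by norm_num, one_smul]
  have key : JE e x₀ v Y ((2 : ℝ) • δ 0) := by
    intro b
    have hx0 : gm e (v, 0) ∈ (extChartAt 𝓘(ℝ, E) x₀).source := src_zero F hx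
    have htar : WC.kap e x₀ v 0 ∈ (extChartAt 𝓘(ℝ, E) x₀).target :=
      (extChartAt 𝓘(ℝ, E) x₀).map_source hx0
    have hzero : ∀ p : M, (crd x₀ p (0 : E) : E) = 0 := fun p => map_zero (crd x₀ p)
    have hjet : ∀ s, jD F δ x₀ v (s, 0) = yf e x₀ v (fun t => Jc e (phi F (v, s))
        (δ s) (t - s)) 0 ∧ d2 (jD F δ x₀ v) (s, 0) =
        deriv (yf e x₀ v (fun t => Jc e (phi F (v, s)) (δ s) (t - s))) 0 ∧
        d2 (d2 (jD F δ x₀ v)) (s, 0) = deriv (deriv (yf e x₀ v (fun t => Jc e (phi F (v, s))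
          (δ s) (t - s)))) 0 := fun s =>
      jet2 (c := jD F δ x₀ v) (κ := yf e x₀ v (fun t => Jc e (phi F (v, s))
        (δ s) (t - s))) (θ := s) (t := 0) (sm_jD h.fa x₀ s hx0)
        (Eventually.of_forall fun t => rfl)
    have h1 := superpose (A := cm x₀) (b := b) (D := 2 * D) (sm_cm x₀ htar) (isOpen_src F x₀ v) hx0
      (p := deriv (WC.kap e x₀ v) 0) (q := deriv (deriv (WC.kap e x₀ v)) 0)
      (j := jD F δ x₀ v) (fun s t ht => sm_jD h.fa x₀ s ht)
      (fun t ht => by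
        have k : Jc e (phi F (v, t)) (δ t) (t - t) = 0 := by rw [sub_self, Jc_zero F]
        unfold jD
        exact (crd_congr x₀ rfl k).trans (hzero _))
      (fun t ht => by
        have k : Jc e (phi F (v, t - 2 * D)) (δ (t - 2 * D)) (t - (t - 2 * D)) = 0 := by
          rw [sub_sub_cancel, ← zero_add (2 * D), Jc_per F hD hB hdiam, Jc_zero F]
          rw [zero_add]
          exact h.perp _
        unfold jD
        exact (crd_congr x₀ rfl k).trans (hzero _))
      (fun s => by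
        obtain ⟨e1, e2, e3⟩ := hjet s
        rw [e1, e2, e3]
        have k := je_Jc F hD hB x₀ v hx s (c := δ s) (h.perp _) b
        refine k.trans ?_
        have k2 : (crd x₀ (foot v) (0 : E) : E) = 0 := map_zero (crd x₀ (foot v))
        rw [k2, map_zero]
        rfl)
      (y := yf e x₀ v Y) (fun t ht => by
        let Lc : E →L[ℝ] E := crd x₀ (gm e (v, t))
        have k1 := Lc.intervalIntegral_comp_comm
          ((cont_grk F h.fa t).intervalIntegrable (μ := volume) 0 (2 * D))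
        have k2 : yf e x₀ v Y t = Lc (Y t) := rfl
        rw [k2, hY]
        refine k1.symm.trans (intervalIntegral.integral_congr fun r _ => ?_)
        unfold jD
        refine crd_congr x₀ rfl ?_
        rw [sub_sub_cancel])
    rw [h1]
    have e0 : d2 (jD F δ x₀ v) (0, 0) = (crd x₀ (foot v) (δ 0 : E) : E) := by
      rw [(hjet 0).2.1, phi_zero]
      have k := deriv_Jc_zero F x₀ v hx (δ 0)
      rw [← k]
      congr 2
      funext t
      rw [sub_zero]
    have e1 : d2 (jD F δ x₀ v) (-(2 * D), 0) = (crd x₀ (foot v) (-δ 0 : E) : E) := by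
      rw [(hjet (-(2 * D))).2.1]
      have k := deriv_Jc_zero F x₀ v hx (-δ 0)
      rw [← k]
      have k1 : phi F (v, -(2 * D)) = v := by
        rw [← phi_add_per F hD hB hdiam, neg_add_cancel, phi_zero]
      have k2 : δ (-(2 * D)) = -δ 0 := by
        have k3 := h.anti (-(2 * D))
        rw [neg_add_cancel] at k3
        rw [k3, neg_neg]
      have k4 : ip (foot v) (vec' v) (-δ 0) = 0 := by
        have k5 := h.perp 0
        rw [gm_zero F, phi_zero] at k5
        rw [ip_neg_right', k5, neg_zero]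
      congr 2
      funext t
      rw [k1, k2, sub_neg_eq_add, Jc_per F hD hB hdiam k4]
    rw [e0, e1]
    have e2 : (crd x₀ (foot v) ((2 : ℝ) • δ 0 : E) : E) = (crd x₀ (foot v) (δ 0 : E) : E) -
        (crd x₀ (foot v) (-δ 0 : E) : E) := by
      have k := map_sub (crd x₀ (foot v)) (δ 0 : E) (-δ 0 : E)
      refine Eq.trans (crd_congr x₀ rfl ?_) k
      change (2 : ℝ) • δ 0 = δ 0 - -δ 0
      rw [sub_neg_eq_add, two_smul]
    rw [e2]
  have hfa : FA e v Y 0 := by
    have k := (fa_Gr F D h.fa 0).smul (2 : ℝ)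
    rw [show Y = fun t => (2 : ℝ) • Gr F D v δ t from funext hYG]
    exact k
  have k := JE.smul F hx (1 / 2 : ℝ) hfa key
  refine JE.congr (fun t => rfl) ?_ k
  rw [smul_smul]
  norm_num

theorem AS.je (hD : 0 < D) (hB : InjGE e D) (hdiam : ∀ p q : M, dist p q ≤ D)
    (h : AS F D v δ) (t : ℝ) :
    JE e (foot (phi F (v, t))) (phi F (v, t)) (fun s => Gr F D v δ (t + s)) (δ t) :=
  JE.congr (fun s => Gr_shift F D δ t s) (by rw [add_zero])
    ((h.shift t).je_zero hD hB hdiam _ (mem_extChartAt_source _))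

end

end Vale.Agent.P231Z.N2
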