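import Vale.Agent.P231Z.N2.Var2
import Vale.Agent.P231Z.N2.Defs

/-!
# P231 (A), level two: the Green fields of a finite family
-/

set_option maxSynthPendingDepth 3
set_option linter.unusedSectionVars false
set_option linter.unusedVariables false

open Bundle Manifold Set Filter Module MeasureTheory
open scoped ContDiff Manifold Topology ENNReal

namespace Vale.Agent.P231Z.N2

noncomputable section

open Vale.Agent.P234 Vale.Agent.P231 Vale.Agent.P231.Fm Vale.Agent.P231.W Vale.Agent.P231.WR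
open Vale.Agent.P231.H775 Vale.Agent.P231.WC Vale.Agent.P231.WF Vale.Agent.P231.S2N

variable {E : Type*} [NormedAddCommGroup E] [NormedSpace ℝ E]
  {M : Type*} [MetricSpace M] [ChartedSpace E M]
  [RiemannianBundle (fun x : M => TangentSpace 𝓘(ℝ, E) x)]
  {e : ∀ x : M, TangentSpace 𝓘(ℝ, E) x → M}
  [FiniteDimensional ℝ E] [IsManifold 𝓘(ℝ, E) ∞ M]
  [IsContMDiffRiemannianBundle 𝓘(ℝ, E) ∞ E (fun x : M => TangentSpace 𝓘(ℝ, E) x)]
  [CompactSpace M] [ConnectedSpace M] [IsRiemannianManifold 𝓘(ℝ, E) M]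

variable {D : ℝ}

/-! ### weighted superpositions of Jacobi fields -/

/-- the superposition with the weight `f` -/
def Kw (F : Facts e) (D : ℝ) (f : ℝ → ℝ) (W : UT E M → E) (v : UT E M) : E :=
  (1 / 2 : ℝ) • ∫ r in (0 : ℝ)..(2 * D), f r • JW e W (phi F (v, -r)) r

theorem cont_Kw (F : Facts e) {f : ℝ → ℝ} (hf : ContDiff ℝ ∞ f) {W : UT E M → E} (h : Fld W)
    (v : UT E M) : Continuous fun r => f r • JW e W (phi F (v, -r)) r :=
  hf.continuous.smul (continuous_integrand F h v)

theorem fld_Kw (F : Facts e) (D : ℝ) {f : ℝ → ℝ} (hf : ContDiff ℝ ∞ f) {W : UT E M → E}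
    (h : Fld W) : Fld (Kw F D f W) := by
  have h0 : Fld (fun v : UT E M => ∫ r in (0 : ℝ)..(2 * D), f r • JW e W (phi F (v, -r)) r) := by
    refine ⟨fun {E'} _ _ _ {U x} hU => ?_⟩
    have hb : ∀ᶠ s in 𝓝 x, ContMDiffAt 𝓘(ℝ, E') 𝓘(ℝ, E) ∞ (fun s => foot (U s)) s := map_foot hU
    have h1 := (dUT E M).open' hU
    have key : ∀ᶠ s in 𝓝 x, ContMDiffAt 𝓘(ℝ, E') 𝓘(ℝ, E).tangent ∞
        (fun s => tb (foot (U s))
          (∫ r in (0 : ℝ)..(2 * D), f r • JW e W (phi F (U s, -r)) r)) s := by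
      filter_upwards [eventually_eventually_nhds.2 hb, eventually_eventually_nhds.2 h1]
        with s h2 h3
      refine H583.smV_integral (u := fun s r => f r • JW e W (phi F (U s, -r)) r) (2 * D) h2 ?_
      filter_upwards [h3] with s' h4 r
      have h5 : SmV (fun p : E' × ℝ => foot (U p.1))
          (fun p => (JW e W (phi F (U p.1, -p.2)) p.2 : E)) (s', r) := at_integrand F h h4 r
      exact SmV.smul (c := fun p : E' × ℝ => f p.2) (hf.comp contDiff_snd).contDiffAt h5
    exact key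
  exact h0.const_smul (1 / 2 : ℝ)

theorem Kw_perp (F : Facts e) (D : ℝ) {f : ℝ → ℝ} (hf : ContDiff ℝ ∞ f) {W : UT E M → E}
    (h : PF W) (v : UT E M) : ip (foot v) (vec' v) (Kw F D f W v) = 0 := by
  unfold Kw
  rw [ip_smul_right']
  have h0 := (ContinuousLinearMap.intervalIntegral_comp_comm (H583.ipL (foot v) (vec' v))
    ((cont_Kw F hf h.fld v).intervalIntegrable (μ := volume) 0 (2 * D))).symm
  have h1 : ∀ r : ℝ, ip (foot v) (vec' v) (f r • JW e W (phi F (v, -r)) r) = 0 := by
    intro r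
    have h2 := gauss_Jc F (phi F (v, -r)) (W (phi F (v, -r))) r
    rw [gm_phi F, phi_add, neg_add_cancel, gm_zero F, phi_zero, h.perp, mul_zero] at h2
    rw [ip_smul_right']
    exact mul_eq_zero_of_right _ h2
  have h2 : ip (foot v) (vec' v) (∫ r in (0 : ℝ)..(2 * D), f r • JW e W (phi F (v, -r)) r) =
      ∫ r in (0 : ℝ)..(2 * D), ip (foot v) (vec' v) (f r • JW e W (phi F (v, -r)) r) := h0
  rw [h2]
  simp only [h1, intervalIntegral.integral_zero, mul_zero]

theorem PF.kw (F : Facts e) (D : ℝ) {f : ℝ → ℝ} (hf : ContDiff ℝ ∞ f) {W : UT E M → E}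
    (h : PF W) : PF (Kw F D f W) :=
  ⟨fld_Kw F D hf h.fld, Kw_perp F D hf h⟩

theorem PF.cw (F : Facts e) (D : ℝ) {W : UT E M → E} (h : PF W) : PF (Cw F D W) :=
  h.kw F D (f := fun r => Real.cos (an D r)) (Real.contDiff_cos.comp (contDiff_an D))

theorem PF.sw (F : Facts e) (D : ℝ) {W : UT E M → E} (h : PF W) : PF (Sw F D W) :=
  h.kw F D (f := fun r => Real.sin (an D r)) (Real.contDiff_sin.comp (contDiff_an D))

/-! ### families -/

variable {κ : Type} [Fintype κ] [DecidableEq κ] {W : κ → UT E M → E}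

theorem XX_neg (W : κ → UT E M → E) (x : EuclideanSpace ℝ κ) (v : UT E M) :
    XX W (-x) v = -XX W x v := by
  rw [← neg_one_smul ℝ x, XX_smul, neg_one_smul]

theorem XX_perp (hW : ∀ i, PF (W i)) (x : EuclideanSpace ℝ κ) (v : UT E M) :
    ip (foot v) (vec' v) (XX W x v) = 0 := by
  unfold XX
  rw [ip_sum_right]
  refine Finset.sum_eq_zero fun i _ => ?_
  rw [ip_smul_right', (hW i).perp, mul_zero]

theorem sr_shift (F : Facts e) (D : ℝ) (W : κ → UT E M → E) (v : UT E M) (z : V2 κ) (s t : ℝ) :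
    sr F D W (phi F (v, s)) (Rt D s z) t = sr F D W v z (s + t) := by
  unfold sr
  rw [Rt_add, phi_add]

theorem ln_shift (F : Facts e) (D : ℝ) (C S : κ → UT E M → E) (v : UT E M) (z : V2 κ) (s t : ℝ) :
    ln F D C S (phi F (v, s)) (Rt D s z) t = ln F D C S v z (s + t) := by
  unfold ln
  rw [Rt_add, phi_add]

/-- the source with the coefficients `z` is antiperiodic -/
theorem as_sr (F : Facts e) (hD : 0 < D) (hB : InjGE e D) (hdiam : ∀ p q : M, dist p q ≤ D)
    (hW : ∀ i, PF (W i)) (v : UT E M) (z : V2 κ) : AS F D v (sr F D W v z) where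
  fa t := by
    have h1 : (dUT E M).At (fun t : ℝ => phi F (v, t)) t :=
      map_phi F (u := fun t : ℝ => (v, t)) ⟨H583.at_const v _, Sm.of_contDiff contDiff_id _⟩
    have h2 : ContDiff ℝ ∞ (fun t => (Rt D t z).fst) := by
      simp only [Rt_fst]
      exact ((Real.contDiff_cos.comp (contDiff_an D)).smul contDiff_const).sub
        ((Real.contDiff_sin.comp (contDiff_an D)).smul contDiff_const)
    exact at_XX (fun i => (hW i).fld) h1 (Sm.of_contDiff h2 t)
  perp t := XX_perp hW _ (phi F (v, t))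
  anti t := by
    unfold sr
    rw [Rt_anti hD, phi_add_per F hD hB hdiam, WithLp.neg_fst, XX_neg]

theorem Jc_sum (u : UT E M) {ι : Type*} (s : Finset ι) (c : ι → E) (r : ℝ) :
    Jc e u (∑ i ∈ s, c i) r = ∑ i ∈ s, Jc e u (c i) r := by
  classical
  induction s using Finset.induction_on with
  | empty =>
    have h := Jc_smul (e := e) u 0 (0 : E) r
    simpa using h
  | insert i t hi ih => rw [Finset.sum_insert hi, Finset.sum_insert hi, Jc_add, ih]

theorem Y2_eq_Gr (F : Facts e) (D : ℝ) (hW : ∀ i, PF (W i)) (v : UT E M) (z : V2 κ) :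
    Y2 (fun i => Cw F D (W i)) (fun i => Sw F D (W i)) z v = Gr F D v (sr F D W v z) 0 := by
  have hc : ContDiff ℝ ∞ fun r => Real.cos (an D r) := Real.contDiff_cos.comp (contDiff_an D)
  have hs : ContDiff ℝ ∞ fun r => Real.sin (an D r) := Real.contDiff_sin.comp (contDiff_an D)
  have h1 : ∀ r, Jc e (phi F (v, 0 - r)) (sr F D W v z (0 - r)) r =
      ∑ i, z.fst i • (Real.cos (an D r) • JW e (W i) (phi F (v, -r)) r) +
        ∑ i, z.snd i • (Real.sin (an D r) • JW e (W i) (phi F (v, -r)) r) := by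
    intro r
    unfold sr XX
    rw [zero_sub, Jc_sum, ← Finset.sum_add_distrib]
    refine Finset.sum_congr rfl fun i _ => ?_
    have k : JW e (W i) (phi F (v, -r)) r = Jc e (phi F (v, -r)) (W i (phi F (v, -r))) r := rfl
    rw [Jc_smul, Rt_fst, an_neg, Real.cos_neg, Real.sin_neg, k, smul_smul, smul_smul, ← add_smul]
    congr 1
    simp only [PiLp.sub_apply, PiLp.smul_apply, smul_eq_mul]
    ring
  have c1 : ∀ i, Continuous fun r => z.fst i • (Real.cos (an D r) • JW e (W i) (phi F (v, -r)) r) :=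
    fun i => (cont_Kw F hc (hW i).fld v).const_smul (z.fst i)
  have c2 : ∀ i, Continuous fun r => z.snd i • (Real.sin (an D r) • JW e (W i) (phi F (v, -r)) r) :=
    fun i => (cont_Kw F hs (hW i).fld v).const_smul (z.snd i)
  unfold Gr Y2 XX Cw Sw
  simp only [h1]
  rw [intervalIntegral.integral_add
    ((continuous_finsetSum _ fun i _ => c1 i).intervalIntegrable _ _)
    ((continuous_finsetSum _ fun i _ => c2 i).intervalIntegrable _ _),
    intervalIntegral.integral_finsetSum fun i _ => (c1 i).intervalIntegrable _ _,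
    intervalIntegral.integral_finsetSum fun i _ => (c2 i).intervalIntegrable _ _, smul_add,
    Finset.smul_sum, Finset.smul_sum]
  congr 1
  · refine Finset.sum_congr rfl fun i _ => ?_
    rw [intervalIntegral.integral_smul, smul_comm]
  · refine Finset.sum_congr rfl fun i _ => ?_
    rw [intervalIntegral.integral_smul, smul_comm]

/-- the field with the coefficients `z` is the Green field of its source -/
theorem ln_eq_Gr (F : Facts e) (D : ℝ) (hW : ∀ i, PF (W i)) (v : UT E M) (z : V2 κ) (t : ℝ) :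
    ln F D (fun i => Cw F D (W i)) (fun i => Sw F D (W i)) v z t = Gr F D v (sr F D W v z) t := by
  unfold ln
  rw [Y2_eq_Gr F D hW]
  have h1 := Gr_shift (v := v) F D (sr F D W v z) t 0
  rw [add_zero] at h1
  rw [← h1]
  congr 1
  funext r
  exact sr_shift F D W v z t r

/-- **the Green fields of a family of perpendicular fields** -/
theorem af_green (F : Facts e) (hD : 0 < D) (hB : InjGE e D) (hdiam : ∀ p q : M, dist p q ≤ D)
    {l : ℕ} (hP : ∀ x y : M, dist x y = D → finrank ℝ (H775.Pl e D x y) = l + 1)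
    {κ : Type} [Fintype κ] [DecidableEq κ] {W : κ → UT E M → E} (hW : ∀ i, PF (W i)) :
    AF F D W (fun i => Cw F D (W i)) (fun i => Sw F D (W i)) where
  pW := hW
  pC i := (hW i).cw F D
  pS i := (hW i).sw F D
  je v z := by
    have h1 := (as_sr F hD hB hdiam hW v z).je_zero hD hB hdiam (foot v) (mem_extChartAt_source _)
    refine JE.congr (fun t => (ln_eq_Gr F D hW v z t).symm) ?_ h1
    unfold sr
    rw [Rt_zero, phi_zero]
  dir v z h0 h1 := by
    unfold n2
    simp only [ln_eq_Gr F D hW] at h0 h1 ⊢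
    refine (as_sr F hD hB hdiam hW v z).int_nonpos hD hB hdiam h0 fun w hw => ?_
    have h2 := ip_prL (e := e) D (phi F (v, D)) (Tr F hD hB hdiam v w)
      (Gr F D v (sr F D W v z) D)
    rw [prL_of_mem (Tr_mem F hD hB hdiam v w), h1] at h2
    exact h2.trans (inner_zero_right (E := TangentSpace 𝓘(ℝ, E) (foot (phi F (v, D)))) (𝕜 := ℝ) _)

end

end Vale.Agent.P231Z.N2
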