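import Vale.Agent.P231Z.N2.Defs

/-!
# P231 (A), SIG: uniform push-off of the doubled geodesic, of length less than `4 D`
-/

set_option maxSynthPendingDepth 3
set_option linter.unusedSectionVars false
set_option linter.unusedVariables false

open Bundle Manifold Set Filter Module MeasureTheory
open scoped ContDiff Manifold Topology ENNReal

namespace Vale.Agent.P231Z.N2

noncomputable section

open Vale.Agent.P234 Vale.Agent.P231 Vale.Agent.P231.Fm Vale.Agent.P231.W Vale.Agent.P231.WR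
open Vale.Agent.P231.H775 Vale.Agent.P231.WC Vale.Agent.P231.WF Vale.Agent.P231.S2N

namespace Push

/-- uniform strict maximum on a compact set of parameters -/
theorem unif_abs {X : Type*} [TopologicalSpace X] {DX : Dif X} (hL : LocSec DX)
    (hc : ∀ x, DX.At (fun _ : ℝ => x) 0) {K : Set X} (hK : IsCompact K) {f : X × ℝ → ℝ}
    (hf : (DX.prod (Dif.lin ℝ)).Map (Dif.lin ℝ) f)
    (h1 : ∀ v ∈ K, deriv (fun ε => f (v, ε)) 0 = 0)
    (h2 : ∀ v ∈ K, deriv (deriv (fun ε => f (v, ε))) 0 < 0) :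
    ∃ ε₀ : ℝ, 0 < ε₀ ∧ ∀ ε, ε ≠ 0 → |ε| ≤ ε₀ → ∀ v ∈ K, f (v, ε) < f (v, 0) := by
  have hg1 : (DX.prod (Dif.lin ℝ)).Map (Dif.lin ℝ)
      (fun p => deriv (fun r => f (p.1, r)) p.2) := H766.map_deriv hf
  have hg : (DX.prod (Dif.lin ℝ)).Map (Dif.lin ℝ)
      (fun p => deriv (fun r => deriv (fun r' => f (p.1, r')) r) p.2) := H766.map_deriv hg1
  have hc' : Continuous fun p : X × ℝ =>
      deriv (fun r => deriv (fun r' => f (p.1, r')) r) p.2 :=
    (hL.prod (locSec_lin ℝ)).continuous (D' := Dif.lin ℝ) (plotsCont_lin ℝ) hg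
  have key : ∀ᶠ ε in 𝓝 (0 : ℝ), ∀ v ∈ K,
      deriv (fun r => deriv (fun r' => f (v, r')) r) ε < 0 := by
    refine hK.eventually_forall_of_forall_eventually fun v hv => ?_
    have h3 : Tendsto (fun z : ℝ × X => deriv (fun r => deriv (fun r' => f (z.2, r')) r) z.1)
        (𝓝 (0, v)) (𝓝 (deriv (fun r => deriv (fun r' => f (v, r')) r) 0)) :=
      (hc'.comp continuous_swap).tendsto (0, v)
    exact h3.eventually_lt_const (h2 v hv)
  obtain ⟨δ, hδ, hδ'⟩ := Metric.eventually_nhds_iff.1 key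
  refine ⟨δ / 2, by positivity, fun ε hε hε' v hv => ?_⟩
  refine H766.lt_of_concave (f := fun ε => f (v, ε)) (δ := δ) (H766.contDiff_slice hf (hc v))
    (h1 v hv) (fun r hr => ?_) hε (lt_of_le_of_lt hε' (by linarith))
  exact hδ' (by rw [Real.dist_eq, sub_zero]; exact hr) v hv

theorem int_double {f : ℝ → ℝ} (hf : Continuous f) (T : ℝ) :
    ∫ t in (0 : ℝ)..(2 * T), f t = ∫ t in (0 : ℝ)..T, (f t + f (t + T)) := by
  have h1 := intervalIntegral.integral_add_adjacent_intervals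
    (hf.intervalIntegrable (μ := volume) 0 T) (hf.intervalIntegrable T (2 * T))
  have h2 := intervalIntegral.integral_comp_add_right (a := 0) (b := T) f T
  rw [zero_add, ← two_mul] at h2
  have h3 : Continuous fun t => f (t + T) := hf.comp (continuous_id.add continuous_const)
  rw [intervalIntegral.integral_add (hf.intervalIntegrable _ _) (h3.intervalIntegrable _ _), h2, h1]

variable {E : Type*} [NormedAddCommGroup E] [NormedSpace ℝ E]
  {M : Type*} [MetricSpace M] [ChartedSpace E M]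
  [RiemannianBundle (fun x : M => TangentSpace 𝓘(ℝ, E) x)]
  {e : ∀ x : M, TangentSpace 𝓘(ℝ, E) x → M}
  [FiniteDimensional ℝ E] [IsManifold 𝓘(ℝ, E) ∞ M]
  [IsContMDiffRiemannianBundle 𝓘(ℝ, E) ∞ E (fun x : M => TangentSpace 𝓘(ℝ, E) x)]
  [CompactSpace M] [ConnectedSpace M] [IsRiemannianManifold 𝓘(ℝ, E) M]

variable {D : ℝ}

/-! ### the variation formulas for an arbitrary period -/

section Single

variable {v : UT E M} {Z : ℝ → E} {c : ℝ}

theorem po2_per (hg : ∀ t, gm e (v, t + 2 * c) = gm e (v, t)) (hper : ∀ t, Z (t + 2 * c) = Z t)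
    (a t : ℝ) : po2 e v Z (a, t + 2 * c) = po2 e v Z (a, t) := by
  unfold po2
  have h3 : ∀ (x y : M) (a b : E), x = y → a = b → e x a = e y b := by
    rintro x y a b rfl rfl
    rfl
  exact h3 _ _ _ _ (hg t) (congrArg (fun b : E => a • b) (hper t))

theorem mx2_per (F : Facts e) (hZ : ∀ t, FA e v Z t)
    (hg : ∀ t, gm e (v, t + 2 * c) = gm e (v, t)) (hper : ∀ t, Z (t + 2 * c) = Z t) (a : ℝ) :
    mx2 (E := E) (po2 e v Z) (a, 2 * c) = mx2 (E := E) (po2 e v Z) (a, 0) := by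
  have hp : ∀ a t, po2 e v Z (a, t + 2 * c) = po2 e v Z (a, t) := po2_per hg hper
  have h1 : po2 e v Z (a, 2 * c) = po2 e v Z (a, 0) := by
    have h := hp a 0
    rwa [zero_add] at h
  have h2 : (WC.vl (fun t => po2 e v Z (a, t)) (2 * c) : E) =
      WC.vl (fun t => po2 e v Z (a, t)) 0 := by
    have k := vl_shift' (g := fun t => po2 e v Z (a, t)) (fun s => cm_line2 F hZ _ s) (2 * c) 0
    rw [add_zero] at k
    rw [← k]
    refine congrArg (fun f : ℝ → M => (WC.vl f 0 : E)) ?_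
    funext s
    rw [add_comm]
    exact hp a s
  have h3 : (WC.vl (fun s => po2 e v Z (s, 2 * c)) a : E) =
      WC.vl (fun s => po2 e v Z (s, 0)) a := by
    refine congrArg (fun f : ℝ → M => (WC.vl f a : E)) ?_
    funext s
    have h := hp s 0
    rwa [zero_add] at h
  unfold mx2
  exact ip_congr3' (E := E) h1 h2 h3

theorem deriv_en (F : Facts e) (hD : 0 < D) (hB : InjGE e D) (hZ : ∀ t, FA e v Z t)
    (hg : ∀ t, gm e (v, t + 2 * c) = gm e (v, t)) (hper : ∀ t, Z (t + 2 * c) = Z t) :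
    deriv (enZ e c v Z) 0 = 0 := by
  have h0 := congrFun (deriv_int_d1 (cd_sq2 F hZ) 0 (2 * c)) 0
  have h1 : ∀ t, d1 (sq2 (E := E) (po2 e v Z)) (0, t) =
      2 * d2 (mx2 (E := E) (po2 e v Z)) (0, t) := by
    intro t
    have h2 := first_field F hD hB (phi F (v, t)) (X := fun s => Z (t + s)) (fa_shift F hZ t 0)
    rw [sq2_shift F hZ, mx2_shift F hZ, d1_shift, d2_shift] at h2
    beta_reduce at h2
    have h3 : ((0, t) + (0, 0) : ℝ × ℝ) = (0, t) := by simp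
    rw [h3] at h2
    linarith
  have h4 : deriv (enZ e c v Z) 0 =
      ∫ t in (0 : ℝ)..(2 * c), d1 (sq2 (E := E) (po2 e v Z)) (0, t) := h0
  rw [h4]
  simp only [h1]
  rw [intervalIntegral.integral_const_mul, int_d2 (cd_mx2 F hZ) (mx2_per F hZ hg hper 0),
    mul_zero]

theorem deriv2_en (F : Facts e) (hD : 0 < D) (hB : InjGE e D) (hZ : ∀ t, FA e v Z t)
    (hg : ∀ t, gm e (v, t + 2 * c) = gm e (v, t)) (hper : ∀ t, Z (t + 2 * c) = Z t) {δ : ℝ → E}
    (hδ : ∀ t, JE e (foot (phi F (v, t))) (phi F (v, t)) (fun s => Z (t + s)) (δ t))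
    (hc : Continuous fun t => ip (gm e (v, t)) (δ t) (Z t)) :
    (1 / 2 : ℝ) * deriv (deriv (enZ e c v Z)) 0 =
      -∫ t in (0 : ℝ)..(2 * c), ip (gm e (v, t)) (δ t) (Z t) := by
  have hs := cd_sq2 F hZ
  have hm := cd_mx2 F hZ
  have h0 : deriv (enZ e c v Z) = fun s =>
      ∫ t in (0 : ℝ)..(2 * c), d1 (sq2 (E := E) (po2 e v Z)) (s, t) := deriv_int_d1 hs 0 (2 * c)
  have h0' : deriv (deriv (enZ e c v Z)) 0 =
      ∫ t in (0 : ℝ)..(2 * c), d1 (d1 (sq2 (E := E) (po2 e v Z))) (0, t) := by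
    rw [h0]
    exact congrFun (deriv_int_d1 (contDiff_d1' hs) 0 (2 * c)) 0
  have h1 : ∀ t, d1 (d1 (sq2 (E := E) (po2 e v Z))) (0, t) =
      2 * d2 (d1 (mx2 (E := E) (po2 e v Z))) (0, t) - 2 * ip (gm e (v, t)) (δ t) (Z t) := by
    intro t
    have h2 := second_field F hD hB (foot (phi F (v, t))) (phi F (v, t))
      (mem_extChartAt_source _) (X := fun s => Z (t + s)) (fa_shift F hZ t 0) (hδ t)
    rw [sq2_shift F hZ, mx2_shift F hZ, d1_shift, d1_shift, d1_shift, d2_shift] at h2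
    beta_reduce at h2
    have h3 : ((0, t) + (0, 0) : ℝ × ℝ) = (0, t) := by simp
    rw [h3] at h2
    have h4 : ip (foot (phi F (v, t))) (δ t) (Z (t + 0)) = ip (gm e (v, t)) (δ t) (Z t) := by
      change ip (gm e (v, t)) (δ t) (Z (t + 0)) = _
      rw [add_zero]
    rw [h4] at h2
    linarith
  have hper2 : ∀ a, mx2 (E := E) (po2 e v Z) (a, 2 * c) = mx2 (E := E) (po2 e v Z) (a, 0) :=
    mx2_per F hZ hg hper
  have hper3 : d1 (mx2 (E := E) (po2 e v Z)) (0, 2 * c) = d1 (mx2 (E := E) (po2 e v Z)) (0, 0) := by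
    rw [← deriv_d1 hm, ← deriv_d1 hm]
    exact congrArg (fun f => deriv f 0) (funext hper2)
  have c1 : Continuous fun t => d2 (d1 (mx2 (E := E) (po2 e v Z))) (0, t) :=
    (contDiff_d2' (contDiff_d1' hm)).continuous.comp (continuous_const.prodMk continuous_id)
  rw [h0']
  simp only [h1]
  rw [intervalIntegral.integral_sub ((c1.const_mul 2).intervalIntegrable _ _)
    ((hc.const_mul 2).intervalIntegrable _ _), intervalIntegral.integral_const_mul,
    intervalIntegral.integral_const_mul, int_d2 (contDiff_d1' hm) hper3]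
  ring

theorem cont_ip' {A B : ℝ → E} (hA : ∀ t, FA e v A t) (hB : ∀ t, FA e v B t) :
    Continuous fun t => ip (gm e (v, t)) (A t) (B t) :=
  continuous_iff_continuousAt.2 fun t =>
    (sm_ip_tb (f := fun t => gm e (v, t)) (a := A) (b := B) (hA t) (hB t)).continuousAt

end Single

theorem ip_negl (x : M) (v w : E) : ip x (-v) w = -ip x v w :=
  inner_neg_left (𝕜 := ℝ) (E := TangentSpace 𝓘(ℝ, E) x) v w

theorem phi_per' (F : Facts e) (hD : 0 < D) (hB : InjGE e D) (hdiam : ∀ p q : M, dist p q ≤ D)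
    (v : UT E M) (t : ℝ) : phi F (v, t + 2 * D) = phi F (v, t) := by
  have k := W.phi_per F hD hB hdiam (phi F (v, t))
  rwa [phi_add] at k

/-! ### the fields -/

variable {ι κ : Type} [Fintype ι] [DecidableEq ι] [Fintype κ] [DecidableEq κ]

theorem XX_neg (X : ι → UT E M → E) (x : EuclideanSpace ℝ ι) (v : UT E M) :
    XX X (-x) v = -XX X x v := by
  have k := XX_smul X (-1) x v
  rwa [neg_smul, neg_smul, one_smul, one_smul] at k

section Plots

variable {E' : Type} [NormedAddCommGroup E'] [NormedSpace ℝ E'] [FiniteDimensional ℝ E']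

theorem sm_Rt {z : E' → V2 κ} {τ : E' → ℝ} {x : E'} (hz : Sm z x) (hτ : Sm τ x) :
    Sm (fun s => (Rt D (τ s) (z s)).fst) x ∧ Sm (fun s => (Rt D (τ s) (z s)).snd) x := by
  have h1 : Sm (fun s => Rt D (τ s) (z s)) x := by
    filter_upwards [hz, hτ] with s h1 h2
    exact ((contDiff_Rt (κ := κ) D).contDiffAt.comp s h2).clm_apply h1
  have h2 : Sm (fun s => WithLp.prodContinuousLinearEquiv 2 ℝ (EuclideanSpace ℝ κ)
      (EuclideanSpace ℝ κ) (Rt D (τ s) (z s))) x :=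
    Sm.comp (f := WithLp.prodContinuousLinearEquiv 2 ℝ (EuclideanSpace ℝ κ) (EuclideanSpace ℝ κ))
      (Sm.of_contDiff (ContinuousLinearEquiv.contDiff _) _) h1
  exact ⟨h2.fst, h2.snd⟩

theorem at_ln (F : Facts e) {C S : κ → UT E M → E} (hC : ∀ i, Fld (C i)) (hS : ∀ i, Fld (S i))
    {u : E' → UT E M} {z : E' → V2 κ} {τ : E' → ℝ} {x : E'} (hu : (dUT E M).At u x)
    (hz : Sm z x) (hτ : Sm τ x) :
    (dTM E M).At (fun s => tb (gm e (u s, τ s)) (ln F D C S (u s) (z s) (τ s))) x := by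
  have h1 : (dUT E M).At (fun s => phi F (u s, τ s)) x :=
    map_phi F (u := fun s => (u s, τ s)) ⟨hu, hτ⟩
  exact at_add (f := fun s => gm e (u s, τ s)) (at_XX hC h1 (sm_Rt (D := D) hz hτ).1)
    (at_XX hS h1 (sm_Rt (D := D) hz hτ).2)

theorem at_sr (F : Facts e) {W : κ → UT E M → E} (hW : ∀ i, Fld (W i))
    {u : E' → UT E M} {z : E' → V2 κ} {τ : E' → ℝ} {x : E'} (hu : (dUT E M).At u x)
    (hz : Sm z x) (hτ : Sm τ x) :
    (dTM E M).At (fun s => tb (gm e (u s, τ s)) (sr F D W (u s) (z s) (τ s))) x := by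
  have h1 : (dUT E M).At (fun s => phi F (u s, τ s)) x :=
    map_phi F (u := fun s => (u s, τ s)) ⟨hu, hτ⟩
  exact at_XX hW h1 (sm_Rt (D := D) hz hτ).1

end Plots

theorem fa_ln (F : Facts e) {C S : κ → UT E M → E} (hC : ∀ i, Fld (C i)) (hS : ∀ i, Fld (S i))
    (v : UT E M) (z : V2 κ) (t : ℝ) : FA e v (ln F D C S v z) t :=
  at_ln (D := D) F hC hS (u := fun _ : ℝ => v) (z := fun _ => z) (τ := fun s => s)
    (H766.At_const_UT v t) (Sm.of_contDiff contDiff_const _) (Sm.of_contDiff contDiff_id _)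

theorem fa_sr (F : Facts e) {W : κ → UT E M → E} (hW : ∀ i, Fld (W i))
    (v : UT E M) (z : V2 κ) (t : ℝ) : FA e v (sr F D W v z) t :=
  at_sr (D := D) F hW (u := fun _ : ℝ => v) (z := fun _ => z) (τ := fun s => s)
    (H766.At_const_UT v t) (Sm.of_contDiff contDiff_const _) (Sm.of_contDiff contDiff_id _)

theorem ln_anti (F : Facts e) (hD : 0 < D) (hB : InjGE e D) (hdiam : ∀ p q : M, dist p q ≤ D)
    (C S : κ → UT E M → E) (v : UT E M) (z : V2 κ) (t : ℝ) :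
    ln F D C S v z (t + 2 * D) = -ln F D C S v z t := by
  unfold ln Y2
  rw [Rt_anti hD, phi_per' F hD hB hdiam, WithLp.neg_fst, WithLp.neg_snd, XX_neg, XX_neg, neg_add]

theorem sr_anti (F : Facts e) (hD : 0 < D) (hB : InjGE e D) (hdiam : ∀ p q : M, dist p q ≤ D)
    (W : κ → UT E M → E) (v : UT E M) (z : V2 κ) (t : ℝ) :
    sr F D W v z (t + 2 * D) = -sr F D W v z t := by
  unfold sr
  rw [Rt_anti hD, phi_per' F hD hB hdiam, WithLp.neg_fst, XX_neg]

theorem je_ln {F : Facts e} {W C S : κ → UT E M → E} (h : AF F D W C S) (v : UT E M) (z : V2 κ)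
    (t : ℝ) : JE e (foot (phi F (v, t))) (phi F (v, t)) (fun s => ln F D C S v z (t + s))
      (sr F D W v z t) := by
  refine JE.congr (fun s => ?_) rfl (h.je (phi F (v, t)) (Rt D t z))
  unfold ln
  rw [Rt_add, phi_add]

/-- the field along the doubled geodesic -/
def ZZ (F : Facts e) (D : ℝ) (X : ι → UT E M → E) (C S : κ → UT E M → E)
    (p : UT E M × EuclideanSpace ℝ ι × V2 κ) (t : ℝ) : E :=
  XX X p.2.1 (phi F (p.1, t)) + ln F D C S p.1 p.2.2 t

theorem map_en (F : Facts e) {X : ι → UT E M → E} {C S : κ → UT E M → E} (hX : ∀ i, Fld (X i))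
    (hC : ∀ i, Fld (C i)) (hS : ∀ i, Fld (S i)) (c : ℝ) :
    (((dUT E M).prod (Dif.lin (EuclideanSpace ℝ ι × V2 κ))).prod (Dif.lin ℝ)).Map (Dif.lin ℝ)
      (fun p => enZ e c p.1.1 (ZZ F D X C S p.1) p.2) := by
  have h0 : ((((dUT E M).prod (Dif.lin (EuclideanSpace ℝ ι × V2 κ))).prod (Dif.lin ℝ)).prod
      (Dif.lin ℝ)).Map (dM E M) (fun q => po2 e q.1.1.1 (ZZ F D X C S q.1.1) (q.1.2, q.2)) := by
    intro E' _ _ _ u x hu
    have k0 : Sm (fun s => (u s).1.1.2) x := hu.1.1.2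
    have k1 : (dUT E M).At (fun s => phi F ((u s).1.1.1, (u s).2)) x :=
      map_phi F (u := fun s => ((u s).1.1.1, (u s).2)) ⟨hu.1.1.1, hu.2⟩
    have k2 := at_add (f := fun s => gm e ((u s).1.1.1, (u s).2)) (at_XX hX k1 k0.fst)
      (at_ln (D := D) F hC hS (u := fun s => (u s).1.1.1) (τ := fun s => (u s).2) hu.1.1.1 k0.snd
        hu.2)
    have k3 : Sm (fun s => (u s).1.2) x := hu.1.2
    rw [at_tb] at k2
    change ∀ᶠ s in 𝓝 x, ContMDiffAt _ _ _ _ _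
    filter_upwards [k2, k3] with s hs1 hs2
    exact (hs1.smul hs2).exp F.isExp
  have h1 : ((((dUT E M).prod (Dif.lin (EuclideanSpace ℝ ι × V2 κ))).prod (Dif.lin ℝ)).prod
      (Dif.lin ℝ)).Map (dTM E M)
      (fun q => tb (po2 e q.1.1.1 (ZZ F D X C S q.1.1) (q.1.2, q.2))
        (WC.vl (fun t => po2 e q.1.1.1 (ZZ F D X C S q.1.1) (q.1.2, t)) q.2 : E)) :=
    H997.MV_dv (E := E) (H := fun q : ((UT E M × EuclideanSpace ℝ ι × V2 κ) × ℝ) × ℝ =>
      po2 e q.1.1.1 (ZZ F D X C S q.1.1) (q.1.2, q.2)) h0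
  have h2 : ((((dUT E M).prod (Dif.lin (EuclideanSpace ℝ ι × V2 κ))).prod (Dif.lin ℝ)).prod
      (Dif.lin ℝ)).Map (Dif.lin ℝ)
      (fun q => nm (po2 e q.1.1.1 (ZZ F D X C S q.1.1) (q.1.2, q.2))
        (WC.vl (fun t => po2 e q.1.1.1 (ZZ F D X C S q.1.1) (q.1.2, t)) q.2 : E) ^ 2) :=
    WC.map_nm_sq h1
  have h3 : (((dUT E M).prod (Dif.lin (EuclideanSpace ℝ ι × V2 κ))).prod (Dif.lin ℝ)).Map
      (Dif.lin ℝ) (fun p => ∫ t in (0 : ℝ)..(2 * c),
        (fun q : ((UT E M × EuclideanSpace ℝ ι × V2 κ) × ℝ) × ℝ =>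
          nm (po2 e q.1.1.1 (ZZ F D X C S q.1.1) (q.1.2, q.2))
            (WC.vl (fun t => po2 e q.1.1.1 (ZZ F D X C S q.1.1) (q.1.2, t)) q.2 : E) ^ 2)
          (p, t)) :=
    H766.map_integral h2 (2 * c)
  intro E' _ _ _ u x hu
  exact h3 hu

end Push

variable {E : Type*} [NormedAddCommGroup E] [NormedSpace ℝ E]
  {M : Type*} [MetricSpace M] [ChartedSpace E M]
  [RiemannianBundle (fun x : M => TangentSpace 𝓘(ℝ, E) x)]
  {e : ∀ x : M, TangentSpace 𝓘(ℝ, E) x → M}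
  [FiniteDimensional ℝ E] [IsManifold 𝓘(ℝ, E) ∞ M]
  [IsContMDiffRiemannianBundle 𝓘(ℝ, E) ∞ E (fun x : M => TangentSpace 𝓘(ℝ, E) x)]
  [CompactSpace M] [ConnectedSpace M] [IsRiemannianManifold 𝓘(ℝ, E) M]

variable {D : ℝ}

namespace Push

variable {F : Facts e} {hD : 0 < D} {hB : InjGE e D} {hdiam : ∀ p q : M, dist p q ≤ D}
  {l : ℕ} {ι : Type} [Fintype ι] [DecidableEq ι] {X δ : ι → UT E M → E} {ε₁ : ℝ}
  {κ : Type} [Fintype κ] [DecidableEq κ] {r : ℕ}
  {W C S : κ → UT E M → E} {P : UT E M → V2 κ →L[ℝ] V2 κ} {ε₂ : ℝ}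

theorem fa_ZZ (h : Fam F hD hB hdiam l X δ ε₁) (h2 : AF F D W C S)
    (p : UT E M × EuclideanSpace ℝ ι × V2 κ) (t : ℝ) : FA e p.1 (ZZ F D X C S p) t :=
  ((DF.xx h.df p.2.1).fld.fa F p.1 t).add
    (fa_ln F (fun i => (h2.pC i).fld) (fun i => (h2.pS i).fld) p.1 p.2.2 t)

include F hD hB hdiam in
theorem gm_per (v : UT E M) (t : ℝ) : gm e (v, t + 2 * (2 * D)) = gm e (v, t) := by
  have h1 : phi F (v, t + 2 * (2 * D)) = phi F (v, t) := by
    rw [show t + 2 * (2 * D) = t + 2 * D + 2 * D by ring, phi_per' F hD hB hdiam,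
      phi_per' F hD hB hdiam]
  exact congrArg foot h1

include hD hB hdiam in
theorem ZZ_per (p : UT E M × EuclideanSpace ℝ ι × V2 κ) (t : ℝ) :
    ZZ F D X C S p (t + 2 * (2 * D)) = ZZ F D X C S p t := by
  unfold ZZ
  rw [show t + 2 * (2 * D) = t + 2 * D + 2 * D by ring, phi_per' F hD hB hdiam,
    phi_per' F hD hB hdiam, ln_anti F hD hB hdiam, ln_anti F hD hB hdiam, neg_neg]

/-- the second variation of the energy of the doubled geodesic -/
theorem second (h : Fam F hD hB hdiam l X δ ε₁) (h2 : AF F D W C S)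
    (p : UT E M × EuclideanSpace ℝ ι × V2 κ) :
    deriv (deriv (enZ e (2 * D) p.1 (ZZ F D X C S p))) 0 =
      -4 * (nI F D (XX δ p.2.1) (XX X p.2.1) p.1 + n2 F D W C S p.1 p.2.2 p.2.2) := by
  obtain ⟨v, x, z⟩ := p
  have hd := DF.xx h.df x
  have a1 : ∀ t, FA e v (fun t => XX X x (phi F (v, t))) t := hd.fld.fa F v
  have a2 : ∀ t, FA e v (fun t => XX δ x (phi F (v, t))) t := hd.sfld.fa F v
  have a3 : ∀ t, FA e v (ln F D C S v z) t :=
    fa_ln F (fun i => (h2.pC i).fld) (fun i => (h2.pS i).fld) v z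
  have a4 : ∀ t, FA e v (sr F D W v z) t := fa_sr F (fun i => (h2.pW i).fld) v z
  have hc : Continuous fun t => ip (gm e (v, t)) (XX δ x (phi F (v, t)) + sr F D W v z t)
      (ZZ F D X C S (v, x, z) t) :=
    cont_ip' (A := fun t => XX δ x (phi F (v, t)) + sr F D W v z t) (fun t => (a2 t).add (a4 t))
      (fa_ZZ h h2 (v, x, z))
  have k := deriv2_en F hD hB (c := 2 * D) (fa_ZZ h h2 (v, x, z))
    (gm_per (F := F) (hD := hD) (hB := hB) (hdiam := hdiam) v)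
    (ZZ_per (hD := hD) (hB := hB) (hdiam := hdiam) (v, x, z))
    (δ := fun t => XX δ x (phi F (v, t)) + sr F D W v z t)
    (fun t => JE.add F (mem_extChartAt_source _) (fa_shift F a1 t 0) (fa_shift F a3 t 0)
      (hd.je_shift v t) (je_ln h2 v z t)) hc
  rw [int_double hc] at k
  have e1 : ∀ t, ip (gm e (v, t)) (XX δ x (phi F (v, t)) + sr F D W v z t)
      (ZZ F D X C S (v, x, z) t) + ip (gm e (v, t + 2 * D))
        (XX δ x (phi F (v, t + 2 * D)) + sr F D W v z (t + 2 * D))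
        (ZZ F D X C S (v, x, z) (t + 2 * D)) =
      2 * ip (gm e (v, t)) (XX δ x (phi F (v, t))) (XX X x (phi F (v, t))) +
        2 * ip (gm e (v, t)) (sr F D W v z t) (ln F D C S v z t) := by
    intro t
    have e2 : gm e (v, t + 2 * D) = gm e (v, t) := congrArg foot (phi_per' F hD hB hdiam v t)
    have e3 : ZZ F D X C S (v, x, z) (t + 2 * D) =
        XX X x (phi F (v, t)) + -ln F D C S v z t := by
      unfold ZZ
      rw [phi_per' F hD hB hdiam, ln_anti F hD hB hdiam]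
    have e4 : ZZ F D X C S (v, x, z) t = XX X x (phi F (v, t)) + ln F D C S v z t := rfl
    rw [e2, e3, e4, phi_per' F hD hB hdiam, sr_anti F hD hB hdiam]
    simp only [ip_add_left', ip_add_right', ip_neg_right', ip_negl]
    ring
  simp only [e1] at k
  rw [intervalIntegral.integral_add (((cont_ip' a2 a1).const_mul 2).intervalIntegrable _ _)
    (((cont_ip' a4 a3).const_mul 2).intervalIntegrable _ _), intervalIntegral.integral_const_mul,
    intervalIntegral.integral_const_mul] at k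
  have e5 : nI F D (XX δ x) (XX X x) v = ∫ t in (0 : ℝ)..(2 * D),
      ip (gm e (v, t)) (XX δ x (phi F (v, t))) (XX X x (phi F (v, t))) := rfl
  have e6 : n2 F D W C S v z z = ∫ t in (0 : ℝ)..(2 * D),
      ip (gm e (v, t)) (sr F D W v z t) (ln F D C S v z t) := rfl
  rw [← e5, ← e6] at k
  change deriv (deriv (enZ e (2 * D) v (ZZ F D X C S (v, x, z)))) 0 =
    -4 * (nI F D (XX δ x) (XX X x) v + n2 F D W C S v z z)
  linarith

theorem second_neg (h : Fam F hD hB hdiam l X δ ε₁) (h2 : Neg F D r W C S P ε₂)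
    (p : UT E M × EuclideanSpace ℝ ι × V2 κ) (hx : Pm F D X δ ε₁ p.1 p.2.1 = p.2.1)
    (hz : P p.1 p.2.2 = p.2.2) (k7 : ‖p.2.1‖ ^ 2 + ‖p.2.2‖ ^ 2 = 1) :
    deriv (deriv (enZ e (2 * D) p.1 (ZZ F D X C S p))) 0 < 0 := by
  have k1 := second h h2.af p
  have k2 := inner_Qm_self (D := D) F (fun i => (h.df i).fld) (fun i => (h.df i).sfld) p.1 p.2.1
  have k3 := h.neg p.1 hx
  have k4 := h2.neg p.1 p.2.2 hz
  have k5 := h.eps_pos p.1
  have k6 := h2.pos
  have k8 : 0 < 2 * ε₁ * ‖p.2.1‖ ^ 2 + ε₂ * ‖p.2.2‖ ^ 2 := by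
    rcases (sq_nonneg ‖p.2.1‖).eq_or_lt with h0 | h0
    · have : ‖p.2.2‖ ^ 2 = 1 := by linarith
      rw [← h0, this]
      linarith
    · have := mul_nonneg k6.le (sq_nonneg ‖p.2.2‖)
      have := mul_pos k5 h0
      linarith
  rw [k1]
  linarith

/-- the compact set of the parameters -/
def KK (F : Facts e) (D : ℝ) (X δ : ι → UT E M → E) (ε₁ : ℝ) (P : UT E M → V2 κ →L[ℝ] V2 κ) :
    Set (UT E M × EuclideanSpace ℝ ι × V2 κ) :=
  {p | Pm F D X δ ε₁ p.1 p.2.1 = p.2.1 ∧ P p.1 p.2.2 = p.2.2 ∧ ‖p.2.1‖ ^ 2 + ‖p.2.2‖ ^ 2 = 1}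

attribute [local instance] topUT

theorem isCompact_KK (h : Fam F hD hB hdiam l X δ ε₁) (h2 : Neg F D r W C S P ε₂) :
    IsCompact (KK F D X δ ε₁ P) := by
  have : CompactSpace (UT E M) := compactSpace_UT
  have m1 : (dUT E M).Map (Dif.lin (EuclideanSpace ℝ ι →L[ℝ] EuclideanSpace ℝ ι))
      (fun v => Pm F D X δ ε₁ v) := fun {E'} _ _ _ {u x} hu => h.sm_Pm hu
  have c1 : Continuous fun v : UT E M => Pm F D X δ ε₁ v :=
    continuous_of_map_dUT (plotsCont_lin _) m1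
  have c2 : Continuous P := continuous_of_map_dUT (plotsCont_lin _) h2.map
  have d1 : Continuous fun p : UT E M × EuclideanSpace ℝ ι × V2 κ => p.2.1 := continuous_snd.fst
  have d2 : Continuous fun p : UT E M × EuclideanSpace ℝ ι × V2 κ => p.2.2 := continuous_snd.snd
  have d3 : IsClosed {p : UT E M × EuclideanSpace ℝ ι × V2 κ | Pm F D X δ ε₁ p.1 p.2.1 = p.2.1} :=
    isClosed_eq ((c1.comp continuous_fst).clm_apply d1) d1
  have d4 : IsClosed {p : UT E M × EuclideanSpace ℝ ι × V2 κ | P p.1 p.2.2 = p.2.2} :=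
    isClosed_eq ((c2.comp continuous_fst).clm_apply d2) d2
  have d5 : IsClosed {p : UT E M × EuclideanSpace ℝ ι × V2 κ | ‖p.2.1‖ ^ 2 + ‖p.2.2‖ ^ 2 = 1} :=
    isClosed_eq ((d1.norm.pow 2).add (d2.norm.pow 2)) continuous_const
  have d6 : IsCompact ((univ : Set (UT E M)) ×ˢ (Metric.closedBall (0 : EuclideanSpace ℝ ι) 1 ×ˢ
      Metric.closedBall (0 : V2 κ) 1)) :=
    isCompact_univ.prod ((isCompact_closedBall _ _).prod (isCompact_closedBall _ _))
  refine d6.of_isClosed_subset (d3.inter (d4.inter d5)) ?_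
  rintro p ⟨-, -, hp⟩
  refine ⟨mem_univ _, ?_, ?_⟩
  · rw [mem_closedBall_zero_iff]
    nlinarith [norm_nonneg p.2.1, sq_nonneg ‖p.2.2‖]
  · rw [mem_closedBall_zero_iff]
    nlinarith [norm_nonneg p.2.2, sq_nonneg ‖p.2.1‖]

theorem unif (h : Fam F hD hB hdiam l X δ ε₁) (h2 : Neg F D r W C S P ε₂) :
    ∃ ε₀ : ℝ, 0 < ε₀ ∧ ∀ ε, ε ≠ 0 → |ε| ≤ ε₀ → ∀ p ∈ KK F D X δ ε₁ P,
      enZ e (2 * D) p.1 (ZZ F D X C S p) ε < enZ e (2 * D) p.1 (ZZ F D X C S p) 0 := by
  have a1 : LocSec ((dUT E M).prod (Dif.lin (EuclideanSpace ℝ ι × V2 κ))) :=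
    locSec_dUT.prod (locSec_lin (EuclideanSpace ℝ ι × V2 κ))
  have a2 : ∀ p : UT E M × EuclideanSpace ℝ ι × V2 κ,
      ((dUT E M).prod (Dif.lin (EuclideanSpace ℝ ι × V2 κ))).At (fun _ : ℝ => p) 0 :=
    fun p => ⟨H766.At_const_UT p.1 0, Sm.of_contDiff contDiff_const _⟩
  have a3 : (((dUT E M).prod (Dif.lin (EuclideanSpace ℝ ι × V2 κ))).prod (Dif.lin ℝ)).Map
      (Dif.lin ℝ) (fun p => enZ e (2 * D) p.1.1 (ZZ F D X C S p.1) p.2) :=
    map_en (D := D) F (fun i => (h.df i).fld) (fun i => (h2.af.pC i).fld)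
      (fun i => (h2.af.pS i).fld) (2 * D)
  have a4 : ∀ p ∈ KK F D X δ ε₁ P, deriv (enZ e (2 * D) p.1 (ZZ F D X C S p)) 0 = 0 :=
    fun p _ => deriv_en F hD hB (c := 2 * D) (fa_ZZ h h2.af p)
      (gm_per (F := F) (hD := hD) (hB := hB) (hdiam := hdiam) p.1)
      (ZZ_per (hD := hD) (hB := hB) (hdiam := hdiam) p)
  have a5 : ∀ p ∈ KK F D X δ ε₁ P, deriv (deriv (enZ e (2 * D) p.1 (ZZ F D X C S p))) 0 < 0 :=
    fun p hp => second_neg h h2 p hp.1 hp.2.1 hp.2.2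
  exact unif_abs (f := fun p => enZ e (2 * D) p.1.1 (ZZ F D X C S p.1) p.2) a1 a2
    (isCompact_KK h h2) a3 a4 a5

end Push

/-- **uniform push-off of the doubled geodesic** -/
theorem exists_eps {F : Facts e} {hD : 0 < D} {hB : InjGE e D} {hdiam : ∀ p q : M, dist p q ≤ D}
    {l : ℕ} {ι : Type} [Fintype ι] [DecidableEq ι] {X δ : ι → UT E M → E} {ε₁ : ℝ}
    (h : Fam F hD hB hdiam l X δ ε₁) {κ : Type} [Fintype κ] [DecidableEq κ] {r : ℕ}
    {W C S : κ → UT E M → E} {P : UT E M → V2 κ →L[ℝ] V2 κ} {ε₂ : ℝ}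
    (h2 : Neg F D r W C S P ε₂) :
    ∃ ε₀ : ℝ, 0 < ε₀ ∧ ∀ ε ∈ Ioc 0 ε₀, ∀ (v : UT E M) (x : EuclideanSpace ℝ ι) (z : V2 κ),
      Pm F D X δ ε₁ v x = x → P v z = z → ‖x‖ ^ 2 + ‖z‖ ^ 2 = 1 →
      eVariationOn (fun t => e (gm e (v, t))
        (ε • (XX X x (phi F (v, t)) + ln F D C S v z t) : E)) (Icc 0 (4 * D)) <
        ENNReal.ofReal (4 * D) := by
  obtain ⟨ε₀, hε₀, key⟩ := Push.unif h h2
  refine ⟨ε₀, hε₀, fun ε hε v x z hx hz hn => ?_⟩
  have k1 : enZ e (2 * D) v (Push.ZZ F D X C S (v, x, z)) ε <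
      enZ e (2 * D) v (Push.ZZ F D X C S (v, x, z)) 0 :=
    key ε hε.1.ne' (by rw [abs_of_pos hε.1]; exact hε.2) (v, x, z) ⟨hx, hz, hn⟩
  rw [enZ_zero F] at k1
  have hcs : ContMDiff 𝓘(ℝ, ℝ) 𝓘(ℝ, E) ∞
      (fun t => po2 e v (Push.ZZ F D X C S (v, x, z)) (ε, t)) :=
    fun t => cm_line2 F (Push.fa_ZZ h h2.af (v, x, z)) ε t
  have k2 := H766.variation_lt hcs (D := 2 * D) (by positivity) k1
  rw [show 2 * (2 * D) = 4 * D by ring] at k2
  exact k2

end

end Vale.Agent.P231Z.N2
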