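import Vale.Agent.P231Z.N2.GrF
import Vale.Agent.P231Z.N2.BunSg
import Vale.Agent.P231Z.Loop.Defs
import Vale.Agent.P231Z.Asm.Defs
import Vale.Agent.P231.S2N.Main

/-!
# P231 (A), SIG: the sphere bundle of the second level
-/

set_option maxSynthPendingDepth 3
set_option linter.unusedSectionVars false
set_option linter.unusedVariables false

open Bundle Manifold Set Filter Module MeasureTheory
open scoped ContDiff Manifold Topology ENNReal

namespace Vale.Agent.P231Z.N2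

noncomputable section

open Vale.Agent.P234 Vale.Agent.P231 Vale.Agent.P231.Fm Vale.Agent.P231.W Vale.Agent.P231.WR
open Vale.Agent.P231.H775 Vale.Agent.P231.WC Vale.Agent.P231.WF Vale.Agent.P231.S2N

/-! ### block operators -/

section Blk

variable {A B : Type} [NormedAddCommGroup A] [InnerProductSpace ℝ A] [FiniteDimensional ℝ A]
  [NormedAddCommGroup B] [InnerProductSpace ℝ B] [FiniteDimensional ℝ B]

/-- the first projection -/
def p1 (A B : Type) [NormedAddCommGroup A] [InnerProductSpace ℝ A] [NormedAddCommGroup B]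
    [InnerProductSpace ℝ B] : WithLp 2 (A × B) →L[ℝ] A :=
  ContinuousLinearMap.fst ℝ A B ∘L
    (WithLp.prodContinuousLinearEquiv 2 ℝ A B : WithLp 2 (A × B) →L[ℝ] A × B)

/-- the second projection -/
def p2 (A B : Type) [NormedAddCommGroup A] [InnerProductSpace ℝ A] [NormedAddCommGroup B]
    [InnerProductSpace ℝ B] : WithLp 2 (A × B) →L[ℝ] B :=
  ContinuousLinearMap.snd ℝ A B ∘L
    (WithLp.prodContinuousLinearEquiv 2 ℝ A B : WithLp 2 (A × B) →L[ℝ] A × B)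

/-- the first inclusion -/
def i1 (A B : Type) [NormedAddCommGroup A] [InnerProductSpace ℝ A] [NormedAddCommGroup B]
    [InnerProductSpace ℝ B] : A →L[ℝ] WithLp 2 (A × B) :=
  ((WithLp.prodContinuousLinearEquiv 2 ℝ A B).symm : A × B →L[ℝ] WithLp 2 (A × B)) ∘L
    ContinuousLinearMap.inl ℝ A B

/-- the second inclusion -/
def i2 (A B : Type) [NormedAddCommGroup A] [InnerProductSpace ℝ A] [NormedAddCommGroup B]
    [InnerProductSpace ℝ B] : B →L[ℝ] WithLp 2 (A × B) :=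
  ((WithLp.prodContinuousLinearEquiv 2 ℝ A B).symm : A × B →L[ℝ] WithLp 2 (A × B)) ∘L
    ContinuousLinearMap.inr ℝ A B

theorem p1_apply (y : WithLp 2 (A × B)) : p1 A B y = y.fst := rfl

theorem p2_apply (y : WithLp 2 (A × B)) : p2 A B y = y.snd := rfl

theorem i1_fst (a : A) : (i1 A B a).fst = a := rfl

theorem i1_snd (a : A) : (i1 A B a).snd = 0 := rfl

/-- the block operator -/
def blk2 (P : A →L[ℝ] A) (Q : B →L[ℝ] B) : WithLp 2 (A × B) →L[ℝ] WithLp 2 (A × B) :=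
  i1 A B ∘L P ∘L p1 A B + i2 A B ∘L Q ∘L p2 A B

theorem blk2_fst (P : A →L[ℝ] A) (Q : B →L[ℝ] B) (y : WithLp 2 (A × B)) :
    (blk2 P Q y).fst = P y.fst := add_zero (P y.fst)

theorem blk2_snd (P : A →L[ℝ] A) (Q : B →L[ℝ] B) (y : WithLp 2 (A × B)) :
    (blk2 P Q y).snd = Q y.snd := zero_add (Q y.snd)

theorem ext2 {y w : WithLp 2 (A × B)} (h1 : y.fst = w.fst) (h2 : y.snd = w.snd) : y = w :=
  (WithLp.equiv 2 _).injective (Prod.ext h1 h2)

theorem inner2 (y w : WithLp 2 (A × B)) :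
    (inner ℝ y w : ℝ) = inner ℝ y.fst w.fst + inner ℝ y.snd w.snd := rfl

theorem norm2 (y : WithLp 2 (A × B)) : ‖y‖ ^ 2 = ‖y.fst‖ ^ 2 + ‖y.snd‖ ^ 2 := by
  rw [← real_inner_self_eq_norm_sq, ← real_inner_self_eq_norm_sq, ← real_inner_self_eq_norm_sq]
  rfl

theorem sm_blk2 {E' : Type} [NormedAddCommGroup E'] [NormedSpace ℝ E'] [FiniteDimensional ℝ E']
    {P : E' → A →L[ℝ] A} {Q : E' → B →L[ℝ] B} {x : E'} (hP : Sm P x) (hQ : Sm Q x) :
    Sm (fun s => blk2 (P s) (Q s)) x := by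
  filter_upwards [hP, hQ] with s h1 h2
  exact (contDiffAt_const.clm_comp (h1.clm_comp contDiffAt_const)).add
    (contDiffAt_const.clm_comp (h2.clm_comp contDiffAt_const))

theorem rank_blk2 (P : A →L[ℝ] A) (Q : B →L[ℝ] B) :
    finrank ℝ (LinearMap.range (blk2 P Q : WithLp 2 (A × B) →ₗ[ℝ] WithLp 2 (A × B))) =
      finrank ℝ (LinearMap.range (P : A →ₗ[ℝ] A)) +
        finrank ℝ (LinearMap.range (Q : B →ₗ[ℝ] B)) := by
  rw [← Module.finrank_prod]
  let f : LinearMap.range (blk2 P Q : WithLp 2 (A × B) →ₗ[ℝ] WithLp 2 (A × B)) →ₗ[ℝ]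
      LinearMap.range (P : A →ₗ[ℝ] A) × LinearMap.range (Q : B →ₗ[ℝ] B) :=
    { toFun := fun y => (⟨y.1.fst, by
          obtain ⟨w, hw⟩ := y.2
          exact ⟨w.fst, (blk2_fst P Q w).symm.trans (congrArg WithLp.fst hw)⟩⟩,
        ⟨y.1.snd, by
          obtain ⟨w, hw⟩ := y.2
          exact ⟨w.snd, (blk2_snd P Q w).symm.trans (congrArg WithLp.snd hw)⟩⟩)
      map_add' := fun _ _ => rfl
      map_smul' := fun _ _ => rfl }
  refine LinearEquiv.finrank_eq (LinearEquiv.ofBijective f ⟨fun y w h => ?_, fun q => ?_⟩)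
  · exact Subtype.ext (ext2 (congrArg (fun q => q.1.1) h) (congrArg (fun q => q.2.1) h))
  · obtain ⟨⟨_, a, rfl⟩, ⟨_, b, rfl⟩⟩ := q
    refine ⟨⟨blk2 P Q (WithLp.toLp 2 (a, b)), WithLp.toLp 2 (a, b), rfl⟩, ?_⟩
    exact Prod.ext (Subtype.ext (blk2_fst P Q _)) (Subtype.ext (blk2_snd P Q _))

end Blk

variable {E : Type*} [NormedAddCommGroup E] [NormedSpace ℝ E]
  {M : Type*} [MetricSpace M] [ChartedSpace E M]
  [RiemannianBundle (fun x : M => TangentSpace 𝓘(ℝ, E) x)]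
  {e : ∀ x : M, TangentSpace 𝓘(ℝ, E) x → M}
  [FiniteDimensional ℝ E] [IsManifold 𝓘(ℝ, E) ∞ M]
  [IsContMDiffRiemannianBundle 𝓘(ℝ, E) ∞ E (fun x : M => TangentSpace 𝓘(ℝ, E) x)]
  [CompactSpace M] [ConnectedSpace M] [IsRiemannianManifold 𝓘(ℝ, E) M]

variable {D : ℝ} {ι : Type} [Fintype ι] [DecidableEq ι] {κ : Type} [Fintype κ] [DecidableEq κ]

/-- the coefficients of both levels -/
abbrev VV (ι κ : Type) [Fintype ι] [Fintype κ] : Type :=
  WithLp 2 (EuclideanSpace ℝ ι × V2 κ)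

/-! ### linear maps -/

/-- the combinations as a linear map -/
def XL (X : ι → UT E M → E) (v : UT E M) : EuclideanSpace ℝ ι →ₗ[ℝ] E where
  toFun x := XX X x v
  map_add' x y := XX_add X x y v
  map_smul' c x := XX_smul X c x v

/-- the field at time zero as a linear map -/
def YL (C S : κ → UT E M → E) (v : UT E M) : V2 κ →ₗ[ℝ] E :=
  XL C v ∘ₗ (p1 _ _ : V2 κ →L[ℝ] EuclideanSpace ℝ κ).toLinearMap +
    XL S v ∘ₗ (p2 _ _ : V2 κ →L[ℝ] EuclideanSpace ℝ κ).toLinearMap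

theorem YL_apply (C S : κ → UT E M → E) (v : UT E M) (z : V2 κ) : YL C S v z = Y2 C S z v := rfl

theorem fld_XX {X : ι → UT E M → E} (hX : ∀ i, Fld (X i)) (x : EuclideanSpace ℝ ι) :
    Fld (XX X x) :=
  Fld.sum Finset.univ (X := fun i v => x i • X i v) fun i => (hX i).const_smul (x i)

theorem fld_Y2 {C S : κ → UT E M → E} (hC : ∀ i, PF (C i)) (hS : ∀ i, PF (S i)) (z : V2 κ) :
    Fld (Y2 C S z) :=
  (fld_XX (fun i => (hC i).fld) z.fst).add (fld_XX (fun i => (hS i).fld) z.snd)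

theorem Y2_perp {C S : κ → UT E M → E} (hC : ∀ i, PF (C i)) (hS : ∀ i, PF (S i)) (z : V2 κ)
    (v : UT E M) : ip (foot v) (vec' v) (Y2 C S z v) = 0 := by
  unfold Y2
  rw [ip_add_right', XX_perp hC, XX_perp hS, add_zero]

/-- the transport from the far end is smooth -/
theorem fld_TrD (F : Facts e) (hD : 0 < D) (hB : InjGE e D) (hdiam : ∀ p q : M, dist p q ≤ D)
    {l : ℕ} (hP : ∀ x y : M, dist x y = D → finrank ℝ (H775.Pl e D x y) = l + 1)
    {X : UT E M → E} (hX : Fld X) :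
    Fld (fun v => Tr F hD hB hdiam (phi F (v, D)) (X (phi F (v, D)))) := by
  refine ⟨fun {E'} _ _ _ {u x} hu => ?_⟩
  have hu' : (dUT E M).At (fun s => phi F (u s, D)) x := map_phiD F D hu
  have h3 := at_Tr F hD hB hdiam hP hu' (hX.map hu')
  have k : ((fun v : UT E M => tb (foot v)
      (Tr F hD hB hdiam (phi F (v, D)) (X (phi F (v, D))))) ∘ u) =
      fun s => tb (gm e (phi F (u s, D), D))
        (Tr F hD hB hdiam (phi F (u s, D)) (X (phi F (u s, D)))) := by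
    funext s
    refine tb_congr ?_ rfl
    exact (congrArg foot (phi_D_D F hD hB hdiam (u s))).symm
  rw [k]
  exact h3

/-- the transport is injective on `L` -/
theorem prL_of_Tr (F : Facts e) (hD : 0 < D) (hB : InjGE e D) (hdiam : ∀ p q : M, dist p q ≤ D)
    (u : UT E M) {a : E} (h : Tr F hD hB hdiam u a = 0) : prL e D u a = 0 := by
  rw [← Tr_Tr F hD hB hdiam, h, ← TrL_apply, map_zero]

variable {F : Facts e} {hD : 0 < D} {hB : InjGE e D} {hdiam : ∀ p q : M, dist p q ≤ D}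
  {l : ℕ} {X δ : ι → UT E M → E} {ε₁ : ℝ} {r : ℕ} {W C S : κ → UT E M → E}
  {P : UT E M → V2 κ →L[ℝ] V2 κ} {ε₂ : ℝ}

/-! ### the projection -/

/-- the projection to the negative space of both levels -/
def PP (F : Facts e) (D : ℝ) (X δ : ι → UT E M → E) (ε₁ : ℝ) (P : UT E M → V2 κ →L[ℝ] V2 κ)
    (v : UT E M) : VV ι κ →L[ℝ] VV ι κ := blk2 (Pm F D X δ ε₁ v) (P v)

theorem PP_fix {v : UT E M} {y : VV ι κ} :
    PP F D X δ ε₁ P v y = y ↔ Pm F D X δ ε₁ v y.fst = y.fst ∧ P v y.snd = y.snd :=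
  ⟨fun h => ⟨(blk2_fst _ _ y).symm.trans (congrArg WithLp.fst h),
    (blk2_snd _ _ y).symm.trans (congrArg WithLp.snd h)⟩,
    fun h => ext2 ((blk2_fst _ _ y).trans h.1) ((blk2_snd _ _ y).trans h.2)⟩

/-- **the negative bundle of both levels is orientable** -/
theorem exists_ps (hP : ∀ x y : M, dist x y = D → finrank ℝ (H775.Pl e D x y) = l + 1)
    {N : ℕ} (hN : finrank ℝ E = N + 1) {op : M → (Fin (N + 1) → E) → Prop}
    (hO : OriM E M (N + 1) op) (h : Fam F hD hB hdiam l X δ ε₁)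
    (h2 : Neg F D (N + l) W C S P ε₂) {m : ℕ} (hm : m = l + l + N) :
    ∃ pos, PS (dUT E M) m (PP F D X δ ε₁ P) pos := by
  refine exists_pos F hD hB hdiam hP hN hO hm (PP F D X δ ε₁ P)
    (fun {E'} _ _ _ {u x} hu => sm_blk2 (h.sm_Pm hu) (h2.map hu)) (fun v y => ?_) (fun v y w => ?_)
    (fun v => ?_)
    (fun v => ((Lf e D v).subtype ∘ₗ ThL F hD hB hdiam X v : EuclideanSpace ℝ ι →ₗ[ℝ] E) ∘ₗ
      (p1 _ _ : VV ι κ →L[ℝ] EuclideanSpace ℝ ι).toLinearMap)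
    (fun v => YL C S v ∘ₗ (p2 _ _ : VV ι κ →L[ℝ] V2 κ).toLinearMap)
    (fun v => TrL F hD hB hdiam (phi F (v, D)) ∘ₗ YL C S (phi F (v, D)) ∘ₗ
      (Rt D D ∘L p2 _ _ : VV ι κ →L[ℝ] V2 κ).toLinearMap)
    (fun y => fld_Th0 F hD hB hdiam hP (fld_XX (fun i => (h.df i).fld) y.fst))
    (fun y => fld_Y2 h2.af.pC h2.af.pS y.snd)
    (fun y => fld_TrD F hD hB hdiam hP (fld_Y2 h2.af.pC h2.af.pS (Rt D D y.snd)))
    (fun v y => Th0_mem F hD hB hdiam _ v) (fun v y => ?_)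
    (fun v y => Y2_perp h2.af.pC h2.af.pS y.snd v) (fun v y hy k1 k2 k3 => ?_)
  · refine PP_fix.2 ⟨?_, ?_⟩
    · rw [PP, blk2_fst, h.Pm_Pm]
    · rw [PP, blk2_snd, h2.idem]
  · rw [inner2 _ w, inner2 y, PP, blk2_fst, blk2_snd, blk2_fst, blk2_snd, h.Pm_symm, h2.symm]
  · rw [PP, rank_blk2, h.finrank_range, h2.rank, hm]
    ring
  · have k := Tr_mem F hD hB hdiam (phi F (v, D)) (Y2 C S (Rt D D y.snd) (phi F (v, D)))
    rw [phi_D_D F hD hB hdiam] at k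
    exact k
  · obtain ⟨y1, y2⟩ := PP_fix.1 hy
    have z1 : y.fst = 0 := h.inj hP v y1 k1
    have j1 : ln F D C S v y.snd 0 = 0 := by
      unfold ln
      rw [Rt_zero, phi_zero]
      exact k2
    have j2 : prL e D (phi F (v, D)) (ln F D C S v y.snd D) = 0 :=
      prL_of_Tr F hD hB hdiam _ k3
    have j3 := (h2.neg v _ y2).trans (h2.af.dir v _ j1 j2)
    have j4 : ‖y.snd‖ ^ 2 ≤ 0 := by
      by_contra hc
      linarith [mul_pos h2.pos (not_le.1 hc)]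
    have z2 : y.snd = 0 := norm_eq_zero.1 (pow_eq_zero_iff two_ne_zero |>.1
      (le_antisymm j4 (sq_nonneg _)))
    exact ext2 z1 z2

/-! ### the flow -/

/-- the rotation of the coefficients of the second level -/
def RB (ι κ : Type) [Fintype ι] [Fintype κ] (D t : ℝ) : VV ι κ →L[ℝ] VV ι κ :=
  blk2 (ContinuousLinearMap.id ℝ (EuclideanSpace ℝ ι)) (Rt D t)

theorem sm_RB {E' : Type} [NormedAddCommGroup E'] [NormedSpace ℝ E'] [FiniteDimensional ℝ E']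
    {t : E' → ℝ} {y : E' → VV ι κ} {x : E'} (ht : Sm t x) (hy : Sm y x) :
    Sm (fun s => RB ι κ D (t s) (y s)) x := by
  have h3 : Sm (fun s => (Rt D (t s) : V2 κ →L[ℝ] V2 κ)) x :=
    Sm.comp (f := fun t => (Rt D t : V2 κ →L[ℝ] V2 κ)) (Sm.of_contDiff (contDiff_Rt D) _) ht
  have h4 : Sm (fun s => RB ι κ D (t s)) x :=
    sm_blk2 (P := fun _ => ContinuousLinearMap.id ℝ (EuclideanSpace ℝ ι))
      (Sm.of_contDiff contDiff_const x) h3
  filter_upwards [h4, hy] with s g1 g2 using g1.clm_apply g2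

/-- the flow on the bundle -/
def ψS (F : Facts e) (D : ℝ) (q : (UT E M × VV ι κ) × ℝ) : UT E M × VV ι κ :=
  (phi F (q.1.1, 2 * q.2), RB ι κ D (2 * q.2) q.1.2)

theorem ψS_fst (s : UT E M × VV ι κ) (t : ℝ) : (ψS F D (s, t)).2.fst = s.2.fst := blk2_fst _ _ _

theorem ψS_snd (s : UT E M × VV ι κ) (t : ℝ) :
    (ψS F D (s, t)).2.snd = Rt D (2 * t) s.2.snd := blk2_snd _ _ _

theorem ψS_mem (hD : 0 < D) (hB : InjGE e D) (hdiam : ∀ p q : M, dist p q ≤ D)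
    (h2 : Neg F D r W C S P ε₂) {s : UT E M × VV ι κ} (hs : s ∈ sS (PP F D X δ ε₁ P)) (t : ℝ) :
    ψS F D (s, t) ∈ sS (PP F D X δ ε₁ P) := by
  obtain ⟨k1, k2⟩ := PP_fix.1 hs.1
  refine ⟨PP_fix.2 ⟨?_, ?_⟩, ?_⟩
  · rw [ψS_fst]
    change Pm F D X δ ε₁ (phi F (s.1, 2 * t)) s.2.fst = s.2.fst
    rw [Fam.Pm_phi F hD hB hdiam, k1]
  · rw [ψS_snd]
    change P (phi F (s.1, 2 * t)) (Rt D (2 * t) s.2.snd) = Rt D (2 * t) s.2.snd
    rw [h2.flow, k2]
  · have k3 : ‖(ψS F D (s, t)).2‖ ^ 2 = ‖s.2‖ ^ 2 := by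
      rw [norm2 s.2, norm2 (ψS F D (s, t)).2, ψS_fst, ψS_snd, norm_Rt]
    rw [hs.2] at k3
    exact (sq_eq_sq₀ (norm_nonneg _) zero_le_one).1 k3

theorem map_ψS (F : Facts e) (D : ℝ) :
    (((dUT E M).prod (Dif.lin (VV ι κ))).prod (Dif.lin ℝ)).Map
      ((dUT E M).prod (Dif.lin (VV ι κ))) (ψS F D) := by
  intro E' _ _ _ u x hu
  have h1 : Sm (fun s => (u s).2) x := hu.2
  have h2 : Sm (fun s => 2 * (u s).2) x := by
    filter_upwards [h1] with s hs using contDiffAt_const.mul hs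
  have h5 : Sm (fun s => (u s).1.2) x := hu.1.2
  have h6 : (dUT E M).At (fun s => phi F ((u s).1.1, 2 * (u s).2)) x :=
    map_phi F (u := fun s => ((u s).1.1, 2 * (u s).2)) ⟨hu.1.1, h2⟩
  exact ⟨h6, sm_RB h2 h5⟩

theorem ψS_zero (s : UT E M × VV ι κ) : ψS F D (s, 0) = s := by
  refine Prod.ext ?_ (ext2 (ψS_fst s 0) ?_)
  · change phi F (s.1, 2 * 0) = s.1
    rw [mul_zero, phi_zero]
  · rw [ψS_snd, mul_zero, Rt_zero]

theorem ψS_add (s : UT E M × VV ι κ) (a b : ℝ) : ψS F D (ψS F D (s, a), b) = ψS F D (s, a + b) := by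
  refine Prod.ext ?_ (ext2 ?_ ?_)
  · change phi F (phi F (s.1, 2 * a), 2 * b) = phi F (s.1, 2 * (a + b))
    rw [phi_add, mul_add]
  · rw [ψS_fst, ψS_fst, ψS_fst]
  · rw [ψS_snd, ψS_snd, ψS_snd, Rt_add, mul_add]

theorem ψS_per (hD : 0 < D) (hB : InjGE e D) (hdiam : ∀ p q : M, dist p q ≤ D)
    (s : UT E M × VV ι κ) : ψS F D (s, 2 * D) = s := by
  refine Prod.ext ?_ (ext2 (ψS_fst s _) ?_)
  · change phi F (s.1, 2 * (2 * D)) = s.1
    rw [two_mul (2 * D), phi_add_per F hD hB hdiam, W.phi_per F hD hB hdiam]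
  · rw [ψS_snd, two_mul (2 * D), Rt_anti hD, Rt_two hD, neg_neg]

theorem isFlow_ψS (hD : 0 < D) (hB : InjGE e D) (hdiam : ∀ p q : M, dist p q ≤ D)
    (h2 : Neg F D r W C S P ε₂) :
    IsFlow (dS (dUT E M) (PP F D X δ ε₁ P)) (2 * D) (ψS F D) where
  map := fun {E'} _ _ _ {u x} hu => ⟨map_ψS F D (u := u) ⟨hu.1.1, hu.2⟩,
    hu.1.2.mono fun s hs => ψS_mem hD hB hdiam h2 hs (u s).2⟩
  zero := ψS_zero
  add := ψS_add
  per := ψS_per hD hB hdiam

theorem ngS_ψS (s : UT E M × VV ι κ) (t : ℝ) : ngS (ψS F D (s, t)) = ψS F D (ngS s, t) :=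
  Prod.ext rfl (map_neg (RB ι κ D (2 * t)) s.2).symm

/-! ### the inclusion of the first level -/

/-- the inclusion of the space of pairs -/
def jS (F : Facts e) (hD : 0 < D) (hB : InjGE e D) (hdiam : ∀ p q : M, dist p q ≤ D)
    (X δ : ι → UT E M → E) (ε₁ : ℝ) (κ : Type) [Fintype κ] (b : Pr e D) : UT E M × VV ι κ :=
  (b.v, i1 _ _ (ah F hD hB hdiam X δ ε₁ b))

theorem map_jS (hP : ∀ x y : M, dist x y = D → finrank ℝ (H775.Pl e D x y) = l + 1)
    (h : Fam F hD hB hdiam l X δ ε₁) (P : UT E M → V2 κ →L[ℝ] V2 κ) :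
    (dPr e D).Map (dS (dUT E M) (PP F D X δ ε₁ P)) (jS F hD hB hdiam X δ ε₁ κ) := by
  refine Dif.Map.to_on (O' := sS (PP F D X δ ε₁ P)) (fun {E'} _ _ _ {u x} hu => ?_)
    (fun b => And.intro (PP_fix.2 ⟨?_, ?_⟩) ?_)
  · have h1 : (dUT E M).At (fun s => (u s).v) x := map_v hu
    have h2 : Sm (fun s => ab F hD hB hdiam X δ ε₁ (u s)) x := h.sm_am hP h1 (at_w hu)
    refine ⟨h1, ?_⟩
    change Sm (fun s => i1 _ (V2 κ) (ah F hD hB hdiam X δ ε₁ (u s))) x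
    filter_upwards [h2] with s hs
    have k := ab_ne hP h (u s)
    exact contDiffAt_const.clm_apply (((hs.norm ℝ k).inv (norm_ne_zero_iff.2 k)).smul hs)
  · exact Pm_ah hP h b
  · exact map_zero (P b.v)
  · have k : ‖(jS F hD hB hdiam X δ ε₁ κ b).2‖ ^ 2 = 1 ^ 2 := by
      rw [norm2]
      change ‖ah F hD hB hdiam X δ ε₁ b‖ ^ 2 + ‖(0 : V2 κ)‖ ^ 2 = 1 ^ 2
      rw [norm_ah hP h, norm_zero]
      norm_num
    exact (sq_eq_sq₀ (norm_nonneg _) zero_le_one).1 k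

theorem jS_Lam (hP : ∀ x y : M, dist x y = D → finrank ℝ (H775.Pl e D x y) = l + 1)
    (h : Fam F hD hB hdiam l X δ ε₁) (b : Pr e D) (t : ℝ) :
    jS F hD hB hdiam X δ ε₁ κ (Lam hP h (b, 2 * t)) =
      ψS F D (jS F hD hB hdiam X δ ε₁ κ b, t) := by
  refine Prod.ext rfl (ext2 ?_ ?_)
  · rw [ψS_fst]
    exact ah_Lam hP h b _
  · rw [ψS_snd]
    exact (map_zero (Rt D (2 * t) : V2 κ →L[ℝ] V2 κ)).symm

theorem ngS_jS (b : Pr e D) : ngS (jS F hD hB hdiam X δ ε₁ κ b) =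
    jS F hD hB hdiam X δ ε₁ κ (H766.ngP F hD hB hdiam b) := by
  have h1 : ab F hD hB hdiam X δ ε₁ (H766.ngP F hD hB hdiam b) = -ab F hD hB hdiam X δ ε₁ b := by
    have k := am_smul F hD hB hdiam X δ ε₁ b.v (-1) (vec' b.w)
    rw [neg_smul, neg_smul, one_smul, one_smul] at k
    exact k
  refine Prod.ext rfl ?_
  change -i1 _ (V2 κ) (ah F hD hB hdiam X δ ε₁ b) =
    i1 _ (V2 κ) (ah F hD hB hdiam X δ ε₁ (H766.ngP F hD hB hdiam b))
  unfold ah
  rw [h1, norm_neg, smul_neg, map_neg]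

/-! ### the push-off -/

/-- the pushed point -/
def fP (e : ∀ x : M, TangentSpace 𝓘(ℝ, E) x → M) (X : ι → UT E M → E) (C S : κ → UT E M → E)
    (ε : ℝ) (s : UT E M × VV ι κ) : M :=
  e (foot s.1) (ε • (XX X s.2.fst s.1 + Y2 C S s.2.snd s.1) : E)

theorem map_fP (F : Facts e) (hX : ∀ i, Fld (X i)) (hC : ∀ i, PF (C i)) (hS : ∀ i, PF (S i))
    (ε : ℝ) : ((dUT E M).prod (Dif.lin (VV ι κ))).Map (dM E M) (fP e X C S ε) := by
  intro E' _ _ _ u x hu
  have h1 : (dUT E M).At (fun s => (u s).1) x := hu.1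
  have h2 : Sm (fun s => (u s).2) x := hu.2
  have a1 : Sm (fun s => (u s).2.fst) x := by
    filter_upwards [h2] with s hs using (p1 _ _).contDiff.contDiffAt.comp s hs
  have a2 : Sm (fun s => (u s).2.snd) x := by
    filter_upwards [h2] with s hs using (p2 _ _).contDiff.contDiffAt.comp s hs
  have a3 : Sm (fun s => (u s).2.snd.fst) x := by
    filter_upwards [a2] with s hs using (p1 _ _).contDiff.contDiffAt.comp s hs
  have a4 : Sm (fun s => (u s).2.snd.snd) x := by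
    filter_upwards [a2] with s hs using (p2 _ _).contDiff.contDiffAt.comp s hs
  have h3 := at_smul (Sm.of_contDiff (contDiff_const (c := ε)) x) (at_add (at_XX hX h1 a1)
    (at_add (at_XX (fun i => (hC i).fld) h1 a3) (at_XX (fun i => (hS i).fld) h1 a4)))
  rw [at_tb] at h3
  change ∀ᶠ s in 𝓝 x, ContMDiffAt _ _ _ _ _
  filter_upwards [h3] with s hs
  exact hs.exp F.isExp

/-- the pushed loop -/
def fL (F : Facts e) (hD : 0 < D) (hB : InjGE e D) (hdiam : ∀ p q : M, dist p q ≤ D)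
    (X : ι → UT E M → E) (C S : κ → UT E M → E) (ε : ℝ) (s : UT E M × VV ι κ) : Loop.X M :=
  ⟨fun τ => fP e X C S ε (ψS F D (s, 2 * D * τ)), fun τ => by
    change fP e X C S ε (ψS F D (s, 2 * D * (τ + 1))) = fP e X C S ε (ψS F D (s, 2 * D * τ))
    rw [mul_add, mul_one, ← ψS_add, ψS_per hD hB hdiam]⟩

theorem fL_apply (ε : ℝ) (s : UT E M × VV ι κ) (τ : ℝ) :
    (fL F hD hB hdiam X C S ε s).1 τ = e (gm e (s.1, 4 * D * τ))
      (ε • (XX X s.2.fst (phi F (s.1, 4 * D * τ)) + ln F D C S s.1 s.2.snd (4 * D * τ)) : E) := by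
  have k : 4 * D * τ = 2 * (2 * D * τ) := by ring
  change fP e X C S ε (ψS F D (s, 2 * D * τ)) = _
  unfold fP
  rw [ψS_fst, ψS_snd, k]
  rfl

theorem fL_ψS (ε : ℝ) (s : UT E M × VV ι κ) (t : ℝ) :
    fL F hD hB hdiam X C S ε (ψS F D (s, t)) = Loop.Φ D (fL F hD hB hdiam X C S ε s, t) := by
  refine Loop.X.ext fun τ => ?_
  change fP e X C S ε (ψS F D (ψS F D (s, t), 2 * D * τ)) =
    fP e X C S ε (ψS F D (s, 2 * D * (τ + t / (2 * D))))
  have k : t + 2 * D * τ = 2 * D * (τ + t / (2 * D)) := by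
    field_simp
    ring
  rw [ψS_add, k]

theorem fL_jS (hP : ∀ x y : M, dist x y = D → finrank ℝ (H775.Pl e D x y) = l + 1)
    (h : Fam F hD hB hdiam l X δ ε₁) (ε : ℝ) (b : Pr e D) (τ : ℝ) :
    (fL F hD hB hdiam X C S ε (jS F hD hB hdiam X δ ε₁ κ b)).1 τ =
      H766.poP e (Yb F hD hB hdiam X δ ε₁) ε (Lam hP h (b, 4 * D * τ)) := by
  rw [fL_apply]
  unfold H766.poP
  rw [Yb_Lam hP h]
  have k : ln F D C S b.v (0 : V2 κ) (4 * D * τ) = 0 := by
    unfold ln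
    rw [map_zero, ← YL_apply, map_zero]
  change e (gm e (b.v, 4 * D * τ)) (ε • (XX X (ah F hD hB hdiam X δ ε₁ b)
    (phi F (b.v, 4 * D * τ)) + ln F D C S b.v (0 : V2 κ) (4 * D * τ)) : E) = _
  rw [k, add_zero]
  rfl

theorem map_fL (h : Fam F hD hB hdiam l X δ ε₁) (h2 : Neg F D r W C S P ε₂) {ε : ℝ}
    (hε : ∀ (v : UT E M) (x : EuclideanSpace ℝ ι) (z : V2 κ),
      Pm F D X δ ε₁ v x = x → P v z = z → ‖x‖ ^ 2 + ‖z‖ ^ 2 = 1 →
      eVariationOn (fun t => e (gm e (v, t))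
        (ε • (XX X x (phi F (v, t)) + ln F D C S v z t) : E)) (Icc 0 (4 * D)) <
        ENNReal.ofReal (4 * D)) :
    (dS (dUT E M) (PP F D X δ ε₁ P)).Map (Loop.dX (dM E M) D) (fL F hD hB hdiam X C S ε) := by
  refine Loop.map_to' (fun {E'} _ _ _ {u x} hu => ?_) (fun {E'} _ _ _ {u x} hu => ?_)
  · have h1 : Sm (fun s => (u s).2) x := hu.2
    have h3 : Sm (fun s => 2 * D * (u s).2) x := by
      filter_upwards [h1] with s hs using contDiffAt_const.mul hs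
    exact map_fP F (fun i => (h.df i).fld) h2.af.pC h2.af.pS ε
      (map_ψS F D (u := fun s => ((u s).1, 2 * D * (u s).2)) ⟨hu.1.1, h3⟩)
  · have hs : u x ∈ sS (PP F D X δ ε₁ P) := hu.2.self_of_nhds
    obtain ⟨k1, k2⟩ := PP_fix.1 hs.1
    have k3 := hε (u x).1 (u x).2.fst (u x).2.snd k1 k2 (by rw [← norm2, hs.2, one_pow])
    rw [← var_scale _ (by positivity : 0 < 4 * D)] at k3
    have k4 : (fL F hD hB hdiam X C S ε (u x)).1 = _ := funext (fL_apply ε (u x))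
    unfold Loop.len
    rw [k4]
    exact k3

/-- **the record of the second level** -/
theorem nonempty_sg0 (hP : ∀ x y : M, dist x y = D → finrank ℝ (H775.Pl e D x y) = l + 1)
    (h : Fam F hD hB hdiam l X δ ε₁) (h2 : Neg F D r W C S P ε₂)
    {pos : UT E M → (Fin 29 → VV ι κ) → Prop} (hps : PS (dUT E M) 29 (PP F D X δ ε₁ P) pos)
    {ε : ℝ} (hε : ∀ (v : UT E M) (x : EuclideanSpace ℝ ι) (z : V2 κ),
      Pm F D X δ ε₁ v x = x → P v z = z → ‖x‖ ^ 2 + ‖z‖ ^ 2 = 1 →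
      eVariationOn (fun t => e (gm e (v, t))
        (ε • (XX X x (phi F (v, t)) + ln F D C S v z t) : E)) (Icc 0 (4 * D)) <
        ENNReal.ofReal (4 * D)) (c : Pr e D → Loop.X M)
    (hc : ∀ b t, (c b).1 t = H766.poP e (Yb F hD hB hdiam X δ ε₁) ε (Lam hP h (b, 4 * D * t))) :
    Nonempty (Asm.Sg0 (dPr e D) (dUT E M) (Loop.dX (dM E M) D) D (phi F) (Lam hP h) Pr.v
      (H766.ngP F hD hB hdiam) (Loop.Φ D) c (dS (dUT E M) (PP F D X δ ε₁ P))
      (dF (dUT E M) (PP F D X δ ε₁ P) pos)) :=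
  ⟨{ ψ := ψS F D
     p := Prod.fst
     q := Prod.fst
     ev := evF
     A := ngS
     j := jS F hD hB hdiam X δ ε₁ κ
     fX := fL F hD hB hdiam X C S ε
     k1 := fun q => fL F hD hB hdiam X C S ε (jS F hD hB hdiam X δ ε₁ κ q.1)
     bun := hps.bun
     hψ := isFlow_ψS hD hB hdiam h2
     p_ψ := fun _ _ => rfl
     hA := map_ngS
     A_ev := fun {E'} _ _ _ {u x} _ => ngS_evF (u x).1 (u x).2
     A_ψ := ngS_ψS
     p_A := fun _ => rfl
     hj := map_jS hP h P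
     j_φ := jS_Lam hP h
     p_j := fun _ => rfl
     A_j := ngS_jS
     hfX := map_fL h h2 hε
     fX_ψ := fL_ψS ε
     hk1 := fun {E'} _ _ _ {u x} hu => map_fL h h2 hε (map_jS hP h P hu.1)
     k1_φ := fun b s t => by
       change fL F hD hB hdiam X C S ε (jS F hD hB hdiam X δ ε₁ κ (Lam hP h (b, 2 * t))) = _
       rw [jS_Lam hP h, fL_ψS]
     k10 := fun _ => rfl
     k11 := fun b => Loop.X.ext fun τ => (fL_jS hP h ε b τ).trans (hc b τ).symm }⟩

end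

end Vale.Agent.P231Z.N2
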