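import Vale.Agent.P231Z.N2.Rec
import Vale.Agent.P231Z.N2.Push

/-!
# P231 (A), SIG: the record of the second level from the negative bundle
-/

set_option maxSynthPendingDepth 3
set_option linter.unusedSectionVars false
set_option linter.unusedVariables false

open Bundle Manifold Set Filter Module MeasureTheory
open scoped ContDiff Manifold Topology ENNReal

namespace Vale.Agent.P231Z.N2

noncomputable section

open Vale.Agent.P234 Vale.Agent.P231 Vale.Agent.P231.Fm Vale.Agent.P231.W Vale.Agent.P231.WR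
open Vale.Agent.P231.H775 Vale.Agent.P231.WC Vale.Agent.P231.WF Vale.Agent.P231.S2N

universe u w

variable {E : Type w} [NormedAddCommGroup E] [NormedSpace ℝ E]
  {M : Type u} [MetricSpace M] [ChartedSpace E M]
  [RiemannianBundle (fun x : M => TangentSpace 𝓘(ℝ, E) x)]
  {e : ∀ x : M, TangentSpace 𝓘(ℝ, E) x → M}
  [FiniteDimensional ℝ E] [IsManifold 𝓘(ℝ, E) ∞ M]
  [IsContMDiffRiemannianBundle 𝓘(ℝ, E) ∞ E (fun x : M => TangentSpace 𝓘(ℝ, E) x)]
  [CompactSpace M] [ConnectedSpace M] [IsRiemannianManifold 𝓘(ℝ, E) M]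

variable {D : ℝ} {ι : Type} [Fintype ι] [DecidableEq ι] {κ : Type} [Fintype κ] [DecidableEq κ]
  {F : Facts e} {hD : 0 < D} {hB : InjGE e D} {hdiam : ∀ p q : M, dist p q ≤ D}
  {X δ : ι → UT E M → E} {ε₁ : ℝ} {W C S : κ → UT E M → E}
  {P : UT E M → V2 κ →L[ℝ] V2 κ} {ε₂ : ℝ}

/-- the record of the second level, given the orientation and the negative bundle -/
theorem exists_sg0_of
    (hl : ∀ x y : M, dist x y = D → finrank ℝ (H775.Pl e D x y) = 2 * 3 + 1 + 1)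
    (hN : finrank ℝ E = 15 + 1) {op : M → (Fin (15 + 1) → E) → Prop}
    (hO : OriM E M (15 + 1) op) (h : Fam F hD hB hdiam (2 * 3 + 1) X δ ε₁)
    (h2 : Neg F D (15 + (2 * 3 + 1)) W C S P ε₂) :
    ∃ ε₀ : ℝ, 0 < ε₀ ∧ ∀ ε ∈ Ioc 0 ε₀, ∀ c : Pr e D → Loop.X M,
      (∀ b t, (c b).1 t = H766.poP e (Yb F hD hB hdiam X δ ε₁) ε (Lam hl h (b, 4 * D * t))) →
      ∃ (Sg Fr : Type (max u w)) (dS : Dif Sg) (dF : Dif Fr),
        Nonempty (Asm.Sg0 (dPr e D) (dUT E M) (Loop.dX (dM E M) D) D (phi F) (Lam hl h) Pr.v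
          (H766.ngP F hD hB hdiam) (Loop.Φ D) c dS dF) := by
  obtain ⟨pos, hps⟩ := exists_ps hl hN hO h h2 (m := 29) (by norm_num)
  obtain ⟨ε₀, h0, h1⟩ := exists_eps h h2
  exact ⟨ε₀, h0, fun ε hε c hc => ⟨_, _, _, _, nonempty_sg0 hl h h2 hps (h1 ε hε) c hc⟩⟩

end

end Vale.Agent.P231Z.N2
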