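import Vale.Agent.P231Z.N2.Gr

/-!
# P231 (A), level two: the variations of the energy on an arbitrary interval, the index form on
the doubled geodesic, and its sign on the kernel of the boundary operator
-/

set_option maxSynthPendingDepth 3
set_option linter.unusedSectionVars false
set_option linter.unusedVariables false

open Bundle Manifold Set Filter Module MeasureTheory
open scoped ContDiff Manifold Topology ENNReal

namespace Vale.Agent.P231Z.N2

noncomputable section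

open Vale.Agent.P234 Vale.Agent.P231 Vale.Agent.P231.Fm Vale.Agent.P231.W Vale.Agent.P231.WR
open Vale.Agent.P231.H775 Vale.Agent.P231.WC Vale.Agent.P231.WF Vale.Agent.P231.S2N

variable {E : Type*} [NormedAddCommGroup E] [NormedSpace ℝ E]
  {M : Type*} [MetricSpace M] [ChartedSpace E M]
  [RiemannianBundle (fun x : M => TangentSpace 𝓘(ℝ, E) x)]
  {e : ∀ x : M, TangentSpace 𝓘(ℝ, E) x → M}
  [FiniteDimensional ℝ E] [IsManifold 𝓘(ℝ, E) ∞ M]
  [IsContMDiffRiemannianBundle 𝓘(ℝ, E) ∞ E (fun x : M => TangentSpace 𝓘(ℝ, E) x)]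
  [CompactSpace M] [ConnectedSpace M] [IsRiemannianManifold 𝓘(ℝ, E) M]

variable {D : ℝ}

section Single

variable {v : UT E M} {Z : ℝ → E}

/-- the first variation of the energy on `[0, 2 D']` -/
theorem deriv_enZ' (F : Facts e) (hD : 0 < D) (hB : InjGE e D) {D' : ℝ}
    (hZ : ∀ t, FA e v Z t)
    (hm : ∀ a, mx2 (E := E) (po2 e v Z) (a, 2 * D') = mx2 (E := E) (po2 e v Z) (a, 0)) :
    deriv (enZ e D' v Z) 0 = 0 := by
  have h0 := congrFun (deriv_int_d1 (cd_sq2 F hZ) 0 (2 * D')) 0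
  have h1 : ∀ t, d1 (sq2 (E := E) (po2 e v Z)) (0, t) =
      2 * d2 (mx2 (E := E) (po2 e v Z)) (0, t) := by
    intro t
    have h2 := first_field F hD hB (phi F (v, t)) (X := fun s => Z (t + s)) (fa_shift F hZ t 0)
    rw [sq2_shift F hZ, mx2_shift F hZ, d1_shift, d2_shift] at h2
    beta_reduce at h2
    have h3 : ((0, t) + (0, 0) : ℝ × ℝ) = (0, t) := by simp
    rw [h3] at h2
    linarith
  have h4 : deriv (enZ e D' v Z) 0 =
      ∫ t in (0 : ℝ)..(2 * D'), d1 (sq2 (E := E) (po2 e v Z)) (0, t) := h0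
  rw [h4]
  simp only [h1]
  rw [intervalIntegral.integral_const_mul, int_d2 (cd_mx2 F hZ) (hm 0), mul_zero]

/-- the second variation of the energy on `[0, 2 D']` -/
theorem deriv2_enZ' (F : Facts e) (hD : 0 < D) (hB : InjGE e D) {D' : ℝ}
    (hZ : ∀ t, FA e v Z t)
    (hm : ∀ a, mx2 (E := E) (po2 e v Z) (a, 2 * D') = mx2 (E := E) (po2 e v Z) (a, 0))
    {δ : ℝ → E}
    (hδ : ∀ t, JE e (foot (phi F (v, t))) (phi F (v, t)) (fun s => Z (t + s)) (δ t))
    (hc : Continuous fun t => ip (gm e (v, t)) (δ t) (Z t)) :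
    (1 / 2 : ℝ) * deriv (deriv (enZ e D' v Z)) 0 =
      -∫ t in (0 : ℝ)..(2 * D'), ip (gm e (v, t)) (δ t) (Z t) := by
  have hs := cd_sq2 F hZ
  have hmx := cd_mx2 F hZ
  have h0 : deriv (enZ e D' v Z) = fun s =>
      ∫ t in (0 : ℝ)..(2 * D'), d1 (sq2 (E := E) (po2 e v Z)) (s, t) := deriv_int_d1 hs 0 (2 * D')
  have h0' : deriv (deriv (enZ e D' v Z)) 0 =
      ∫ t in (0 : ℝ)..(2 * D'), d1 (d1 (sq2 (E := E) (po2 e v Z))) (0, t) := by
    rw [h0]
    exact congrFun (deriv_int_d1 (contDiff_d1' hs) 0 (2 * D')) 0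
  have h1 : ∀ t, d1 (d1 (sq2 (E := E) (po2 e v Z))) (0, t) =
      2 * d2 (d1 (mx2 (E := E) (po2 e v Z))) (0, t) - 2 * ip (gm e (v, t)) (δ t) (Z t) := by
    intro t
    have h2 := second_field F hD hB (foot (phi F (v, t))) (phi F (v, t))
      (mem_extChartAt_source _) (X := fun s => Z (t + s)) (fa_shift F hZ t 0) (hδ t)
    rw [sq2_shift F hZ, mx2_shift F hZ, d1_shift, d1_shift, d1_shift, d2_shift] at h2
    beta_reduce at h2
    have h3 : ((0, t) + (0, 0) : ℝ × ℝ) = (0, t) := by simp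
    rw [h3] at h2
    have h4 : ip (foot (phi F (v, t))) (δ t) (Z (t + 0)) = ip (gm e (v, t)) (δ t) (Z t) := by
      change ip (gm e (v, t)) (δ t) (Z (t + 0)) = _
      rw [add_zero]
    rw [h4] at h2
    linarith
  have hper3 : d1 (mx2 (E := E) (po2 e v Z)) (0, 2 * D') =
      d1 (mx2 (E := E) (po2 e v Z)) (0, 0) := by
    rw [← deriv_d1 hmx, ← deriv_d1 hmx]
    exact congrArg (fun f => deriv f 0) (funext hm)
  have c1 : Continuous fun t => d2 (d1 (mx2 (E := E) (po2 e v Z))) (0, t) :=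
    (contDiff_d2' (contDiff_d1' hmx)).continuous.comp (continuous_const.prodMk continuous_id)
  rw [h0']
  simp only [h1]
  rw [intervalIntegral.integral_sub ((c1.const_mul 2).intervalIntegrable _ _)
    ((hc.const_mul 2).intervalIntegrable _ _), intervalIntegral.integral_const_mul,
    intervalIntegral.integral_const_mul, int_d2 (contDiff_d1' hmx) hper3]
  ring

theorem po2_per' {T : ℝ} (hg : ∀ t, gm e (v, t + T) = gm e (v, t))
    (hper : ∀ t, Z (t + T) = Z t) (a t : ℝ) : po2 e v Z (a, t + T) = po2 e v Z (a, t) := by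
  unfold po2
  have h3 : ∀ (x y : M) (a b : E), x = y → a = b → e x a = e y b := by
    rintro x y a b rfl rfl
    rfl
  exact h3 _ _ _ _ (hg t) (congrArg (fun b : E => a • b) (hper t))

theorem mx2_per' (F : Facts e) {T : ℝ} (hg : ∀ t, gm e (v, t + T) = gm e (v, t))
    (hZ : ∀ t, FA e v Z t) (hper : ∀ t, Z (t + T) = Z t) (a : ℝ) :
    mx2 (E := E) (po2 e v Z) (a, T) = mx2 (E := E) (po2 e v Z) (a, 0) := by
  have hp : ∀ a t, po2 e v Z (a, t + T) = po2 e v Z (a, t) := po2_per' hg hper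
  have h1 : po2 e v Z (a, T) = po2 e v Z (a, 0) := by
    have h := hp a 0
    rwa [zero_add] at h
  have h2 : (WC.vl (fun t => po2 e v Z (a, t)) T : E) = WC.vl (fun t => po2 e v Z (a, t)) 0 := by
    have k := vl_shift' (g := fun t => po2 e v Z (a, t)) (fun s => cm_line2 F hZ _ s) T 0
    rw [add_zero] at k
    rw [← k]
    refine congrArg (fun f : ℝ → M => (WC.vl f 0 : E)) ?_
    funext s
    rw [add_comm]
    exact hp a s
  have h3 : (WC.vl (fun s => po2 e v Z (s, T)) a : E) = WC.vl (fun s => po2 e v Z (s, 0)) a := by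
    refine congrArg (fun f : ℝ → M => (WC.vl f a : E)) ?_
    funext s
    have h := hp s 0
    rwa [zero_add] at h
  unfold mx2
  exact ip_congr3' (E := E) h1 h2 h3

theorem po2_of_zero (F : Facts e) {t : ℝ} (h0 : Z t = 0) (a : ℝ) :
    po2 e v Z (a, t) = gm e (v, t) := by
  have k : po2 e v Z (a, t) = e (gm e (v, t)) (a • Z t : E) := rfl
  refine k.trans ?_
  rw [h0, smul_zero]
  exact F.isExp.map_zero _

theorem mx2_of_zero (F : Facts e) {t : ℝ} (h0 : Z t = 0) (a : ℝ) :
    mx2 (E := E) (po2 e v Z) (a, t) = 0 := by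
  have h1 : (fun s => po2 e v Z (s, t)) = fun _ => gm e (v, t) := funext (po2_of_zero F h0)
  have h2 : (WC.vl (fun s => po2 e v Z (s, t)) a : E) = 0 := by
    rw [h1]
    unfold WC.vl
    rw [mfderiv_const]
    rfl
  have h3 : mx2 (E := E) (po2 e v Z) (a, t) = ip (po2 e v Z (a, t))
      (WC.vl (fun s => po2 e v Z (a, s)) t : E) (WC.vl (fun s => po2 e v Z (s, t)) a : E) := rfl
  rw [h3, h2]
  exact inner_zero_right (E := TangentSpace 𝓘(ℝ, E) (po2 e v Z (a, t))) (𝕜 := ℝ) _

/-- if the field vanishes at the times `0`, `D`, `2 D`, the second variation is nonnegative -/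
theorem deriv2_enZ_nonneg' (F : Facts e) (hD : 0 < D) (hB : InjGE e D)
    (hdiam : ∀ p q : M, dist p q ≤ D) (hZ : ∀ t, FA e v Z t)
    (h0 : Z 0 = 0) (h1 : Z D = 0) (h2D : Z (2 * D) = 0) :
    0 ≤ deriv (deriv (enZ e D v Z)) 0 := by
  by_contra hneg
  push Not at hneg
  have hcd : ContDiff ℝ ∞ (enZ e D v Z) := contDiff_enZ F hZ
  have hcd1 : ContDiff ℝ ∞ (deriv (enZ e D v Z)) := (contDiff_infty_iff_deriv.1 hcd).2
  have hc2 : Continuous (deriv (deriv (enZ e D v Z))) := hcd1.continuous_deriv (by simp)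
  obtain ⟨δ, hδ, hδ'⟩ := Metric.eventually_nhds_iff.1
    (hc2.continuousAt.eventually (gt_mem_nhds hneg))
  have h2 : enZ e D v Z (δ / 2) < enZ e D v Z 0 :=
    H766.lt_of_concave hcd (deriv_enZ' F hD hB hZ fun a => by
        rw [mx2_of_zero F h2D, mx2_of_zero F h0]) (δ := δ)
      (fun r hr => hδ' (by rw [Real.dist_eq, sub_zero]; exact hr)) (by positivity)
      (by rw [abs_of_pos (by positivity)]; linarith)
  rw [enZ_zero F] at h2
  set ε := δ / 2 with hε
  set c : ℝ → M := fun t => po2 e v Z (ε, t) with hc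
  have hcs : ContMDiff 𝓘(ℝ, ℝ) 𝓘(ℝ, E) ∞ c := fun t => cm_line2 F hZ ε t
  have h3 := H766.variation_lt hcs hD h2
  have e0 : c 0 = gm e (v, 0) := po2_of_zero F h0 ε
  have e1 : c D = gm e (v, D) := po2_of_zero F h1 ε
  have e2 : c (2 * D) = c 0 := by
    have k : c (2 * D) = gm e (v, 2 * D) := po2_of_zero F h2D ε
    have k2 := gm_add_per F hD hB hdiam v 0
    rw [zero_add] at k2
    rw [k, e0, k2]
  have hd : edist (c 0) (c D) = ENNReal.ofReal D := by
    rw [e0, e1, gm_zero F, edist_dist]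
    exact congrArg ENNReal.ofReal (dist_bar F hD hB v)
  have h4 : edist (c 0) (c D) ≤ eVariationOn c (Icc 0 D) :=
    eVariationOn.edist_le _ (left_mem_Icc.2 hD.le) (right_mem_Icc.2 hD.le)
  have h5 : edist (c D) (c (2 * D)) ≤ eVariationOn c (Icc D (2 * D)) :=
    eVariationOn.edist_le _ (left_mem_Icc.2 (by linarith)) (right_mem_Icc.2 (by linarith))
  have h6 : eVariationOn c (Icc 0 D) + eVariationOn c (Icc D (2 * D)) =
      eVariationOn c (Icc 0 (2 * D)) := by
    have k := eVariationOn.Icc_add_Icc c (s := univ) hD.le (by linarith : D ≤ 2 * D)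
      (mem_univ D)
    simpa only [univ_inter] using k
  rw [e2, edist_comm (c D) (c 0)] at h5
  have h7 : ENNReal.ofReal (2 * D) = ENNReal.ofReal D + ENNReal.ofReal D := by
    rw [← ENNReal.ofReal_add hD.le hD.le]
    congr 1
    ring
  rw [← h6, h7] at h3
  rw [hd] at h4 h5
  exact absurd (add_le_add h4 h5) (not_le.2 h3)

end Single

/-! ### integrals over one and two periods -/

theorem int_two {f : ℝ → ℝ} (hf : Continuous f) {T : ℝ} (h : ∀ t, f (t + T) = f t) :
    ∫ t in (0 : ℝ)..(2 * T), f t = 2 * ∫ t in (0 : ℝ)..T, f t := by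
  have h1 := intervalIntegral.integral_add_adjacent_intervals
    (hf.intervalIntegrable (μ := volume) 0 T) (hf.intervalIntegrable T (2 * T))
  have h2 := intervalIntegral.integral_comp_add_right (a := 0) (b := T) f T
  rw [zero_add, ← two_mul] at h2
  rw [← h1, ← h2]
  simp only [h]
  ring

theorem int_neg_anti {f : ℝ → ℝ} {T : ℝ} (h : ∀ t, f (t + T) = -f t) :
    ∫ t in (0 : ℝ)..T, f (-t) = -∫ t in (0 : ℝ)..T, f t := by
  have h2 := intervalIntegral.integral_comp_add_right (a := -T) (b := 0) f T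
  rw [neg_add_cancel, zero_add] at h2
  rw [intervalIntegral.integral_comp_neg, neg_zero, ← h2]
  simp only [h, intervalIntegral.integral_neg, neg_neg]

variable {F : Facts e} {v : UT E M} {δ η : ℝ → E}

/-- the product of an antiperiodic source with a Jacobi field vanishing at `0` -/
theorem AS.int_Jc (hD : 0 < D) (hB : InjGE e D) (hdiam : ∀ p q : M, dist p q ≤ D)
    (h : AS F D v δ) {c : E} (hc : ip (foot v) (vec' v) c = 0) :
    ∫ t in (0 : ℝ)..(2 * D), ip (gm e (v, t)) (δ t) (Jc e v c t) =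
      2 * ip (foot v) c (Gr F D v δ 0) := by
  set f : ℝ → ℝ := fun t => ip (foot v) c (Jc e (phi F (v, t)) (δ t) (0 - t)) with hf
  have h1 : ∀ t, ip (gm e (v, t)) (δ t) (Jc e v c t) = -f t := by
    intro t
    have k := Jc_anti F hD hB hdiam v 0 t (a := δ t) (c := c) (h.perp t)
      (by rw [gm_zero F, phi_zero]; exact hc)
    rw [phi_zero, sub_zero, gm_zero F] at k
    exact k
  have h2 : ∀ t, f (t + 2 * D) = -f t := by
    intro t
    have k := Jc_per F hD hB hdiam (u := phi F (v, t)) (c := δ t) (h.perp t) (0 - (t + 2 * D))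
    rw [show 0 - (t + 2 * D) + 2 * D = 0 - t by ring] at k
    simp only [hf]
    rw [phi_add_per F hD hB hdiam, h.anti, Jc_neg, ip_neg_right', k]
  have h3 : ∀ r, ip (foot v) c (Jc e (phi F (v, 0 - r)) (δ (0 - r)) r) = f (-r) := by
    intro r
    simp only [hf]
    rw [zero_sub, zero_sub, neg_neg]
  rw [ip_Gr F D h.fa]
  simp only [h1, h3]
  rw [int_neg_anti h2, intervalIntegral.integral_neg]
  ring

/-- **index at most `l + N` on the antiperiodic fields** -/
theorem AS.int_nonpos (hD : 0 < D) (hB : InjGE e D) (hdiam : ∀ p q : M, dist p q ≤ D)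
    (h : AS F D v δ) (h0 : Gr F D v δ 0 = 0)
    (h1 : ∀ w : E, (w : TangentSpace 𝓘(ℝ, E) (foot v)) ∈ Lf e D v →
      ip (gm e (v, D)) (Tr F hD hB hdiam v w) (Gr F D v δ D) = 0) :
    ∫ t in (0 : ℝ)..(2 * D), ip (gm e (v, t)) (δ t) (Gr F D v δ t) ≤ 0 := by
  have hmem := orth_of_Tr F hD hB hdiam v (h.Gr_perp D) h1
  obtain ⟨w₁, hw1', hw2'⟩ : ∃ w₁ : E, ip (foot v) (vec' v) w₁ = 0 ∧
      dE e (foot v) (D • vec' v) w₁ = Gr F D v δ D := by
    obtain ⟨w₁, hw1, hw2⟩ := H703.exists_dE_eq F hD hB hdiam (x := foot v) (y := gm e (v, D))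
      (v := tv v) (nm_vec' v) rfl hmem
    exact ⟨w₁, hw1, hw2⟩
  set c : E := (-D⁻¹) • w₁ with hc
  have hcp : ip (foot v) (vec' v) c = 0 := by rw [hc, ip_smul_right', hw1', mul_zero]
  have hcp' : ip (foot (phi F (v, 0))) (vec' (phi F (v, 0))) c = 0 := by
    rw [phi_zero]; exact hcp
  have hJD : Jc e v c D = -Gr F D v δ D := by
    rw [hc, Jc_smul, Jc_eq F, hw2', smul_smul, neg_mul, inv_mul_cancel₀ hD.ne', neg_smul, one_smul]
  set J : ℝ → E := fun t => Jc e (phi F (v, 0)) c (t - 0) with hJ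
  have hJ' : ∀ t, J t = Jc e v c t := by
    intro t
    simp only [hJ]
    rw [phi_zero, sub_zero]
  have hJfa : ∀ t, FA e v J t := fun t => fa_Jc F v c 0 t
  have hGfa := fa_Gr F D h.fa
  set Z : ℝ → E := fun t => Gr F D v δ t + J t with hZ
  have hZfa : ∀ t, FA e v Z t := fun t => (hGfa t).add (hJfa t)
  have hZ0 : Z 0 = 0 := by
    simp only [hZ]
    rw [h0, hJ', Jc_zero F, add_zero]
  have hZD : Z D = 0 := by
    simp only [hZ]
    rw [hJ', hJD, add_neg_cancel]
  have hZ2 : Z (2 * D) = 0 := by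
    have k1 := h.Gr_anti hD hB hdiam 0
    have k2 := Jc_per F hD hB hdiam hcp 0
    rw [zero_add] at k1 k2
    simp only [hZ]
    rw [k1, h0, hJ', k2, Jc_zero F, neg_zero, add_zero]
  have hje : ∀ t, JE e (foot (phi F (v, t))) (phi F (v, t)) (fun r => Z (t + r)) (δ t) := by
    intro t
    have hsrc := mem_extChartAt_source (I := 𝓘(ℝ, E)) (foot (phi F (v, t)))
    have k1 := h.je hD hB hdiam t
    have k2 := je_Jc_shift F hD hB v 0 t hcp'
    have k4 := JE.add F hsrc (fa_shift F hGfa t 0) (fa_shift F hJfa t 0) k1 k2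
    exact JE.congr (fun r => rfl) (add_zero _) k4
  have key := deriv2_enZ' F hD hB (D' := D) hZfa (fun a => by
    rw [mx2_of_zero F hZ2, mx2_of_zero F hZ0]) hje (cont_fa F h.fa hZfa)
  have hpos := deriv2_enZ_nonneg' F hD hB hdiam hZfa hZ0 hZD hZ2
  have hsplit : ∀ t, ip (gm e (v, t)) (δ t) (Z t) =
      ip (gm e (v, t)) (δ t) (Gr F D v δ t) + ip (gm e (v, t)) (δ t) (J t) :=
    fun t => ip_add_right' _ _ _ _
  have c1 := cont_fa F h.fa hGfa
  have c2 := cont_fa F h.fa hJfa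
  have hzero : ∫ t in (0 : ℝ)..(2 * D), ip (gm e (v, t)) (δ t) (J t) = 0 := by
    simp only [hJ']
    rw [h.int_Jc hD hB hdiam hcp, h0]
    exact mul_eq_zero_of_right _
      (inner_zero_right (E := TangentSpace 𝓘(ℝ, E) (foot v)) (𝕜 := ℝ) _)
  simp only [hsplit] at key
  rw [intervalIntegral.integral_add (c1.intervalIntegrable _ _) (c2.intervalIntegrable _ _),
    hzero, add_zero] at key
  linarith

/-! ### the doubled geodesic -/

section Double

variable {hD : 0 < D} {hB : InjGE e D} {hdiam : ∀ p q : M, dist p q ≤ D} {X δ₁ : UT E M → E}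

/-- a field of level one plus the Green field of an antiperiodic source -/
def Z2 (F : Facts e) (D : ℝ) (X : UT E M → E) (v : UT E M) (δ : ℝ → E) (t : ℝ) : E :=
  X (phi F (v, t)) + Gr F D v δ t

theorem fa_Z2 (hX : Fld X) (h : AS F D v δ) (t : ℝ) : FA e v (Z2 F D X v δ) t :=
  (hX.fa F v t).add (fa_Gr F D h.fa t)

theorem Z2_per (hD : 0 < D) (hB : InjGE e D) (hdiam : ∀ p q : M, dist p q ≤ D)
    (h : AS F D v δ) (t : ℝ) : Z2 F D X v δ (t + 2 * (2 * D)) = Z2 F D X v δ t := by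
  unfold Z2
  rw [two_mul (2 * D), ← add_assoc, phi_add_per F hD hB hdiam, phi_add_per F hD hB hdiam,
    h.Gr_anti hD hB hdiam, h.Gr_anti hD hB hdiam, neg_neg]

theorem gm_per2 (F : Facts e) (hD : 0 < D) (hB : InjGE e D) (hdiam : ∀ p q : M, dist p q ≤ D)
    (v : UT E M) (t : ℝ) : gm e (v, t + 2 * (2 * D)) = gm e (v, t) := by
  rw [two_mul (2 * D), ← add_assoc, gm_add_per F hD hB hdiam, gm_add_per F hD hB hdiam]

/-- the first variation on the doubled geodesic -/
theorem deriv_Z2 (hD : 0 < D) (hB : InjGE e D) (hdiam : ∀ p q : M, dist p q ≤ D)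
    (hX : Fld X) (h : AS F D v δ) : deriv (enZ e (2 * D) v (Z2 F D X v δ)) 0 = 0 :=
  deriv_enZ' F hD hB (fa_Z2 hX h)
    (mx2_per' F (gm_per2 F hD hB hdiam v) (fa_Z2 hX h) (Z2_per hD hB hdiam h))

/-- the second variation on the doubled geodesic -/
theorem deriv2_Z2 (hX : DF F hD hB hdiam X δ₁) (h : AS F D v δ) :
    (1 / 2 : ℝ) * deriv (deriv (enZ e (2 * D) v (Z2 F D X v δ))) 0 =
      -(2 * ((∫ t in (0 : ℝ)..(2 * D), ip (gm e (v, t)) (δ₁ (phi F (v, t))) (X (phi F (v, t)))) +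
        ∫ t in (0 : ℝ)..(2 * D), ip (gm e (v, t)) (δ t) (Gr F D v δ t))) := by
  have hZfa := fa_Z2 hX.fld h
  have hGfa := fa_Gr F D h.fa
  have hXfa := hX.fld.fa F v
  have hdfa := hX.sfld.fa F v
  have hje : ∀ t, JE e (foot (phi F (v, t))) (phi F (v, t)) (fun r => Z2 F D X v δ (t + r))
      (δ₁ (phi F (v, t)) + δ t) := fun t =>
    JE.add F (mem_extChartAt_source _) (fa_shift F hXfa t 0) (fa_shift F hGfa t 0)
      (hX.je_shift v t) (h.je hD hB hdiam t)
  have key := deriv2_enZ' F hD hB (D' := 2 * D) hZfa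
    (mx2_per' F (gm_per2 F hD hB hdiam v) hZfa (Z2_per hD hB hdiam h))
    (δ := fun t => δ₁ (phi F (v, t)) + δ t) hje
    (cont_fa F (fun t => (hdfa t).add (h.fa t)) hZfa)
  have hsplit : ∀ t, ip (gm e (v, t)) (δ₁ (phi F (v, t)) + δ t) (Z2 F D X v δ t) =
      (ip (gm e (v, t)) (δ₁ (phi F (v, t))) (X (phi F (v, t))) +
        ip (gm e (v, t)) (δ t) (Gr F D v δ t)) +
      (ip (gm e (v, t)) (δ₁ (phi F (v, t))) (Gr F D v δ t) +
        ip (gm e (v, t)) (δ t) (X (phi F (v, t)))) := by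
    intro t
    unfold Z2
    rw [ip_add_left', ip_add_right', ip_add_right']
    ring
  have c1 := cont_fa F hdfa hXfa
  have c2 := cont_fa F h.fa hGfa
  have c3 := cont_fa F hdfa hGfa
  have c4 := cont_fa F h.fa hXfa
  have hneg : ∀ (x : M) (p q : E), ip x (-p) q = -ip x p q := fun x p q =>
    inner_neg_left (𝕜 := ℝ) (E := TangentSpace 𝓘(ℝ, E) x) p q
  have c12 : Continuous fun t => ip (gm e (v, t)) (δ₁ (phi F (v, t))) (X (phi F (v, t))) +
      ip (gm e (v, t)) (δ t) (Gr F D v δ t) := c1.add c2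
  have c34 : Continuous fun t => ip (gm e (v, t)) (δ₁ (phi F (v, t))) (Gr F D v δ t) +
      ip (gm e (v, t)) (δ t) (X (phi F (v, t))) := c3.add c4
  have hz := int_anti (D := 2 * D) c34 (fun t => by
    rw [gm_add_per F hD hB hdiam, phi_add_per F hD hB hdiam, h.Gr_anti hD hB hdiam, h.anti,
      ip_neg_right', hneg]
    ring)
  have ht := int_two (T := 2 * D) c12 (fun t => by
    rw [gm_add_per F hD hB hdiam, phi_add_per F hD hB hdiam, h.Gr_anti hD hB hdiam, h.anti,
      ip_neg_right', hneg, neg_neg])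
  simp only [hsplit] at key
  rw [intervalIntegral.integral_add (c12.intervalIntegrable _ _)
    (c34.intervalIntegrable _ _), hz, add_zero, ht,
    intervalIntegral.integral_add (c1.intervalIntegrable _ _) (c2.intervalIntegrable _ _)] at key
  exact key

end Double

end

end Vale.Agent.P231Z.N2
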